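import Mathlib

/-!
# P067 topology: elimination over rings with a division norm

For a commutative ring with a division norm: transvections generate the special linear group,
which is transitive on left-invertible `k`-tuples for `k < n`; surjective ring maps onto such a
ring are surjective on special linear groups.
-/

namespace Vale.Agent.P067.Top

open Finset Matrix
open scoped Classical

/-- Division with a remainder of smaller norm. -/
def HasDivNorm (R : Type) [CommRing R] : Prop :=
  ∃ ν : R → ℕ, ∀ a x : R, a ≠ 0 → ∃ q, x - q * a = 0 ∨ ν (x - q * a) < ν a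

lemma hasDivNorm_polynomial (F : Type) [Field F] : HasDivNorm (Polynomial F) := by
  refine ⟨fun a => a.natDegree, fun a x ha => ⟨x / a, ?_⟩⟩
  have e : x - x / a * a = x % a := by
    rw [sub_eq_iff_eq_add, mul_comm, add_comm]
    exact (EuclideanDomain.div_add_mod x a).symm
  rw [e]
  by_cases h : x % a = 0
  · exact Or.inl h
  · refine Or.inr ?_
    have hlt := EuclideanDomain.mod_lt x ha
    exact Polynomial.natDegree_lt_natDegree h hlt

lemma HasDivNorm.of_surjective {R S : Type} [CommRing R] [CommRing S] (φ : R →+* S)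
    (hφ : Function.Surjective φ) (h : HasDivNorm R) : HasDivNorm S := by
  obtain ⟨ν, hν⟩ := h
  have hex : ∀ x : S, ∃ m, ∃ a, φ a = x ∧ ν a = m := fun x =>
    ⟨_, (hφ x).choose, (hφ x).choose_spec, rfl⟩
  refine ⟨fun x => Nat.find (hex x), fun a x ha => ?_⟩
  obtain ⟨a₀, ha₀, hmin⟩ := Nat.find_spec (hex a)
  obtain ⟨x₀, hx₀⟩ := hφ x
  obtain ⟨q, hq⟩ := hν a₀ x₀ fun h0 => ha (by rw [← ha₀, h0, map_zero])
  refine ⟨φ q, ?_⟩
  have e : φ (x₀ - q * a₀) = x - φ q * a := by rw [map_sub, map_mul, hx₀, ha₀]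
  rcases hq with hq | hq
  · left
    rw [← e, hq, map_zero]
  · right
    refine lt_of_le_of_lt (Nat.find_min' (hex (x - φ q * a)) ⟨_, e, rfl⟩) ?_
    show ν (x₀ - q * a₀) < Nat.find (hex a)
    rw [← hmin]
    exact hq

section Tv

variable {ι : Type} [Fintype ι] [DecidableEq ι] {R : Type} [CommRing R]

/-- The transvection adding `c` times coordinate `j` to coordinate `i`. -/
def tv (i j : ι) (h : i ≠ j) (c : R) : Matrix.SpecialLinearGroup ι R :=
  ⟨transvection i j c, det_transvection_of_ne i j h c⟩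

lemma tv_mulVec (i j : ι) (h : i ≠ j) (c : R) (v : ι → R) :
    (tv i j h c : Matrix ι ι R) *ᵥ v = Function.update v i (v i + c * v j) := by
  ext l
  show (transvection i j c *ᵥ v) l = _
  rw [transvection, add_mulVec, one_mulVec, single_mulVec]
  by_cases hl : l = i
  · subst hl
    simp
  · simp [hl]

variable (ι R) in
/-- The subgroup generated by transvections. -/
def El : Subgroup (Matrix.SpecialLinearGroup ι R) :=
  Subgroup.closure {g | ∃ (i j : ι) (h : i ≠ j) (c : R), g = tv i j h c}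

lemma tv_mem (i j : ι) (h : i ≠ j) (c : R) : tv i j h c ∈ El ι R :=
  Subgroup.subset_closure ⟨i, j, h, c, rfl⟩

lemma mul_mulVec' (g g' : Matrix.SpecialLinearGroup ι R) (v : ι → R) :
    ((g * g' : Matrix.SpecialLinearGroup ι R) : Matrix ι ι R) *ᵥ v =
      (g : Matrix ι ι R) *ᵥ ((g' : Matrix ι ι R) *ᵥ v) := by
  rw [Matrix.SpecialLinearGroup.coe_mul, mulVec_mulVec]

/-- Clearing the coordinates other than `j` of a vector with `w j = 1`. -/
lemma exists_clear (w : ι → R) (j : ι) (hw : w j = 1) :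
    ∃ g ∈ El ι R, (g : Matrix ι ι R) *ᵥ w = Pi.single j 1 ∧
      ∀ v : ι → R, v j = 0 → (g : Matrix ι ι R) *ᵥ v = v := by
  suffices main : ∀ T : Finset ι, j ∉ T → ∃ g ∈ El ι R,
      ((g : Matrix ι ι R) *ᵥ w = fun l => if l ∈ T then 0 else w l) ∧
        ∀ v : ι → R, v j = 0 → (g : Matrix ι ι R) *ᵥ v = v by
    obtain ⟨g, hg, hgw, hfix⟩ := main (univ.erase j) (notMem_erase j univ)
    refine ⟨g, hg, ?_, hfix⟩
    rw [hgw]
    ext l
    by_cases hl : l = j
    · simp [hl, hw]
    · simp [hl]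
  intro T
  induction T using Finset.induction with
  | empty => exact fun _ => ⟨1, one_mem _, by simp, fun v _ => by simp⟩
  | @insert l T hl ih =>
    intro hj
    rw [mem_insert, not_or] at hj
    obtain ⟨g, hg, hgw, hfix⟩ := ih hj.2
    refine ⟨tv l j (Ne.symm hj.1) (-w l) * g, mul_mem (tv_mem _ _ _ _) hg, ?_, ?_⟩
    · rw [mul_mulVec', hgw, tv_mulVec]
      ext m
      by_cases hm : m = l
      · subst hm
        simp [hl, hj.2, hw]
      · simp [hm]
    · intro v hv
      rw [mul_mulVec', hfix v hv, tv_mulVec, hv, mul_zero, add_zero, Function.update_eq_self]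

/-- Euclid's algorithm on the coordinates in `S`. -/
lemma exists_unit_coord (hR : HasDivNorm R) (S : Finset ι) (c w : ι → R)
    (hw : ∑ i ∈ S, c i * w i = 1) (hS : S.Nonempty) :
    ∃ g ∈ El ι R, (∀ v : ι → R, (∀ i ∈ S, v i = 0) → (g : Matrix ι ι R) *ᵥ v = v) ∧
      ∃ i ∈ S, IsUnit (((g : Matrix ι ι R) *ᵥ w) i) := by
  obtain ⟨ν, hν⟩ := hR
  suffices main : ∀ N, ∀ w c : ι → R, (∑ i ∈ S, if w i = 0 then 0 else ν (w i) + 1) = N →
      ∑ i ∈ S, c i * w i = 1 →
      ∃ g ∈ El ι R, (∀ v : ι → R, (∀ i ∈ S, v i = 0) → (g : Matrix ι ι R) *ᵥ v = v) ∧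
        ∃ i ∈ S, IsUnit (((g : Matrix ι ι R) *ᵥ w) i) from main _ w c rfl hw
  intro N
  induction N using Nat.strong_induction_on with
  | _ N ih =>
    intro w c hN hw
    by_cases htwo : ∃ i ∈ S, ∃ l ∈ S, i ≠ l ∧ w i ≠ 0 ∧ w l ≠ 0
    swap
    · refine ⟨1, one_mem _, fun v _ => by simp, ?_⟩
      push Not at htwo
      by_cases hz : ∀ i ∈ S, w i = 0
      · obtain ⟨i, hi⟩ := hS
        have h01 : (0 : R) = 1 := by
          rw [← hw, sum_eq_zero fun l hl => by rw [hz l hl, mul_zero]]
        exact ⟨i, hi, IsUnit.of_mul_eq_one 1 (by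
          rw [mul_one]; exact (eq_of_zero_eq_one h01 _ _))⟩
      push Not at hz
      obtain ⟨i, hi, hwi⟩ := hz
      refine ⟨i, hi, IsUnit.of_mul_eq_one (c i) ?_⟩
      rw [sum_eq_single i (fun l hl hli => by rw [htwo i hi l hl (Ne.symm hli) hwi, mul_zero])
        (fun h => absurd hi h)] at hw
      simpa [mul_comm] using hw
    obtain ⟨i, hi, l, hl, hil, hwi, hwl⟩ := htwo
    wlog hle : ν (w i) ≤ ν (w l) generalizing i l
    · exact this l hl i hi (Ne.symm hil) hwl hwi (le_of_not_ge hle)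
    obtain ⟨q, hq⟩ := hν (w i) (w l) hwi
    set t := tv l i (Ne.symm hil) (-q) with ht
    set w' := Function.update w l (w l - q * w i) with hw'
    have htw : (t : Matrix ι ι R) *ᵥ w = w' := by
      rw [ht, tv_mulVec, hw']
      congr 1
      ring
    have hlt : (∑ m ∈ S, if w' m = 0 then 0 else ν (w' m) + 1) < N := by
      rw [← hN]
      refine sum_lt_sum (fun m hm => ?_) ⟨l, hl, ?_⟩
      · by_cases hml : m = l
        · subst hml
          rw [hw', Function.update_self, if_neg hwl]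
          rcases hq with hq | hq
          · simp [hq]
          · split_ifs <;> omega
        · rw [hw', Function.update_of_ne hml]
      · rw [hw', Function.update_self, if_neg hwl]
        rcases hq with hq | hq
        · simp [hq]
        · split_ifs <;> omega
    have hcomb : ∑ m ∈ S, Function.update c i (c i + q * c l) m * w' m = 1 := by
      rw [← hw, ← sum_erase_add _ _ hi, ← sum_erase_add _ _ hi]
      have hl' : l ∈ S.erase i := mem_erase.2 ⟨Ne.symm hil, hl⟩
      rw [← sum_erase_add _ _ hl', ← sum_erase_add _ _ hl']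
      have e : ∀ m ∈ (S.erase i).erase l,
          Function.update c i (c i + q * c l) m * w' m = c m * w m := fun m hm => by
        simp only [mem_erase] at hm
        rw [hw', Function.update_of_ne hm.2.1, Function.update_of_ne hm.1]
      rw [sum_congr rfl e, hw', Function.update_self, Function.update_self,
        Function.update_of_ne hil, Function.update_of_ne (Ne.symm hil)]
      ring
    obtain ⟨g, hg, hfix, hu⟩ := ih _ hlt w' _ rfl hcomb
    refine ⟨g * t, mul_mem hg (tv_mem _ _ _ _), fun v hv => ?_, ?_⟩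
    · rw [mul_mulVec', ht, tv_mulVec, hv i hi, mul_zero, add_zero, Function.update_eq_self,
        hfix v hv]
    · rw [mul_mulVec', htw]
      exact hu

/-- Left invertible tuples. -/
def IsPartialBasis {k : ℕ} (v : Fin k → ι → R) : Prop :=
  ∃ f : Fin k → ((ι → R) →ₗ[R] R), ∀ a b, f a (v b) = if a = b then 1 else 0

/-- Transitivity on partial bases. -/
theorem exists_el_mulVec (hR : HasDivNorm R) {k : ℕ} (v : Fin k → ι → R) (hv : IsPartialBasis v)
    (p : Fin k → ι) (hp : Function.Injective p) (hout : ∃ i, i ∉ Set.range p) :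
    ∃ g ∈ El ι R, ∀ a, (g : Matrix ι ι R) *ᵥ v a = Pi.single (p a) 1 := by
  induction k with
  | zero => exact ⟨1, one_mem _, fun a => a.elim0⟩
  | succ k ih =>
    obtain ⟨f, hf⟩ := hv
    obtain ⟨g, hg, hgv⟩ := ih (fun a => v a.castSucc)
      ⟨fun a => f a.castSucc, fun a b => by rw [hf]; simp [Fin.castSucc_inj]⟩
      (fun a => p a.castSucc) (hp.comp (Fin.castSucc_injective k))
      ⟨p (Fin.last k), by
        rintro ⟨a, ha⟩
        exact (Fin.castSucc_lt_last a).ne (hp ha)⟩
    set w := (g : Matrix ι ι R) *ᵥ v (Fin.last k) with hw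
    -- the dual functional
    let φ : (ι → R) →ₗ[R] R := (f (Fin.last k)).comp (Matrix.mulVecLin ((g⁻¹ : _) : Matrix ι ι R))
    have hφg : ∀ u, φ ((g : Matrix ι ι R) *ᵥ u) = f (Fin.last k) u := fun u => by
      simp only [φ, LinearMap.comp_apply, mulVecLin_apply]
      rw [← mul_mulVec', inv_mul_cancel, Matrix.SpecialLinearGroup.coe_one, one_mulVec]
    set S : Finset ι := univ.filter fun i => i ∉ Set.range fun a : Fin k => p a.castSucc
    have hSp : p (Fin.last k) ∈ S := by
      simp only [S, mem_filter, mem_univ, true_and]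
      rintro ⟨a, ha⟩
      exact (Fin.castSucc_lt_last a).ne (hp ha)
    have hcomb : ∑ i ∈ S, φ (Pi.single i 1) * w i = 1 := by
      have h1 : φ w = 1 := by rw [hw, hφg, hf, if_pos rfl]
      have e : w = ∑ i, w i • (Pi.single i 1 : ι → R) := by
        ext l
        simp [Finset.sum_apply, Pi.single_apply]
      rw [e, map_sum] at h1
      refine Eq.trans ?_ h1
      rw [sum_filter]
      refine sum_congr rfl fun i _ => ?_
      rw [map_smul, smul_eq_mul]
      by_cases hi : i ∈ Set.range fun a : Fin k => p a.castSucc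
      swap
      · rw [if_pos hi]; ring
      · rw [if_neg (not_not.2 hi)]
        obtain ⟨a, rfl⟩ := hi
        rw [← hgv a, hφg, hf, if_neg (Fin.castSucc_lt_last a).ne', mul_zero]
    obtain ⟨g₁, hg₁, hfix₁, i, hi, hu⟩ := exists_unit_coord hR S _ w hcomb ⟨_, hSp⟩
    set w₁ := (g₁ : Matrix ι ι R) *ᵥ w with hw₁
    -- make the target coordinate one
    obtain ⟨l₀, hl₀⟩ := hout
    have hl₀S : l₀ ∈ S := by
      simp only [S, mem_filter, mem_univ, true_and]
      rintro ⟨a, ha⟩
      exact hl₀ ⟨_, ha⟩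
    have hl₀ne : l₀ ≠ p (Fin.last k) := fun h => hl₀ ⟨_, h.symm⟩
    have step : ∀ (u : ι → R) (x y : ι), x ∈ S → y ∈ S → y ≠ x → IsUnit (u x) →
        ∃ t ∈ El ι R, (∀ v : ι → R, (∀ i ∈ S, v i = 0) → (t : Matrix ι ι R) *ᵥ v = v) ∧
          ((t : Matrix ι ι R) *ᵥ u) y = 1 := by
      intro u x y hx _ hyx hux
      obtain ⟨a, ha⟩ := hux
      refine ⟨tv y x hyx ((1 - u y) * ↑a⁻¹), tv_mem _ _ _ _, fun v hv => ?_, ?_⟩
      · rw [tv_mulVec, hv x hx, mul_zero, add_zero, Function.update_eq_self]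
      · rw [tv_mulVec, Function.update_self, ← ha, mul_assoc, Units.inv_mul, mul_one]
        ring
    obtain ⟨g₂, hg₂, hfix₂, h2⟩ : ∃ t ∈ El ι R,
        (∀ v : ι → R, (∀ i ∈ S, v i = 0) → (t : Matrix ι ι R) *ᵥ v = v) ∧
          ((t : Matrix ι ι R) *ᵥ w₁) (p (Fin.last k)) = 1 := by
      by_cases hip : i = p (Fin.last k)
      · subst hip
        obtain ⟨t, ht, htf, ht1⟩ := step w₁ _ l₀ hSp hl₀S hl₀ne hu
        obtain ⟨t', ht', htf', ht1'⟩ := step ((t : Matrix ι ι R) *ᵥ w₁) l₀ _ hl₀S hSp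
          (Ne.symm hl₀ne) (by rw [ht1]; exact isUnit_one)
        refine ⟨t' * t, mul_mem ht' ht, fun v hv => ?_, ?_⟩
        · rw [mul_mulVec', htf v hv, htf' v hv]
        · rw [mul_mulVec', ht1']
      · exact step w₁ i _ hi hSp (Ne.symm hip) hu
    obtain ⟨g₃, hg₃, hw₃, hfix₃⟩ := exists_clear ((g₂ : Matrix ι ι R) *ᵥ w₁) _ h2
    refine ⟨g₃ * g₂ * g₁ * g, mul_mem (mul_mem (mul_mem hg₃ hg₂) hg₁) hg, fun a => ?_⟩
    refine Fin.lastCases ?_ (fun a => ?_) a
    · rw [mul_mulVec', mul_mulVec', mul_mulVec', ← hw, ← hw₁, hw₃]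
    · have hz : ∀ l ∈ S, (Pi.single (p a.castSucc) 1 : ι → R) l = 0 := fun l hl => by
        simp only [S, mem_filter, mem_univ, true_and] at hl
        exact Pi.single_eq_of_ne (fun h => hl ⟨a, h.symm⟩) _
      rw [mul_mulVec', mul_mulVec', mul_mulVec', hgv a, hfix₁ _ hz, hfix₂ _ hz,
        hfix₃ _ (hz _ hSp)]

/-- Transvections generate the special linear group. -/
theorem el_eq_top (hR : HasDivNorm R) : El ι R = ⊤ := by
  rw [eq_top_iff]
  intro g _
  rcases isEmpty_or_nonempty ι with h | h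
  · have : g = 1 := by ext i; exact isEmptyElim i
    rw [this]
    exact one_mem _
  obtain ⟨j⟩ := h
  let m := Fintype.card {l : ι // l ≠ j}
  let e : Fin m ≃ {l : ι // l ≠ j} := (Fintype.equivFin _).symm
  let p : Fin m → ι := fun a => (e a).1
  have hp : Function.Injective p := fun a b h => e.injective (Subtype.ext h)
  have hv : IsPartialBasis fun a => (g : Matrix ι ι R) *ᵥ Pi.single (p a) 1 := by
    refine ⟨fun a => (LinearMap.proj (p a)).comp
      (Matrix.mulVecLin ((g⁻¹ : _) : Matrix ι ι R)), fun a b => ?_⟩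
    simp only [LinearMap.comp_apply, mulVecLin_apply, LinearMap.proj_apply]
    rw [← mul_mulVec', inv_mul_cancel, Matrix.SpecialLinearGroup.coe_one, one_mulVec,
      Pi.single_apply]
    simp [hp.eq_iff]
  obtain ⟨h, hh, hcols⟩ := exists_el_mulVec hR _ hv p hp ⟨j, fun ⟨a, ha⟩ => (e a).2 ha⟩
  set A := h * g with hA
  have hAc : ∀ l, l ≠ j → (A : Matrix ι ι R) *ᵥ Pi.single l 1 = Pi.single l 1 := by
    intro l hl
    have := hcols (e.symm ⟨l, hl⟩)
    rw [hA, mul_mulVec']
    simpa [p] using this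
  have hentry : ∀ l x, (A : Matrix ι ι R) x l = ((A : Matrix ι ι R) *ᵥ Pi.single l 1) x :=
    fun l x => by simp
  have hjj : ((A : Matrix ι ι R) *ᵥ Pi.single j 1) j = 1 := by
    rw [← hentry]
    have hdet := A.det_coe
    have hupd : (A : Matrix ι ι R) =
        (1 : Matrix ι ι R).updateCol j fun x => (A : Matrix ι ι R) x j := by
      ext x l
      by_cases hl : l = j
      · subst hl; simp
      · rw [updateCol_ne hl, hentry, hAc l hl, one_apply, Pi.single_apply]
    rw [hupd, ← cramer_apply, cramer_one] at hdet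
    exact hdet
  obtain ⟨t, ht, htw, hfix⟩ := exists_clear ((A : Matrix ι ι R) *ᵥ Pi.single j 1) j hjj
  have hone : t * A = 1 := by
    ext x l
    have hl' : ((t * A : Matrix.SpecialLinearGroup ι R) : Matrix ι ι R) *ᵥ Pi.single l 1 =
        Pi.single l 1 := by
      rw [mul_mulVec']
      by_cases hl : l = j
      · subst hl; exact htw
      · rw [hAc l hl, hfix _ (Pi.single_eq_of_ne (Ne.symm hl) _)]
    have := congrFun hl' x
    rw [Matrix.SpecialLinearGroup.coe_one]
    simpa [one_apply, Pi.single_apply] using this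
  have hg : g = (t * h)⁻¹ := by
    rw [eq_inv_iff_mul_eq_one]
    have : t * h * g = 1 := by rw [mul_assoc]; exact hone
    exact mul_eq_one_comm.1 this
  rw [hg]
  exact inv_mem (mul_mem ht hh)

/-- Surjectivity of reduction. -/
theorem map_surjective {S : Type} [CommRing S] (φ : R →+* S) (hφ : Function.Surjective φ)
    (hS : HasDivNorm S) :
    Function.Surjective (Matrix.SpecialLinearGroup.map (n := ι) φ) := by
  rw [← MonoidHom.range_eq_top, eq_top_iff, ← el_eq_top hS, El, Subgroup.closure_le]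
  rintro g ⟨i, j, hij, c, rfl⟩
  obtain ⟨c₀, rfl⟩ := hφ c
  refine ⟨tv i j hij c₀, ?_⟩
  ext x y
  show φ ((transvection i j c₀ : Matrix ι ι R) x y) = (transvection i j (φ c₀) : Matrix ι ι S) x y
  simp only [transvection, Matrix.add_apply, map_add, Matrix.one_apply, Matrix.single_apply,
    apply_ite φ, map_one, map_zero]

end Tv

end Vale.Agent.P067.Top
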