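import Mathlib

/-!
# P067 topology: chains on finite vertex sets modulo two, exactness, levels, products

A complex is a convex family `P` of finite vertex sets (the empty set allowed), graded by the
number of vertices; its boundary deletes one vertex and forgets what leaves `P`.
-/

namespace Vale.Agent.P067.Top

open Finset
open scoped Classical

variable {V W : Type}

/-- Chains on finite sets of vertices. -/
abbrev Chn (V : Type) : Type := Finset V →₀ ZMod 2

/-- The basis chain of a finite set. -/
noncomputable abbrev basic (σ : Finset V) : Chn V := Finsupp.single σ 1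

/-- Linear extension from basis chains. -/
noncomputable abbrev ext' {N : Type} [AddCommGroup N] [Module (ZMod 2) N]
    (f : Finset V → N) : Chn V →ₗ[ZMod 2] N := Finsupp.linearCombination (ZMod 2) f

lemma ext'_basic {N : Type} [AddCommGroup N] [Module (ZMod 2) N] (f : Finset V → N)
    (σ : Finset V) : ext' f (basic σ) = f σ := by
  simp [ext', basic]

lemma two_zero {N : Type} [AddCommGroup N] [Module (ZMod 2) N] (x : N) : x + x = 0 := by
  rw [← two_smul (ZMod 2), show (2 : ZMod 2) = 0 from rfl, zero_smul]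

/-- Deleting a vertex. -/
noncomputable def bd : Chn V →ₗ[ZMod 2] Chn V := ext' fun σ => ∑ v ∈ σ, basic (σ.erase v)

/-- Forgetting the sets outside `P`. -/
noncomputable def res (P : Set (Finset V)) : Chn V →ₗ[ZMod 2] Chn V :=
  ext' fun σ => if σ ∈ P then basic σ else 0

/-- The boundary of `P`. -/
noncomputable def bdP (P : Set (Finset V)) : Chn V →ₗ[ZMod 2] Chn V := (res P).comp bd

/-- Chains of `P` on sets with `k` vertices. -/
def piece (P : Set (Finset V)) (k : ℕ) : Submodule (ZMod 2) (Chn V) :=
  Finsupp.supported (ZMod 2) (ZMod 2) {σ | σ ∈ P ∧ σ.card = k}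

/-- Exactness on sets with `k` vertices. -/
def Exact (P : Set (Finset V)) (k : ℕ) : Prop :=
  ∀ z ∈ piece P k, bdP P z = 0 → ∃ w ∈ piece P (k + 1), bdP P w = z

/-- Convex families. -/
def Convex (P : Set (Finset V)) : Prop :=
  ∀ σ ∈ P, ∀ τ ∈ P, ∀ ρ, σ ⊆ ρ → ρ ⊆ τ → ρ ∈ P

/-- Families closed under subsets. -/
def Down (P : Set (Finset V)) : Prop := ∀ σ ∈ P, ∀ τ, τ ⊆ σ → τ ∈ P

lemma Down.convex {P : Set (Finset V)} (h : Down P) : Convex P :=
  fun _ _ τ hτ ρ _ hρ => h τ hτ ρ hρ

lemma bd_basic (σ : Finset V) : bd (basic σ) = ∑ v ∈ σ, basic (σ.erase v) := ext'_basic _ _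

lemma res_basic (P : Set (Finset V)) (σ : Finset V) :
    res P (basic σ) = if σ ∈ P then basic σ else 0 := ext'_basic _ _

lemma bdP_basic (P : Set (Finset V)) (σ : Finset V) :
    bdP P (basic σ) = ∑ v ∈ σ, if σ.erase v ∈ P then basic (σ.erase v) else 0 := by
  simp only [bdP, LinearMap.comp_apply, bd_basic, map_sum, res_basic]

lemma basic_mem {P : Set (Finset V)} {σ : Finset V} (h : σ ∈ P) : basic σ ∈ piece P σ.card :=
  Finsupp.single_mem_supported _ _ ⟨h, rfl⟩

lemma piece_mono {P Q : Set (Finset V)} (h : P ⊆ Q) (k : ℕ) : piece P k ≤ piece Q k :=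
  Finsupp.supported_mono fun _ hσ => ⟨h hσ.1, hσ.2⟩

lemma piece_induction {P : Set (Finset V)} {k : ℕ} {motive : Chn V → Prop} {z : Chn V}
    (hz : z ∈ piece P k) (zero : motive 0) (add : ∀ x y, motive x → motive y → motive (x + y))
    (gen : ∀ σ ∈ P, σ.card = k → motive (basic σ)) : motive z := by
  rw [piece, Finsupp.supported_eq_span_single] at hz
  induction hz using Submodule.span_induction with
  | mem x hx =>
    obtain ⟨σ, hσ, rfl⟩ := hx
    exact gen σ hσ.1 hσ.2
  | zero => exact zero
  | add x y _ _ hx hy => exact add x y hx hy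
  | smul c x _ hx =>
    rcases (show c = 0 ∨ c = 1 by revert c; decide) with rfl | rfl
    · simpa using zero
    · simpa using hx

lemma eq_on_piece {N : Type} [AddCommGroup N] [Module (ZMod 2) N] {P : Set (Finset V)} {k : ℕ}
    (f g : Chn V →ₗ[ZMod 2] N) (h : ∀ σ ∈ P, σ.card = k → f (basic σ) = g (basic σ))
    {z : Chn V} (hz : z ∈ piece P k) : f z = g z := by
  exact piece_induction (motive := fun x => f x = g x) hz (by simp)
    (fun x y hx hy => by simp [hx, hy]) h

lemma res_eq_self {P : Set (Finset V)} {k : ℕ} {z : Chn V} (hz : z ∈ piece P k) : res P z = z :=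
  eq_on_piece (res P) LinearMap.id (fun σ hσ _ => by simp [res_basic, hσ]) hz

lemma res_mem {P Q : Set (Finset V)} {k : ℕ} {z : Chn V} (hz : z ∈ piece P k) :
    res Q z ∈ piece {σ | σ ∈ P ∧ σ ∈ Q} k := by
  refine piece_induction (motive := fun x => res Q x ∈ piece {σ | σ ∈ P ∧ σ ∈ Q} k) hz (by simp)
    (fun x y hx hy => by simpa using add_mem hx hy) ?_
  intro σ hσ hk
  rw [res_basic]
  split_ifs with hQ
  · exact hk ▸ basic_mem ⟨hσ, hQ⟩
  · exact zero_mem _

lemma bdP_basic_mem {P : Set (Finset V)} (σ : Finset V) {k : ℕ} (hk : σ.card = k + 1) :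
    bdP P (basic σ) ∈ piece P k := by
  rw [bdP_basic]
  refine sum_mem fun v hv => ?_
  split_ifs with h
  · have : (σ.erase v).card = k := by rw [card_erase_of_mem hv, hk]; omega
    exact this ▸ basic_mem h
  · exact zero_mem _

lemma bdP_mem {P : Set (Finset V)} {k : ℕ} {z : Chn V} (hz : z ∈ piece P (k + 1)) :
    bdP P z ∈ piece P k :=
  piece_induction (motive := fun x => bdP P x ∈ piece P k) hz (by simp)
    (fun x y hx hy => by simpa using add_mem hx hy) fun σ _ hk => bdP_basic_mem σ hk

lemma bd_bd_basic (σ : Finset V) : bd (bd (basic σ)) = 0 := by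
  simp only [bd_basic, map_sum]
  rw [Finset.sum_sigma']
  refine Finset.sum_involution (fun p _ => ⟨p.2, p.1⟩) ?_ ?_ ?_ ?_
  · rintro ⟨v, u⟩ h
    simp only
    rw [erase_right_comm]
    exact two_zero _
  · rintro ⟨v, u⟩ h -
    simp only [mem_sigma, mem_erase] at h
    simp only [ne_eq, Sigma.mk.injEq, heq_eq_eq, not_and]
    exact fun hvu => absurd hvu h.2.1
  · rintro ⟨v, u⟩ h
    simp only [mem_sigma, mem_erase] at h ⊢
    exact ⟨h.2.2, Ne.symm h.2.1, h.1⟩
  · rintro ⟨v, u⟩ _
    rfl

lemma bdP_bdP_basic {P : Set (Finset V)} (hP : Convex P) {σ : Finset V} (hσ : σ ∈ P) :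
    bdP P (bdP P (basic σ)) = 0 := by
  have key : ∀ v ∈ σ, bdP P (if σ.erase v ∈ P then basic (σ.erase v) else 0) =
      res P (bd (basic (σ.erase v))) := by
    intro v hv
    split_ifs with h
    · rfl
    · rw [map_zero, bd_basic, map_sum]
      refine (sum_eq_zero fun u hu => ?_).symm
      rw [res_basic, if_neg]
      exact fun hu' => h (hP _ hu' σ hσ _ (erase_subset _ _) (erase_subset _ _))
  rw [bdP_basic, map_sum, sum_congr rfl key, ← map_sum, ← map_sum, ← bd_basic, bd_bd_basic, map_zero]

lemma bdP_bdP {P : Set (Finset V)} (hP : Convex P) {k : ℕ} {z : Chn V} (hz : z ∈ piece P k) :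
    bdP P (bdP P z) = 0 :=
  eq_on_piece ((bdP P).comp (bdP P)) 0 (fun σ hσ _ => by simp [bdP_bdP_basic hP hσ]) hz

/-- A family with no set of `k` vertices is exact there. -/
lemma exact_of_none {P : Set (Finset V)} {k : ℕ} (h : ∀ σ ∈ P, σ.card ≠ k) : Exact P k := by
  intro z hz _
  refine ⟨0, zero_mem _, ?_⟩
  rw [map_zero]
  symm
  exact piece_induction (motive := fun x => x = 0) hz rfl (fun x y hx hy => by simp [hx, hy])
    fun σ hσ hk => absurd hk (h σ hσ)

/-- Filtering by a level, with pieces of a level separated by a key. -/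
theorem exact_of_levels {P : Set (Finset V)} {k : ℕ} (hP : Convex P) (lev : Finset V → ℕ)
    {ι : Type} (key : Finset V → ι)
    (mono : ∀ σ ∈ P, ∀ v ∈ σ, σ.erase v ∈ P → lev (σ.erase v) ≤ lev σ)
    (same : ∀ σ ∈ P, ∀ v ∈ σ, σ.erase v ∈ P → lev (σ.erase v) = lev σ → key (σ.erase v) = key σ)
    (h : ∀ l a, Exact {σ | σ ∈ P ∧ lev σ = l ∧ key σ = a} k) : Exact P k := by
  suffices main : ∀ N, ∀ z ∈ piece {σ | σ ∈ P ∧ lev σ < N} k, bdP P z = 0 →
      ∃ w ∈ piece P (k + 1), bdP P w = z by
    intro z hz hc
    refine main (z.support.sup lev + 1) z ?_ hc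
    rw [piece, Finsupp.mem_supported]
    intro σ hσ
    exact ⟨⟨((Finsupp.mem_supported _ _).1 hz hσ).1, Nat.lt_succ_of_le (le_sup hσ)⟩,
      ((Finsupp.mem_supported _ _).1 hz hσ).2⟩
  intro N
  induction N with
  | zero =>
    intro z hz _
    refine ⟨0, zero_mem _, ?_⟩
    rw [map_zero]
    symm
    exact piece_induction (motive := fun x => x = 0) hz rfl (fun x y hx hy => by simp [hx, hy])
      fun σ hσ _ => absurd hσ.2 (Nat.not_lt_zero _)
  | succ N ih =>
    intro z hz hc
    let Q : ι → Set (Finset V) := fun a => {σ | σ ∈ P ∧ lev σ = N ∧ key σ = a}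
    have hQP : ∀ a, Q a ⊆ P := fun a σ hσ => hσ.1
    have hcyc : ∀ a, bdP (Q a) (res (Q a) z) = 0 := by
      intro a
      have e : bdP (Q a) (res (Q a) z) = res (Q a) (bdP P z) := by
        refine eq_on_piece ((bdP (Q a)).comp (res (Q a))) ((res (Q a)).comp (bdP P)) ?_ hz
        intro τ hτ _
        simp only [LinearMap.comp_apply, res_basic, bdP_basic, map_sum]
        split_ifs with hτQ
        · rw [bdP_basic]
          refine sum_congr rfl fun v hv => ?_
          by_cases hv' : τ.erase v ∈ Q a
          · rw [if_pos hv', if_pos (hQP a hv'), res_basic, if_pos hv']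
          · rw [if_neg hv']
            split_ifs with hP'
            · rw [res_basic, if_neg hv']
            · rw [map_zero]
        · rw [map_zero]
          refine (sum_eq_zero fun v hv => ?_).symm
          split_ifs with hP'
          · rw [res_basic, if_neg]
            rintro ⟨_, hl, hk⟩
            have hle := mono τ hτ.1 v hv hP'
            have hlN : lev τ = N := by have := hτ.2; omega
            exact hτQ ⟨hτ.1, hlN, (same τ hτ.1 v hv hP' (hl.trans hlN.symm)).symm.trans hk⟩
          · rw [map_zero]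
      rw [e, hc, map_zero]
    have hres : ∀ a, res (Q a) z ∈ piece (Q a) k :=
      fun a => piece_mono (fun σ hσ => hσ.2) k (res_mem hz)
    choose w hw hwz using fun a => h N a (res (Q a) z) (hres a) (hcyc a)
    let A : Finset ι := (z.support.filter fun σ => lev σ = N).image key
    have hwP : ∑ a ∈ A, w a ∈ piece P (k + 1) :=
      sum_mem fun a _ => piece_mono (fun σ hσ => hσ.1) _ (hw a)
    have hzP : z ∈ piece P k := piece_mono (fun σ hσ => hσ.1) _ hz
    have hlow : z + bdP P (∑ a ∈ A, w a) ∈ piece {σ | σ ∈ P ∧ lev σ < N} k := by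
      rw [piece, Finsupp.mem_supported']
      intro τ hτ
      by_cases hτP : τ ∈ P ∧ τ.card = k
      swap
      · have := (Finsupp.mem_supported' _ _).1 (add_mem hzP (bdP_mem hwP)) τ hτP
        exact this
      have hge : N ≤ lev τ := by
        by_contra hlt
        exact hτ ⟨⟨hτP.1, Nat.lt_of_not_le hlt⟩, hτP.2⟩
      have coef : ∀ a, (bdP P (w a)) τ = if τ ∈ Q a then (bdP (Q a) (w a)) τ else 0 := by
        intro a
        refine piece_induction (motive := fun x => (bdP P x) τ =
          if τ ∈ Q a then (bdP (Q a) x) τ else 0) (hw a) (by simp) ?_ ?_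
        · intro x y hx hy
          simp only [map_add, Finsupp.add_apply, hx, hy]
          split_ifs <;> simp
        · intro σ hσ _
          simp only [bdP_basic, Finsupp.finsetSum_apply]
          by_cases hτQ : τ ∈ Q a
          · rw [if_pos hτQ]
            refine sum_congr rfl fun v hv => ?_
            by_cases e : σ.erase v = τ
            · rw [e, if_pos hτP.1, if_pos hτQ]
            · split_ifs <;> simp [basic, e]
          · rw [if_neg hτQ]
            refine sum_eq_zero fun v hv => ?_
            by_cases e : σ.erase v = τ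
            · exfalso
              subst e
              have hle := mono σ hσ.1 v hv hτP.1
              have hlev : lev σ = N := hσ.2.1
              exact hτQ ⟨hτP.1, by omega, (same σ hσ.1 v hv hτP.1 (by omega)).trans hσ.2.2⟩
            · split_ifs <;> simp [basic, e]
      simp only [map_sum, Finsupp.add_apply, Finsupp.finsetSum_apply, coef]
      have hzτ : ∀ a, τ ∈ Q a → (bdP (Q a) (w a)) τ = z τ := by
        intro a ha
        rw [hwz a]
        refine piece_induction (motive := fun x => (res (Q a) x) τ = x τ) hz (by simp)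
          (fun x y hx hy => by simp [hx, hy]) ?_
        intro σ _ _
        rw [res_basic]
        by_cases e : σ = τ
        · rw [e, if_pos ha]
        · split_ifs <;> simp [basic, e]
      rw [sum_congr rfl (g := fun a => if τ ∈ Q a then z τ else 0)
        (fun a _ => by split_ifs with ha; exacts [hzτ a ha, rfl])]
      by_cases hN : z τ = 0
      · simp [hN]
      have hsupp := (Finsupp.mem_supported _ _).1 hz (Finsupp.mem_support_iff.2 hN)
      have hlt : lev τ < N + 1 := hsupp.1.2
      have hlN : lev τ = N := by omega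
      rw [sum_eq_single (key τ)]
      · rw [if_pos ⟨hτP.1, hlN, rfl⟩]
        exact two_zero _
      · exact fun a _ ha => if_neg fun h' => ha h'.2.2.symm
      · intro hA
        exact absurd (mem_image.2 ⟨τ, mem_filter.2 ⟨Finsupp.mem_support_iff.2 hN, hlN⟩, rfl⟩) hA
    obtain ⟨u, hu, huz⟩ := ih _ hlow (by rw [map_add, hc, bdP_bdP hP hwP, add_zero])
    refine ⟨u + ∑ a ∈ A, w a, add_mem hu hwP, ?_⟩
    rw [map_add, huz, add_assoc, two_zero, add_zero]

/-- Exactness below `n` gives a contracting homotopy below `n`. -/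
theorem exists_homotopy {P : Set (Finset V)} (hP : Convex P) (n : ℕ)
    (h : ∀ k < n, Exact P k) : ∃ H : Chn V →ₗ[ZMod 2] Chn V,
      (∀ σ, H (basic σ) ∈ piece P (σ.card + 1)) ∧
      ∀ σ ∈ P, σ.card < n → bdP P (H (basic σ)) + H (bdP P (basic σ)) = basic σ := by
  induction n with
  | zero => exact ⟨0, fun σ => zero_mem _, fun σ _ hσ => absurd hσ (Nat.not_lt_zero _)⟩
  | succ n ih =>
    obtain ⟨H, hH, hId⟩ := ih fun k hk => h k (by omega)
    have low : ∀ σ ∈ P, σ.card = n → bdP P (H (bdP P (basic σ))) = bdP P (basic σ) := by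
      intro σ hσ hn
      rcases n with - | m
      · rw [card_eq_zero] at hn
        simp [hn, bdP_basic]
      have e := eq_on_piece ((bdP P).comp H + H.comp (bdP P)) LinearMap.id
        (fun ρ hρ hρc => hId ρ hρ (by omega)) (bdP_basic_mem (P := P) σ hn)
      simp only [LinearMap.add_apply, LinearMap.comp_apply, LinearMap.id_apply,
        bdP_bdP_basic hP hσ, map_zero, add_zero] at e
      exact e
    have cyc : ∀ σ ∈ P, σ.card = n → bdP P (basic σ + H (bdP P (basic σ))) = 0 := by
      intro σ hσ hn
      rw [map_add, low σ hσ hn, two_zero]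
    have mem : ∀ σ ∈ P, σ.card = n → basic σ + H (bdP P (basic σ)) ∈ piece P n := by
      intro σ hσ hn
      refine add_mem (hn ▸ basic_mem hσ) ?_
      rcases n with - | m
      · rw [card_eq_zero] at hn
        simp [hn, bdP_basic]
      refine piece_induction (motive := fun x => H x ∈ piece P (m + 1))
        (bdP_basic_mem (P := P) σ hn) (by simp) (fun x y hx hy => by simpa using add_mem hx hy) ?_
      exact fun ρ _ hρ => hρ ▸ hH ρ
    choose w hw hwz using fun σ (hσ : σ ∈ P) (hn : σ.card = n) =>
      h n (Nat.lt_succ_self n) _ (mem σ hσ hn) (cyc σ hσ hn)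
    refine ⟨ext' fun σ => if hh : σ ∈ P ∧ σ.card = n then w σ hh.1 hh.2 else H (basic σ), ?_, ?_⟩
    · intro σ
      rw [ext'_basic]
      split_ifs with hh
      · exact hh.2.symm ▸ hw σ hh.1 hh.2
      · exact hH σ
    · intro σ hσ hlt
      set H' := ext' fun σ => if hh : σ ∈ P ∧ σ.card = n then w σ hh.1 hh.2 else H (basic σ)
      have agree : H' (bdP P (basic σ)) = H (bdP P (basic σ)) := by
        rw [bdP_basic, map_sum, map_sum]
        refine sum_congr rfl fun v hv => ?_
        split_ifs
        · rw [ext'_basic, dif_neg]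
          intro hh
          rw [card_erase_of_mem hv] at hh
          have := card_pos.2 ⟨v, hv⟩
          omega
        · simp
      rw [agree, ext'_basic]
      by_cases hn : σ.card = n
      · rw [dif_pos ⟨hσ, hn⟩, hwz σ hσ hn, add_assoc, two_zero, add_zero]
      · rw [dif_neg fun hh => hn hh.2]
        exact hId σ hσ (by omega)

end Vale.Agent.P067.Top
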