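import Vale.Agent.P067.Top.MorseGap

/-!
# P067 topology: the Morse lemma, final form

`simp_exact`: with reference positions whose gaps are full simplices the building is acyclic.
`good_exact`: with reference positions whose gaps are opposition complexes, the good part is
exact on sets with fewer than `n-1` vertices. `good_above_eq_J`: links of good simplices.
-/

namespace Vale.Agent.P067.Top.Model

open Finset
open scoped Classical

variable {n : ℕ} [NeZero n] (M : Model n)

lemma core_of_D_zero {σ : Finset M.Vert} (h : M.D σ = 0) : M.core σ = ∅ := by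
  rw [D, Set.ncard_eq_zero (M.finite_inv σ)] at h
  refine filter_eq_empty_iff.2 fun v hv => ?_
  rintro ⟨c, hcv, x, y, hxy, hs, -⟩
  have := M.exists_normal hxy ⟨c, M.mem_cover.2 (hcv ▸ hv), hs⟩
  rw [h] at this
  exact this

lemma ne_empty_of_D {R : Finset M.Vert} (h : M.D R ≠ 0) : R.Nonempty := by
  rw [nonempty_iff_ne_empty]
  rintro rfl
  apply h
  rw [D, Set.ncard_eq_zero (M.finite_inv _), Set.eq_empty_iff_forall_notMem]
  rintro p ⟨-, -, -, c, hc, -⟩
  rw [mem_cover] at hc
  exact notMem_empty _ hc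

/-- The gaps above the members of `R` account for all `n` indices. -/
lemma le_sum_gaps {R : Finset M.Vert} (hR : R ∈ M.simp) (hne : R.Nonempty) :
    n ≤ R.card + ∑ r ∈ R, (M.ind (M.succ R r.1) - M.ind r.1 - 1).toNat := by
  have hn := n_pos (n := n)
  have hcov : ∀ r ∈ R, r.1 ∈ M.cover R := fun r hr => M.mem_cover.2 (by rwa [norm_vert])
  let g : M.Vert → ℕ := fun r => (M.ind (M.succ R r.1) - M.ind r.1).toNat
  have hsum : R.card + ∑ r ∈ R, (M.ind (M.succ R r.1) - M.ind r.1 - 1).toNat = ∑ r ∈ R, g r := by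
    rw [card_eq_sum_ones, ← sum_add_distrib]
    refine sum_congr rfl fun r hr => ?_
    have := M.ind_lt _ _ (M.succ_spec hR (hcov r hr)).2.1
    simp only [g]
    omega
  rw [hsum]
  have key : ∀ i : ℕ, i < n → ∃ p : (_ : M.Vert) × ℕ,
      p ∈ R.sigma (fun r => range (g r)) ∧ ((M.ind p.1.1 + p.2) % n : ℤ) = i := by
    intro i hi
    obtain ⟨r₀, hr₀⟩ := hne
    have hlow : M.ind (M.sh (-(|M.ind r₀.1| + 1)) r₀.1) ≤ i := by
      rw [M.ind_sh]
      have := le_abs_self (M.ind r₀.1)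
      nlinarith [abs_nonneg (M.ind r₀.1)]
    obtain ⟨j, ⟨c, hc, hci, rfl⟩, hmax⟩ := Int.exists_greatest_of_bdd
      (P := fun j => ∃ d ∈ M.cover R, M.ind d ≤ (i : ℤ) ∧ M.ind d = j)
      ⟨(i : ℤ), fun _ ⟨d, _, hd, e⟩ => e ▸ hd⟩
      ⟨_, _, M.sh_mem_cover (hcov r₀ hr₀) _, hlow, rfl⟩
    have hs := M.succ_spec hR hc
    have hlt : (i : ℤ) < M.ind (M.succ R c) := by
      by_contra h
      have := hmax _ ⟨_, hs.1, not_lt.1 h, rfl⟩
      have := M.ind_lt _ _ hs.2.1
      omega
    have hr : M.norm c ∈ R := M.mem_cover.1 hc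
    have e2 := M.succ_sh hR (hcov _ hr) (M.ind c / n)
    rw [M.sh_norm] at e2
    rw [e2, M.ind_sh] at hlt
    have e3 : M.ind c = M.ind (M.norm c).1 + M.ind c / n * n := by
      conv_lhs => rw [← M.sh_norm c, M.ind_sh]
    refine ⟨⟨M.norm c, ((i : ℤ) - M.ind c).toNat⟩, mem_sigma.2 ⟨hr, mem_range.2 ?_⟩, ?_⟩
    · simp only [g]
      omega
    · have hd : M.ind (M.norm c).1 + ((i : ℤ) - M.ind c).toNat = i + -(M.ind c / n) * n := by
        rw [neg_mul]
        omega
      simp only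
      rw [hd, Int.add_mul_emod_self_right, Int.emod_eq_of_lt (by omega) (by exact_mod_cast hi)]
  choose f hf hf' using key
  have := card_le_card_of_injOn (s := range n) (t := R.sigma fun r => range (g r))
    (fun i => if h : i < n then f i h else ⟨hne.choose, 0⟩)
    (fun i hi => by rw [coe_range, Set.mem_Iio] at hi; simp only [dif_pos hi]; exact hf i hi)
    (fun i hi j hj e => by
      rw [coe_range, Set.mem_Iio] at hi hj
      simp only [dif_pos hi, dif_pos hj] at e
      have h1 := hf' i hi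
      rw [e, hf' j hj] at h1
      exact_mod_cast h1.symm)
  simpa [card_sigma] using this

/-- Some gap of a forced family has length at least two. -/
lemma exists_long_gap
    (hone : ∀ c c', c < c' → M.ind c' = M.ind c + 1 → (M.pos c' \ M.pos c).Subsingleton)
    {R : Finset M.Vert} (hR : R ∈ M.simp) (hne : R.Nonempty) (hcore : M.core R = R) :
    ∃ r ∈ R, M.ind r.1 + 1 < M.ind (M.succ R r.1) := by
  by_contra hall
  push Not at hall
  have hstep : ∀ c ∈ M.cover R, M.ind (M.succ R c) = M.ind c + 1 := by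
    intro c hc
    have hr : M.norm c ∈ R := M.mem_cover.1 hc
    have hrc : (M.norm c).1 ∈ M.cover R := M.mem_cover.2 (by rwa [norm_vert])
    have h1 := M.ind_lt _ _ (M.succ_spec hR hrc).2.1
    have h2 := hall _ hr
    conv_lhs => rw [← M.sh_norm c, M.succ_sh hR hrc, M.ind_sh]
    conv_rhs => rw [← M.sh_norm c, M.ind_sh]
    omega
  have hdiff : ∀ c ∈ M.cover R, ∃ z, z ∈ M.pos (M.succ R c) ∧ z ∉ M.pos c := by
    intro c hc
    by_contra hh
    push Not at hh
    have hlt := (M.succ_spec hR hc).2.1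
    exact M.pos_ne _ _ hlt (Set.Subset.antisymm (M.pos_mono _ _ hlt.le) hh)
  choose! z hz hz' using hdiff
  have hdec : ∀ c ∈ M.cover R, z (M.succ R c) < z c := by
    intro c hc
    obtain ⟨hs1, hs2, -⟩ := M.succ_spec hR hc
    set d := M.succ R c with hd
    have hdR : M.norm d ∈ M.core R := by rw [hcore]; exact M.mem_cover.1 hs1
    obtain ⟨-, e, hed, x, y, hxy, hsep, hu⟩ := mem_filter.1 hdR
    have he : M.sh (M.ind d / n - M.ind e / n) e = d := by
      conv_lhs => arg 3; rw [← M.sh_norm e, hed]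
      rw [sh_sh, sub_add_cancel, sh_norm]
    set m := M.ind d / n - M.ind e / n
    have hsd : M.Sep d (x + m * n, y + m * n) := by
      rw [← he, sep_sh]
      simpa using hsep
    have hud : ∀ u ∈ M.cover R, M.Sep u (x + m * n, y + m * n) → u = d := by
      intro u hu1 hu2
      have h3 := hu (M.sh (-m) u) (M.sh_mem_cover hu1 _) (by rw [sep_sh]; simpa using hu2)
      rw [← he, ← h3, sh_sh, add_neg_cancel, M.sh_zero]
    obtain ⟨hyd, hxd⟩ := hsd
    obtain ⟨hd1, hd2, -⟩ := M.succ_spec hR hs1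
    have hyc : y + m * n ∉ M.pos c := fun h =>
      hs2.ne (hud c hc ⟨h, fun h' => hxd (M.pos_mono _ _ hs2.le h')⟩)
    have hxs : x + m * n ∈ M.pos (M.succ R d) := by
      by_contra h
      exact hd2.ne' (hud _ hd1 ⟨M.pos_mono _ _ hd2.le hyd, h⟩)
    have e1 : z c = y + m * n := hone c d hs2 (hstep c hc) ⟨hz c hc, hz' c hc⟩ ⟨hyd, hyc⟩
    have e2 : z d = x + m * n := hone d _ hd2 (hstep d hs1) ⟨hz d hs1, hz' d hs1⟩ ⟨hxs, hxd⟩
    omega
  obtain ⟨r, hr⟩ := hne
  have hrc : r.1 ∈ M.cover R := M.mem_cover.2 (by rwa [norm_vert])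
  have iter : ∀ k, (M.succ R)^[k] r.1 ∈ M.cover R ∧ M.ind ((M.succ R)^[k] r.1) = M.ind r.1 + k ∧
      z ((M.succ R)^[k] r.1) ≤ z r.1 := by
    intro k
    induction k with
    | zero => simpa using hrc
    | succ k ih =>
      rw [Function.iterate_succ_apply']
      refine ⟨(M.succ_spec hR ih.1).1, ?_, (hdec _ ih.1).le.trans ih.2.2⟩
      rw [hstep _ ih.1, ih.2.1]
      push_cast
      ring
  have htop : (M.succ R)^[n] r.1 = M.sh 1 r.1 := by
    by_contra hne'
    rcases hR (iter n).1 (M.sh_mem_cover hrc 1) hne' with h | h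
    · have := M.ind_lt _ _ (lt_of_le_of_ne h hne')
      rw [(iter n).2.1, M.ind_sh] at this
      omega
    · have := M.ind_lt _ _ (lt_of_le_of_ne h (Ne.symm hne'))
      rw [(iter n).2.1, M.ind_sh] at this
      omega
  have h1 := (iter n).2.2
  rw [htop] at h1
  have hz1 : z (M.sh 1 r.1) = z r.1 + n := by
    refine hone (M.sh 1 r.1) _ (M.succ_spec hR (M.sh_mem_cover hrc 1)).2.1
      (hstep _ (M.sh_mem_cover hrc 1)) ⟨hz _ (M.sh_mem_cover hrc 1), hz' _ (M.sh_mem_cover hrc 1)⟩ ?_
    rw [M.succ_sh hR hrc, Set.mem_sdiff, M.pos_sh, M.pos_sh]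
    simpa using And.intro (hz r.1 hrc) (hz' r.1 hrc)
  have := n_pos (n := n)
  omega

/-- The whole complex is exact when the good part and the gaps of length at least two are. -/
theorem simp_exact
    (hone : ∀ c c', c < c' → M.ind c' = M.ind c + 1 → (M.pos c' \ M.pos c).Subsingleton)
    (hfull : ∀ c c', c < c' → c' ≤ M.sh 1 c → M.ind c + 1 < M.ind c' → ∀ k, Exact (M.gap c c') k)
    (hbase : ∀ k, Exact M.good k) (k : ℕ) : Exact M.simp k := by
  refine exact_of_levels M.down_simp.convex M.D M.core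
    (fun σ _ v _ _ => M.D_mono (erase_subset _ _)) (fun σ hσ v _ _ e => M.core_erase hσ v e) ?_
  intro l a
  by_cases he : ∃ σ₀, σ₀ ∈ M.simp ∧ M.D σ₀ = l ∧ M.core σ₀ = a
  swap
  · exact exact_of_none fun σ hσ => absurd ⟨σ, hσ.1, hσ.2⟩ he
  obtain ⟨σ₀, h₀, rfl, rfl⟩ := he
  by_cases hD : M.D σ₀ = 0
  · have e : {σ | σ ∈ M.simp ∧ M.D σ = M.D σ₀ ∧ M.core σ = M.core σ₀} = M.good := by
      ext σ
      rw [Set.mem_ofPred_eq, M.mem_good_iff, hD, M.core_of_D_zero hD]
      exact ⟨fun h => ⟨h.1, h.2.1⟩, fun h => ⟨h.1, h.2, M.core_of_D_zero h.2⟩⟩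
    rw [e]
    exact hbase k
  rw [M.level_eq h₀]
  set R := M.core σ₀
  have hR : R ∈ M.simp := M.down_simp _ h₀ _ (M.core_subset _)
  have hDR : M.D R ≠ 0 := by rwa [D, M.inv_core h₀]
  have hne := M.ne_empty_of_D hDR
  obtain ⟨r₀, hr₀, hlong⟩ := M.exists_long_gap hone hR hne (M.core_core h₀)
  refine M.exact_piece hR hne (fun r => if r = r₀ then k + 1 else 0) ?_ k ?_
  · intro r hr j hj
    by_cases e : r = r₀
    · subst e
      have hrc : r.1 ∈ M.cover R := M.mem_cover.2 (by rwa [norm_vert])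
      exact hfull _ _ (M.succ_spec hR hrc).2.1 (M.succ_le_sh hR hrc) hlong j
    · simp [e] at hj
  · rw [sum_ite_eq', if_pos hr₀]
    omega

lemma bdP_simp_eq {k : ℕ} {z : Chn M.Vert} (hz : z ∈ piece M.good k) :
    bdP M.simp z = bdP M.good z :=
  eq_on_piece (bdP M.simp) (bdP M.good) (fun σ hσ _ => by
    simp only [bdP_basic]
    refine sum_congr rfl fun v _ => ?_
    have h := M.down_good σ hσ _ (erase_subset v σ)
    rw [if_pos h, if_pos h.1]) hz

/-- The good part is exact on sets with fewer than `n - 1` vertices. -/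
theorem good_exact
    (hgap : ∀ c c', c < c' → c' ≤ M.sh 1 c → ∀ k : ℕ, (k : ℤ) + 1 < M.ind c' - M.ind c →
      Exact (M.gap c c') k)
    (hsimp : ∀ k, Exact M.simp k) {k : ℕ} (hk : k + 1 < n) : Exact M.good k := by
  have hbad : Exact M.bad (k + 1) := by
    refine M.exact_bad fun R hR _ hD => ?_
    have hne := M.ne_empty_of_D hD
    have := M.le_sum_gaps hR hne
    refine M.exact_piece hR hne (fun r => (M.ind (M.succ R r.1) - M.ind r.1 - 1).toNat) ?_ (k + 1)
      (by omega)
    intro r hr j hj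
    have hrc : r.1 ∈ M.cover R := M.mem_cover.2 (by rwa [norm_vert])
    exact hgap _ _ (M.succ_spec hR hrc).2.1 (M.succ_le_sh hR hrc) j (by omega)
  intro z hz hc
  have hgs : M.good ⊆ M.simp := fun σ hσ => hσ.1
  have hbs : M.bad ⊆ M.simp := fun σ hσ => hσ.1
  have hzs : bdP M.simp z = 0 := by rw [M.bdP_simp_eq hz, hc]
  obtain ⟨w, hw, hwz⟩ := hsimp k z (piece_mono hgs k hz) hzs
  have hwb : res M.bad w ∈ piece M.bad (k + 1) := piece_mono (fun σ hσ => hσ.2) _ (res_mem hw)
  -- faces of bad simplices which are bad come only from bad simplices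
  have hcomm : ∀ {j : ℕ} {x : Chn M.Vert}, x ∈ piece M.simp j →
      bdP M.bad (res M.bad x) = res M.bad (bdP M.simp x) := by
    intro j x hx
    refine eq_on_piece ((bdP M.bad).comp (res M.bad)) ((res M.bad).comp (bdP M.simp)) ?_ hx
    intro σ hσ _
    simp only [LinearMap.comp_apply, res_basic, bdP_basic, map_sum]
    split_ifs with hb
    · rw [bdP_basic]
      refine sum_congr rfl fun v _ => ?_
      rw [if_pos (M.down_simp σ hσ _ (erase_subset v σ)), res_basic]
    · rw [map_zero]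
      refine (sum_eq_zero fun v _ => ?_).symm
      rw [if_pos (M.down_simp σ hσ _ (erase_subset v σ)), res_basic, if_neg]
      intro h
      exact hb ⟨hσ, fun h0 => h.2 (Nat.eq_zero_of_le_zero (h0 ▸ M.D_mono (erase_subset v σ)))⟩
  have hresz : res M.bad z = 0 := by
    refine eq_on_piece (res M.bad) 0 (fun σ hσ _ => ?_) hz
    rw [res_basic, if_neg, LinearMap.zero_apply]
    exact fun h => h.2 (M.mem_good_iff.1 hσ).2
  obtain ⟨u, hu, huw⟩ := hbad _ hwb (by rw [hcomm hw, hwz, hresz])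
  set w' := w + bdP M.simp u with hw'
  have hus := piece_mono hbs _ hu
  have hw's : w' ∈ piece M.simp (k + 1) := add_mem hw (bdP_mem hus)
  have hb' : res M.bad w' = 0 := by
    rw [hw', map_add, ← hcomm hus, res_eq_self hu, huw, two_zero]
  have hw'g : w' ∈ piece M.good (k + 1) := by
    rw [piece, Finsupp.mem_supported']
    intro σ hσ
    by_cases hσs : σ ∈ M.simp ∧ σ.card = k + 1
    swap
    · exact (Finsupp.mem_supported' _ _).1 hw's σ hσs
    have hσb : σ ∈ M.bad :=
      ⟨hσs.1, fun h => hσ ⟨M.mem_good_iff.2 ⟨hσs.1, h⟩, hσs.2⟩⟩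
    have e : ∀ x ∈ piece M.simp (k + 1), (res M.bad x) σ = x σ := fun x hx =>
      piece_induction (motive := fun x => (res M.bad x) σ = x σ) hx (by simp)
        (fun a b ha hb => by simp [ha, hb]) fun τ _ _ => by
        rw [res_basic]
        by_cases e : τ = σ
        · rw [e, if_pos hσb]
        · split_ifs <;> simp [basic, e]
    rw [← e w' hw's, hb']
    rfl
  refine ⟨w', hw'g, ?_⟩
  rw [← M.bdP_simp_eq hw'g, hw', map_add, hwz, bdP_bdP M.down_simp.convex hus, add_zero]

/-- The good simplices containing a good simplex `R`: free fillers of the gaps. -/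
theorem good_above_eq_J {R : Finset M.Vert} (hR : R ∈ M.good) (hne : R.Nonempty) :
    {σ | σ ∈ M.good ∧ R ⊆ σ} = M.J R R := by
  have h0 := (M.mem_good_iff.1 hR).2
  rw [D, Set.ncard_eq_zero (M.finite_inv R)] at h0
  rw [← M.piece'_eq hR.1 hne]
  ext σ
  rw [Set.mem_ofPred_eq, M.mem_good_iff]
  constructor
  · rintro ⟨⟨hσ, hD⟩, hsub⟩
    rw [D, Set.ncard_eq_zero (M.finite_inv σ)] at hD
    exact ⟨hσ, hsub, by rw [hD]; exact Set.empty_subset _⟩
  · rintro ⟨hσ, hsub, hinv⟩
    rw [h0] at hinv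
    exact ⟨⟨hσ, by rw [D, Set.subset_empty_iff.1 hinv]; simp⟩, hsub⟩

end Vale.Agent.P067.Top.Model
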