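import Vale.Agent.P067.Top.Building
import Vale.Agent.P067.Top.MorseMain

/-!
# P067 topology: the building is acyclic
-/

namespace Vale.Agent.P067.Top.Lat

open Finset
open scoped Classical

variable {F : Type} [Field F] {n : ℕ} [NeZero n]

lemma subsingleton_new {p : Submodule F (K F) → Set ℤ} {c c' : Lat F n}
    (hlow : ∀ {L : Submodule F (K F)} {a b : ℤ}, Bdd L a b → ∀ x, (x < a → x ∈ p L) ∧ (x ∈ p L → x < b))
    (hcnt : ∀ {L L' : Submodule F (K F)} {a b : ℤ}, Bdd L a b → Bdd L' a b → L ≤ L' →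
      ind L' = ind L + cnt (p L' \ p L) a b)
    (hle : c ≤ c') (hi : ind c'.1 = ind c.1 + 1) : (p c'.1 \ p c.1).Subsingleton := by
  obtain ⟨a, b, hc, hc'⟩ := c.2.common c'.2
  intro x hx y hy
  have hxm : ∀ x ∈ p c'.1 \ p c.1, x ∈ Finset.Ico a b := fun x hx => mem_Ico.2
    ⟨by by_contra h; exact hx.2 ((hlow hc x).1 (by omega)), (hlow hc' x).2 hx.1⟩
  by_contra hne
  have h2 : ({x, y} : Finset ℤ).card ≤ cnt (p c'.1 \ p c.1) a b := by
    refine card_le_card fun z hz => ?_
    rcases mem_insert.1 hz with rfl | hz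
    · simp [mem_Ico.1 (hxm _ hx), hx.1, hx.2]
    · rw [mem_singleton] at hz; subst hz
      simp [mem_Ico.1 (hxm _ hy), hy.1, hy.2]
  rw [card_pair hne] at h2
  have := hcnt hc hc' hle
  omega

theorem hone' (c c' : Lat F n) (h : c < c') (hi : ind c'.1 = ind c.1 + 1) :
    (maxSet c'.1 \ maxSet c.1).Subsingleton :=
  subsingleton_new (p := maxSet) (fun hb _ => ⟨hb.mem_maxSet, hb.lt_of_maxSet⟩)
    (fun h1 h2 h3 => ind_add_cnt_max h1 h2 h3) h.le hi

theorem hone (c c' : Lat F n) (h : c < c') (hi : ind c'.1 = ind c.1 + 1) :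
    (minSet c'.1 \ minSet c.1).Subsingleton :=
  subsingleton_new (p := minSet) (fun hb _ => ⟨hb.mem_minSet, hb.lt_of_minSet⟩)
    (fun h1 h2 h3 => ind_add_cnt h1 h2 h3) h.le hi

/-- Gaps by highest positions are full simplices. -/
theorem exact_gap' {c c' : Lat F n} (h : c < c') (hT : c' ≤ shLat 1 c)
    (hlong : ind c.1 + 1 < ind c'.1) (k : ℕ) : Exact ((posModel' F n).gap c c') k := by
  obtain ⟨e, ⟨he, -⟩, -⟩ := existsUnique_fills' h.le hT (i := ind c.1 + 1) (by omega) hlong
  have hall : ∀ τ : Finset (posModel' F n).Lam, (∀ x ∈ τ, (posModel' F n).Fills c c' x) →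
      τ ∈ (posModel' F n).gap c c' := fun τ hτ =>
    ⟨fun x hx y hy _ => fills'_total (hτ x hx) (hτ y hy), hτ⟩
  have hdown : Down ((posModel' F n).gap c c') := fun σ hσ τ hτ =>
    hall τ fun x hx => hσ.2 x (hτ hx)
  refine exact_cone hdown.convex e (fun σ hσ => hall _ fun x hx => ?_) (fun σ hσ => hdown σ hσ _ (erase_subset _ _)) k
  rcases mem_insert.1 hx with rfl | hx
  exacts [he, hσ.2 x hx]

/-- The standard vertex of type `0`. -/
noncomputable def std0 : Vx F n :=
  ⟨⟨N F 0, isLat_N n 0⟩, by simp [ind_N], by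
    simp only [ind_N]; have := NeZero.ne n; omega⟩

/-- The good part for highest positions is a simplex. -/
theorem exact_good' (k : ℕ) : Exact (posModel' F n).good k := by
  have hstd : ∀ v : Vx F n, (posModel' F n).Good v.1 → ∀ w : Vx F n, (posModel' F n).Good w.1 →
      Adj v w := by
    intro v hv w hw
    rw [good_posModel'_iff] at hv hw
    have key : ∀ a b : Vx F n, sp a = N F (ind (sp a)) → sp b = N F (ind (sp b)) →
        ind (sp a) ≤ ind (sp b) → Adj a b := by
      intro a b ha hb hle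
      refine Or.inl ⟨?_, ?_⟩
      · rw [ha, hb]; exact N_mono hle
      · have h1 : 0 ≤ ind (sp a) := a.2.1
        have h2 : ind (sp b) < n := b.2.2
        calc sp b = N F (ind (sp b)) := hb
          _ ≤ N F (ind (sp a) + n) := N_mono (by omega)
          _ = TL n (N F (ind (sp a))) := (shL_N _ _).symm
          _ = TL n (sp a) := by rw [← ha]
    rcases le_total (ind (sp v)) (ind (sp w)) with h | h
    · exact key v w hv hw h
    · exact (key w v hw hv h).symm
  have h0 : (posModel' F n).Good (std0 (F := F) (n := n)).1 := by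
    rw [good_posModel'_iff]
    show N F 0 = N F (ind (N F 0))
    rw [ind_N]
  have hall : ∀ σ : Finset (Vx F n), (∀ v ∈ σ, (posModel' F n).Good v.1) →
      σ ∈ (posModel' F n).good :=
    fun σ hσ => ⟨(mem_simp_iff σ).2 fun v hv w hw => hstd v (hσ v hv) w (hσ w hw), hσ⟩
  refine exact_cone (e := std0) ?_ (fun σ hσ => hall _ fun v hv => ?_)
    (fun σ hσ => hall _ fun v hv => hσ.2 v (mem_of_mem_erase hv)) k
  · exact fun σ hσ τ hτ ρ _ h2 => hall ρ fun v hv => hτ.2 v (h2 hv)
  · simp only [Finset.mem_insert] at hv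
    rcases hv with rfl | hv
    exacts [h0, hσ.2 v hv]

/-- **The building is acyclic.** -/
theorem simp_exact (k : ℕ) : Exact (posModel F n).simp k :=
  (posModel' F n).simp_exact hone' (fun _ _ => exact_gap') exact_good' k

/-- The opposition complex: simplices all of whose vertices are in general position. -/
theorem mem_good_iff (σ : Finset (Vx F n)) : σ ∈ (posModel F n).good ↔ XSimplex σ :=
  and_congr (mem_simp_iff σ) (forall₂_congr fun v _ => good_posModel_iff v.1)

/-- **`X~` is acyclic below the top**, given exactness of the gaps. -/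
theorem good_exact
    (hgap : ∀ c c' : Lat F n, c < c' → c' ≤ shLat 1 c → ∀ k : ℕ,
      (k : ℤ) + 1 < ind c'.1 - ind c.1 → Exact ((posModel F n).gap c c') k)
    {k : ℕ} (hk : k + 1 < n) : Exact (posModel F n).good k :=
  (posModel F n).good_exact hgap simp_exact hk

end Vale.Agent.P067.Top.Lat
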