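import Vale.Agent.P067.Top.Morse

/-!
# P067 topology: the pieces of the Morse lemma are joins over the gaps
-/

namespace Vale.Agent.P067.Top.Model

open Finset
open scoped Classical

variable {n : ℕ} [NeZero n] (M : Model n)

omit [NeZero n] in
lemma sh_inj (m : ℤ) {x y : M.Lam} (h : M.sh m x = M.sh m y) : x = y := by
  have := congrArg (M.sh (-m)) h
  simpa [sh_sh, M.sh_zero] using this

omit [NeZero n] in
lemma sh_lt (m : ℤ) {x y : M.Lam} (h : x < y) : M.sh m x < M.sh m y :=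
  lt_of_le_of_ne (M.sh_le m _ _ h.le) fun e => h.ne (M.sh_inj m e)

lemma sh_unique {m k : ℤ} {x : M.Lam} (h : M.sh m x = M.sh k x) : m = k := by
  have := congrArg M.ind h
  simp only [M.ind_sh, add_right_inj] at this
  exact mul_right_cancel₀ (ne_of_gt (n_pos (n := n))) this

omit [NeZero n] in
lemma lt_of_ind {σ : Finset M.Vert} (hσ : σ ∈ M.simp) {x y : M.Lam} (hx : x ∈ M.cover σ)
    (hy : y ∈ M.cover σ) (h : M.ind x < M.ind y) : x < y := by
  have hne : x ≠ y := fun e => by rw [e] at h; omega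
  rcases hσ hx hy hne with h1 | h1
  · exact lt_of_le_of_ne h1 hne
  · have := M.ind_lt _ _ (lt_of_le_of_ne h1 hne.symm)
    omega

lemma exists_succ {R : Finset M.Vert} (hR : R ∈ M.simp) {c : M.Lam} (hc : c ∈ M.cover R) :
    ∃ c' ∈ M.cover R, c < c' ∧ ∀ d ∈ M.cover R, c < d → c' ≤ d := by
  obtain ⟨j, ⟨c', hc', hlt, rfl⟩, hmin⟩ := Int.exists_least_of_bdd
    (P := fun j => ∃ d ∈ M.cover R, c < d ∧ M.ind d = j)
    ⟨M.ind c, fun _ ⟨d, _, hd, e⟩ => e ▸ (M.ind_lt _ _ hd).le⟩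
    ⟨_, M.sh 1 c, M.sh_mem_cover hc 1, M.lt_sh c, rfl⟩
  refine ⟨c', hc', hlt, fun d hd hcd => ?_⟩
  by_contra h
  have hne : d ≠ c' := fun e => h e.symm.le
  have := hmin _ ⟨d, hd, hcd, rfl⟩
  rcases hR hd hc' hne with h1 | h1
  · have := M.ind_lt _ _ (lt_of_le_of_ne h1 hne)
    omega
  · exact h h1

/-- The next member of the chain of `R` above `c`. -/
noncomputable def succ (R : Finset M.Vert) (c : M.Lam) : M.Lam :=
  if h : ∃ c' ∈ M.cover R, c < c' ∧ ∀ d ∈ M.cover R, c < d → c' ≤ d then h.choose else c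

lemma succ_spec {R : Finset M.Vert} (hR : R ∈ M.simp) {c : M.Lam} (hc : c ∈ M.cover R) :
    M.succ R c ∈ M.cover R ∧ c < M.succ R c ∧ ∀ d ∈ M.cover R, c < d → M.succ R c ≤ d := by
  rw [succ, dif_pos (M.exists_succ hR hc)]
  exact (M.exists_succ hR hc).choose_spec

lemma succ_le_sh {R : Finset M.Vert} (hR : R ∈ M.simp) {c : M.Lam} (hc : c ∈ M.cover R) :
    M.succ R c ≤ M.sh 1 c :=
  (M.succ_spec hR hc).2.2 _ (M.sh_mem_cover hc 1) (M.lt_sh c)

lemma succ_eq {R : Finset M.Vert} (hR : R ∈ M.simp) {c c' : M.Lam} (hc : c ∈ M.cover R)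
    (hc' : c' ∈ M.cover R) (hlt : c < c') (h : ∀ d ∈ M.cover R, c < d → c' ≤ d) :
    M.succ R c = c' :=
  le_antisymm ((M.succ_spec hR hc).2.2 _ hc' hlt)
    (h _ (M.succ_spec hR hc).1 (M.succ_spec hR hc).2.1)

lemma succ_sh {R : Finset M.Vert} (hR : R ∈ M.simp) {c : M.Lam} (hc : c ∈ M.cover R) (k : ℤ) :
    M.succ R (M.sh k c) = M.sh k (M.succ R c) := by
  obtain ⟨h1, h2, h3⟩ := M.succ_spec hR hc
  refine M.succ_eq hR (M.sh_mem_cover hc k) (M.sh_mem_cover h1 k) (M.sh_lt k h2) fun d hd hlt => ?_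
  have hd' : c < M.sh (-k) d := by
    have := M.sh_lt (-k) hlt
    simpa [sh_sh, M.sh_zero] using this
  have := M.sh_le k _ _ (h3 _ (M.sh_mem_cover hd (-k)) hd')
  simpa [sh_sh, M.sh_zero] using this

lemma exists_pred {R σ : Finset M.Vert} (hne : R.Nonempty) (hσ : σ ∈ M.simp) (hsub : R ⊆ σ)
    {x : M.Lam} (hx : x ∈ M.cover σ) :
    ∃ c ∈ M.cover R, c < x ∧ ∀ d ∈ M.cover R, d < x → d ≤ c := by
  obtain ⟨r, hr⟩ := hne
  have hrc : r.1 ∈ M.cover R := M.mem_cover.2 (by rwa [norm_vert])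
  have hn := n_pos (n := n)
  have hlow : M.sh (-(|M.ind r.1 - M.ind x| + 1)) r.1 < x := by
    refine M.lt_of_ind hσ (M.cover_mono hsub (M.sh_mem_cover hrc _)) hx ?_
    rw [M.ind_sh]
    have := le_abs_self (M.ind r.1 - M.ind x)
    nlinarith [abs_nonneg (M.ind r.1 - M.ind x)]
  obtain ⟨j, ⟨c, hc, hlt, rfl⟩, hmax⟩ := Int.exists_greatest_of_bdd
    (P := fun j => ∃ d ∈ M.cover R, d < x ∧ M.ind d = j)
    ⟨M.ind x, fun _ ⟨d, _, hd, e⟩ => e ▸ (M.ind_lt _ _ hd).le⟩
    ⟨_, _, M.sh_mem_cover hrc _, hlow, rfl⟩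
  refine ⟨c, hc, hlt, fun d hd hdx => ?_⟩
  by_contra h
  have hne : d ≠ c := fun e => h e.le
  have := hmax _ ⟨d, hd, hdx, rfl⟩
  rcases hσ (M.cover_mono hsub hd) (M.cover_mono hsub hc) hne with h1 | h1
  · exact h h1
  · have := M.ind_lt _ _ (lt_of_le_of_ne h1 hne.symm)
    omega

omit [NeZero n] in
lemma fills_sh {c c' e : M.Lam} (k : ℤ) (h : M.Fills c c' e) :
    M.Fills (M.sh k c) (M.sh k c') (M.sh k e) := by
  refine ⟨M.sh_lt k h.1, M.sh_lt k h.2.1, fun a ha ha' b hb hb' => ?_⟩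
  rw [M.pos_sh] at ha ha' hb hb'
  have := h.2.2 _ ha ha' _ hb hb'
  omega

/-- The vertices which fill the gap above the member `r` of `R`. -/
def gapVert (R : Finset M.Vert) (r : M.Vert) : Set M.Vert :=
  {v | ∃ m : ℤ, M.Fills r.1 (M.succ R r.1) (M.sh m v.1)}

/-- The translate of `v` lying in the gap above `r`. -/
noncomputable def trans (R : Finset M.Vert) (r v : M.Vert) : M.Lam :=
  if h : ∃ m : ℤ, M.Fills r.1 (M.succ R r.1) (M.sh m v.1) then M.sh h.choose v.1 else v.1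

variable {R : Finset M.Vert}

lemma trans_spec {r v : M.Vert} (h : v ∈ M.gapVert R r) :
    M.Fills r.1 (M.succ R r.1) (M.trans R r v) ∧ M.norm (M.trans R r v) = v := by
  have h' : ∃ m : ℤ, M.Fills r.1 (M.succ R r.1) (M.sh m v.1) := h
  rw [trans, dif_pos h']
  exact ⟨h'.choose_spec, M.norm_sh _ _⟩

lemma fills_unique (hR : R ∈ M.simp) {r : M.Vert} (hr : r ∈ R) {x y : M.Lam}
    (hx : M.Fills r.1 (M.succ R r.1) x) (hy : M.Fills r.1 (M.succ R r.1) y)
    (h : M.norm x = M.norm y) : x = y := by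
  have hrc : r.1 ∈ M.cover R := M.mem_cover.2 (by rwa [norm_vert])
  have hb := M.succ_le_sh hR hrc
  have hi : M.ind (M.sh 1 r.1) = M.ind r.1 + n := by rw [M.ind_sh, one_mul]
  have h1 := M.ind_lt _ _ hx.1
  have h2 := M.ind_lt _ _ (hx.2.1.trans_le hb)
  have h3 := M.ind_lt _ _ hy.1
  have h4 := M.ind_lt _ _ (hy.2.1.trans_le hb)
  rw [hi] at h2 h4
  have ex : x = M.sh (M.ind x / n) (M.norm y).1 := by rw [← h, sh_norm]
  have ey := M.sh_norm y
  have ix : M.ind x = M.ind (M.norm y).1 + M.ind x / n * n := by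
    conv_lhs => rw [ex, M.ind_sh]
  have iy : M.ind y = M.ind (M.norm y).1 + M.ind y / n * n := by
    conv_lhs => rw [← ey, M.ind_sh]
  have hn := n_pos (n := n)
  have e : M.ind x / n = M.ind y / n := by
    have e1 : M.ind x / n - M.ind y / n < 1 := by by_contra hh; nlinarith
    have e2 : -1 < M.ind x / n - M.ind y / n := by by_contra hh; nlinarith
    omega
  rw [ex, e, ey]

lemma between_unique (hR : R ∈ M.simp) {c d x : M.Lam} (hc : c ∈ M.cover R) (hd : d ∈ M.cover R)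
    (h1 : c < x) (h2 : x < M.succ R c) (h3 : d < x) (h4 : x < M.succ R d) : c = d := by
  by_contra hne
  rcases hR hc hd hne with h | h
  · exact lt_irrefl x (h2.trans_le (((M.succ_spec hR hc).2.2 d hd (lt_of_le_of_ne h hne)).trans h3.le))
  · exact lt_irrefl x
      (h4.trans_le (((M.succ_spec hR hd).2.2 c hc (lt_of_le_of_ne h (Ne.symm hne))).trans h1.le))

lemma gapVert_disjoint (hR : R ∈ M.simp) {r r' : M.Vert} (hr : r ∈ R) (hr' : r' ∈ R) {v : M.Vert}
    (h : v ∈ M.gapVert R r) (h' : v ∈ M.gapVert R r') : r = r' := by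
  obtain ⟨m, hm⟩ := h
  obtain ⟨m', hm'⟩ := h'
  have hc : r.1 ∈ M.cover R := M.mem_cover.2 (by rwa [norm_vert])
  have hc' : r'.1 ∈ M.cover R := M.mem_cover.2 (by rwa [norm_vert])
  have hf := M.fills_sh (m - m') hm'
  rw [sh_sh, sub_add_cancel] at hf
  have e := M.between_unique hR hc (M.sh_mem_cover hc' (m - m')) hm.1 hm.2.1 hf.1
    (M.succ_sh hR hc' _ ▸ hf.2.1)
  calc r = M.norm r.1 := (M.norm_vert r).symm
    _ = r' := by rw [e, norm_sh]

lemma gapVert_not_mem (hR : R ∈ M.simp) {r : M.Vert} (hr : r ∈ R) {v : M.Vert}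
    (h : v ∈ M.gapVert R r) : v ∉ R := by
  intro hv
  obtain ⟨m, h1, h2, -⟩ := h
  have hc : r.1 ∈ M.cover R := M.mem_cover.2 (by rwa [norm_vert])
  exact lt_irrefl _
    (h2.trans_le ((M.succ_spec hR hc).2.2 _ (M.mem_cover.2 (by rwa [norm_sh])) h1))

/-- `R` with vertices filling the gaps above the members in `S`. -/
def J (R S : Finset M.Vert) : Set (Finset M.Vert) :=
  {σ | R ⊆ σ ∧ (∀ v ∈ σ, v ∈ R ∨ ∃ r ∈ S, v ∈ M.gapVert R r) ∧
    ∀ r ∈ S, IsChain (· ≤ ·) (M.trans R r '' {v | v ∈ σ ∧ v ∈ M.gapVert R r})}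

/-- The chains of fillers of the gap above `r`, as sets of vertices. -/
def gapB (R : Finset M.Vert) (r : M.Vert) : Set (Finset M.Vert) :=
  {τ | ↑τ ⊆ M.gapVert R r ∧ IsChain (· ≤ ·) (M.trans R r '' ↑τ)}

omit [NeZero n] in
lemma down_gapB (r : M.Vert) : Down (M.gapB R r) := fun _ hσ _ hτ =>
  ⟨(coe_subset.2 hτ).trans hσ.1, hσ.2.mono (Set.image_mono (coe_subset.2 hτ))⟩

omit [NeZero n] in
lemma convex_J (S : Finset M.Vert) : Convex (M.J R S) := fun _ hσ τ hτ ρ h1 h2 =>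
  ⟨hσ.1.trans h1, fun v hv => hτ.2.1 v (h2 hv),
    fun r hr => (hτ.2.2 r hr).mono (Set.image_mono fun v (hv : v ∈ {v | v ∈ ρ ∧ v ∈ M.gapVert R r}) =>
      (show v ∈ {v | v ∈ τ ∧ v ∈ M.gapVert R r} from ⟨h2 hv.1, hv.2⟩))⟩

lemma mem_cover_cases (hR : R ∈ M.simp) {σ : Finset M.Vert} (hσ : σ ∈ M.J R R) {x : M.Lam}
    (hx : x ∈ M.cover σ) : x ∈ M.cover R ∨ ∃ r ∈ R, ∃ v ∈ σ, v ∈ M.gapVert R r ∧ ∃ k : ℤ,
      x = M.sh k (M.trans R r v) ∧
        M.Fills (M.sh k r.1) (M.succ R (M.sh k r.1)) x := by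
  rw [mem_cover] at hx
  rcases hσ.2.1 _ hx with h | ⟨r, hr, hv⟩
  · exact Or.inl (M.mem_cover.2 h)
  · refine Or.inr ⟨r, hr, _, hx, hv, ?_⟩
    obtain ⟨h1, h2⟩ := M.trans_spec hv
    have e : x = M.sh (M.ind x / n - M.ind (M.trans R r (M.norm x)) / n)
        (M.trans R r (M.norm x)) := by
      conv_rhs => arg 3; rw [← M.sh_norm (M.trans R r (M.norm x)), h2]
      rw [sh_sh, sub_add_cancel, sh_norm]
    refine ⟨_, e, ?_⟩
    rw [M.succ_sh hR (M.mem_cover.2 (by rwa [norm_vert]))]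
    conv => arg 4; rw [e]
    exact M.fills_sh _ h1

theorem piece'_eq (hR : R ∈ M.simp) (hne : R.Nonempty) : M.piece' R = M.J R R := by
  ext σ
  constructor
  · rintro ⟨hσ, hsub, hinv⟩
    have key : ∀ v ∈ σ, v ∉ R → ∃ r ∈ R, v ∈ M.gapVert R r := by
      intro v hv hvR
      have hvc : v.1 ∈ M.cover σ := M.mem_cover.2 (by rwa [norm_vert])
      obtain ⟨c, hc, hcv, hmax⟩ := M.exists_pred hne hσ hsub hvc
      obtain ⟨h1, h2, h3⟩ := M.succ_spec hR hc
      have hvne : v.1 ≠ M.succ R c := fun e => hvR (by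
        rw [← M.norm_vert v, e]; exact M.mem_cover.1 h1)
      have hvs : v.1 < M.succ R c := by
        rcases hσ hvc (M.cover_mono hsub h1) hvne with h | h
        · exact lt_of_le_of_ne h hvne
        · exact absurd (hmax _ h1 (lt_of_le_of_ne h hvne.symm)) h2.not_ge
      have hfill : M.Fills c (M.succ R c) v.1 := by
        refine ⟨hcv, hvs, fun a ha ha' b hb hb' => ?_⟩
        by_contra hab
        have hlt : b < a := lt_of_le_of_ne (not_lt.1 hab) fun e => hb' (e ▸ ha)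
        obtain ⟨d, hd, hda, hdb⟩ := M.covered_of_inv hinv hlt ⟨v.1, hvc, ha, hb'⟩
        by_cases hdc : d = c
        · exact ha' (hdc ▸ hda)
        rcases hR hd hc hdc with h | h
        · exact ha' (M.pos_mono _ _ h hda)
        · exact hdb (M.pos_mono _ _ (h3 d hd (lt_of_le_of_ne h (Ne.symm hdc))) hb)
      refine ⟨M.norm c, M.mem_cover.1 hc, -(M.ind c / n), ?_⟩
      have := M.fills_sh (-(M.ind c / n)) hfill
      rwa [← M.succ_sh hR hc] at this
    refine ⟨hsub, fun v hv => ?_, fun r hr => hσ.mono ?_⟩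
    · by_cases hvR : v ∈ R
      · exact Or.inl hvR
      · exact Or.inr (key v hv hvR)
    · rintro x ⟨v, ⟨hv, hvg⟩, rfl⟩
      exact M.mem_cover.2 ((M.trans_spec hvg).2.symm ▸ hv)
  · intro hσ
    refine ⟨?_, hσ.1, ?_⟩
    · intro x hx y hy hxy
      rcases M.mem_cover_cases hR hσ hx with hx' | ⟨r, hr, v, hv, hvg, k, ek, hxf⟩ <;>
        rcases M.mem_cover_cases hR hσ hy with hy' | ⟨r', hr', v', hv', hvg', k', ek', hyf⟩
      · exact hR hx' hy' hxy
      · have hc' : M.sh k' r'.1 ∈ M.cover R := M.mem_cover.2 (by rw [norm_sh]; exact hr')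
        by_cases e : x = M.sh k' r'.1
        · exact Or.inl (e ▸ hyf.1.le)
        rcases hR hx' hc' e with h | h
        · exact Or.inl (h.trans hyf.1.le)
        · exact Or.inr (hyf.2.1.le.trans
            ((M.succ_spec hR hc').2.2 x hx' (lt_of_le_of_ne h (Ne.symm e))))
      · have hc : M.sh k r.1 ∈ M.cover R := M.mem_cover.2 (by rw [norm_sh]; exact hr)
        by_cases e : y = M.sh k r.1
        · exact Or.inr (e ▸ hxf.1.le)
        rcases hR hy' hc e with h | h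
        · exact Or.inr (h.trans hxf.1.le)
        · exact Or.inl (hxf.2.1.le.trans
            ((M.succ_spec hR hc).2.2 y hy' (lt_of_le_of_ne h (Ne.symm e))))
      · have hc : M.sh k r.1 ∈ M.cover R := M.mem_cover.2 (by rw [norm_sh]; exact hr)
        have hc' : M.sh k' r'.1 ∈ M.cover R := M.mem_cover.2 (by rw [norm_sh]; exact hr')
        by_cases e : M.sh k r.1 = M.sh k' r'.1
        · have er : r = r' := by simpa [norm_sh] using congrArg M.norm e
          subst er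
          have ekk : k = k' := M.sh_unique e
          subst ekk
          have hne' : M.trans R r v ≠ M.trans R r v' := fun h => hxy (by rw [ek, ek', h])
          rcases hσ.2.2 r hr ⟨v, ⟨hv, hvg⟩, rfl⟩ ⟨v', ⟨hv', hvg'⟩, rfl⟩ hne' with h | h
          · exact Or.inl (ek ▸ ek' ▸ M.sh_le k _ _ h)
          · exact Or.inr (ek ▸ ek' ▸ M.sh_le k _ _ h)
        rcases hR hc hc' e with h | h
        · exact Or.inl (hxf.2.1.le.trans
            (((M.succ_spec hR hc).2.2 _ hc' (lt_of_le_of_ne h e)).trans hyf.1.le))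
        · exact Or.inr (hyf.2.1.le.trans
            (((M.succ_spec hR hc').2.2 _ hc (lt_of_le_of_ne h (Ne.symm e))).trans hxf.1.le))
    · rintro ⟨x, y⟩ ⟨h0, h1, hxy, e, he, hey, hex⟩
      refine ⟨h0, h1, hxy, ?_⟩
      rcases M.mem_cover_cases hR hσ he with he' | ⟨r, hr, v, hv, hvg, k, -, hf⟩
      · exact ⟨e, he', hey, hex⟩
      · have hc : M.sh k r.1 ∈ M.cover R := M.mem_cover.2 (by rw [norm_sh]; exact hr)
        by_cases hyc : y ∈ M.pos (M.sh k r.1)
        · exact ⟨_, hc, hyc, fun h => hex (M.pos_mono _ _ hf.1.le h)⟩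
        by_cases hxs : x ∈ M.pos (M.succ R (M.sh k r.1))
        · exact absurd (hf.2.2 y hey hyc x hxs hex) (not_lt.2 (le_of_lt hxy))
        · exact ⟨_, (M.succ_spec hR hc).1, M.pos_mono _ _ hf.2.1.le hey, hxs⟩

lemma exact_gapB (hR : R ∈ M.simp) {r : M.Vert} (hr : r ∈ R) {k : ℕ}
    (h : Exact (M.gap r.1 (M.succ R r.1)) k) : Exact (M.gapB R r) k := by
  refine exact_image (f := M.trans R r) (M.gapVert R r) ?_ (fun σ hσ => hσ.1) ?_ ?_ h
  · intro v hv w hw e
    rw [← (M.trans_spec hv).2, ← (M.trans_spec hw).2, e]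
  · intro σ hσ
    constructor
    · intro hq
      exact ⟨hσ, by simpa using hq.1⟩
    · intro hp
      refine ⟨by simpa using hp.2, fun e he => ?_⟩
      obtain ⟨v, hv, rfl⟩ := mem_image.1 he
      exact (M.trans_spec (hσ hv)).1
  · intro τ hτ
    have hU : ∀ e ∈ τ, M.norm e ∈ M.gapVert R r := fun e he =>
      ⟨_, (M.sh_norm e).symm ▸ hτ.2 e he⟩
    refine ⟨τ.image M.norm, ?_, ?_⟩
    · intro v hv
      obtain ⟨e, he, rfl⟩ := mem_image.1 hv
      exact hU e he
    · rw [image_image]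
      conv_rhs => rw [← image_id (s := τ)]
      refine image_congr fun e he => ?_
      exact M.fills_unique hR hr (M.trans_spec (hU e he)).1 (hτ.2 e he) (M.trans_spec (hU e he)).2

/-- The pieces are exact below `|R| + Σ bnd`. -/
theorem exact_piece (hR : R ∈ M.simp) (hne : R.Nonempty) (bnd : M.Vert → ℕ)
    (h : ∀ r ∈ R, ∀ k < bnd r, Exact (M.gap r.1 (M.succ R r.1)) k) :
    ∀ k < R.card + ∑ r ∈ R, bnd r, Exact (M.piece' R) k := by
  rw [M.piece'_eq hR hne]
  suffices main : ∀ S, S ⊆ R → ∀ k < R.card + ∑ r ∈ S, bnd r, Exact (M.J R S) k from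
    main R (Subset.refl R)
  intro S
  induction S using Finset.induction with
  | empty =>
    intro _ k hk
    have e : M.J R ∅ = ({R} : Set (Finset M.Vert)) := by
      ext σ
      simp only [J, Set.mem_singleton_iff, Set.mem_ofPred_eq, notMem_empty, false_and, exists_false,
        or_false, IsEmpty.forall_iff, implies_true, and_true]
      exact ⟨fun h => Subset.antisymm h.2 h.1, fun h => h ▸ ⟨Subset.refl _, fun v hv => hv⟩⟩
    rw [e]
    exact exact_singleton R k (by simpa using hk)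
  | @insert a S ha ih =>
    intro hsub k hk
    have haR := hsub (mem_insert_self a S)
    have hS := (subset_insert a S).trans hsub
    have e : M.J R (insert a S) = join (M.gapVert R a) (M.gapB R a) (M.J R S) := by
      ext σ
      simp only [join, gapB, J, Set.mem_ofPred_eq, coe_filter, subset_iff, mem_filter, mem_insert]
      constructor
      · rintro ⟨h1, h2, h3⟩
        refine ⟨⟨fun v hv => hv.2, h3 a (Or.inl rfl)⟩,
          fun v hv => ⟨h1 hv, fun hg => M.gapVert_not_mem hR haR hg hv⟩, ?_, ?_⟩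
        · rintro v ⟨hv, hng⟩
          rcases h2 v hv with h' | ⟨r, rfl | hr, hg⟩
          · exact Or.inl h'
          · exact absurd hg hng
          · exact Or.inr ⟨r, hr, hg⟩
        · intro r hr
          refine (h3 r (Or.inr hr)).mono (Set.image_mono ?_)
          intro v hv
          exact ⟨hv.1.1, hv.2⟩
      · rintro ⟨⟨-, hc⟩, h1, h2, h3⟩
        refine ⟨fun v hv => (h1 hv).1, fun v hv => ?_, ?_⟩
        · by_cases hg : v ∈ M.gapVert R a
          · exact Or.inr ⟨a, Or.inl rfl, hg⟩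
          · rcases h2 v ⟨hv, hg⟩ with h' | ⟨r, hr, hg'⟩
            · exact Or.inl h'
            · exact Or.inr ⟨r, Or.inr hr, hg'⟩
        · rintro r (rfl | hr)
          · exact hc
          · refine (h3 r hr).mono (Set.image_mono ?_)
            intro v hv
            refine ⟨⟨hv.1, fun hg => ?_⟩, hv.2⟩
            exact ha (M.gapVert_disjoint hR haR (hS hr) hg hv.2 ▸ hr)
    rw [e]
    refine exact_join (M.gapVert R a) (M.down_gapB a).convex (M.convex_J S)
      (fun τ hτ v hv => hτ.1 hv) ?_ (a₀ := bnd a) (b₀ := R.card + ∑ r ∈ S, bnd r)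
      (fun j hj => M.exact_gapB hR haR (h a haR j hj)) (ih hS) k
      (by rw [sum_insert ha] at hk; omega)
    intro σ hσ v hv hg
    rcases hσ.2.1 v hv with h' | ⟨r, hr, hg'⟩
    · exact M.gapVert_not_mem hR haR hg h'
    · exact ha (M.gapVert_disjoint hR haR (hS hr) hg hg' ▸ hr)

end Vale.Agent.P067.Top.Model
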