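import Vale.Agent.P067.Top.Action

/-!
# P067 topology: chambers of the opposition complex

Every simplex extends to a chamber, and `U+` is simply transitive on chambers.
-/

namespace Vale.Agent.P067.Top.Lat

open Finset Polynomial Matrix
open scoped Classical

variable {F : Type} [Field F] {n : ℕ} [NeZero n]

/-- The standard vertex of type `j`. -/
noncomputable def stdV (F : Type) [Field F] (n : ℕ) (j : Fin n) : Vx F n :=
  ⟨⟨N F (j : ℕ), isLat_N n _⟩, by
    show 0 ≤ ind (N F ((j : ℕ) : ℤ)) ∧ ind (N F ((j : ℕ) : ℤ)) < n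
    rw [ind_N]; exact ⟨Int.natCast_nonneg _, by exact_mod_cast j.2⟩⟩

lemma opp_stdV (j : Fin n) : Opp (sp (stdV F n j)) := by
  show minSet (N F ((j : ℕ) : ℤ)) = Set.Iio (ind (N F ((j : ℕ) : ℤ)))
  rw [minSet_N, ind_N]

lemma ind_of_minSet_eq {L : Submodule F (K F)} (hL : IsLat n L) {j : ℤ} (h : minSet L = Set.Iio j) :
    ind L = j := by
  obtain ⟨a, b, hb⟩ := hL.bdd
  have haj : a ≤ j := by
    by_contra hh
    have : j ∈ minSet L := hb.mem_minSet (by omega)
    rw [h] at this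
    exact lt_irrefl j this
  have hjb : j ≤ b := by
    by_contra hh
    have : b ∈ minSet L := by rw [h, Set.mem_Iio]; omega
    exact lt_irrefl b (hb.lt_of_minSet this)
  rw [ind_eq hb, cnt_add _ haj hjb, Nat.cast_add, cnt_full haj (fun x _ hx => h ▸ hx),
    cnt_empty (fun x hx _ hS => by rw [h, Set.mem_Iio] at hS; omega)]
  simp

/-- Between two general-position lattices there are some of every index. -/
theorem exists_between {L U : Submodule F (K F)} (hL : IsLat n L) (hLo : Opp L) (hU : IsLat n U)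
    (hUo : Opp U) (hLU : L ≤ U) (hUT : U ≤ TL n L) (k : ℕ) (hk : ind L + k ≤ ind U) :
    ∃ Y, IsLat n Y ∧ minSet Y = Set.Iio (ind L + k) ∧ L ≤ Y ∧ Y ≤ U := by
  induction k with
  | zero => exact ⟨L, hL, by simpa [Opp] using hLo, le_rfl, hLU⟩
  | succ k ih =>
    obtain ⟨Y, hY, hS, h1, h2⟩ := ih (by omega)
    set y := ind L + (k : ℤ) with hy
    have hyU : y ∈ minSet U := by rw [hUo, Set.mem_Iio]; omega
    obtain ⟨v, hv, hv1, hvM⟩ := exists_lead hyU
    refine ⟨Y ⊔ F ∙ v, isLat_between hL hU hUT (h1.trans le_sup_left)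
      (sup_le h2 ((Submodule.span_singleton_le_iff_mem v U).2 hv)), ?_, h1.trans le_sup_left,
      sup_le h2 ((Submodule.span_singleton_le_iff_mem v U).2 hv)⟩
    rw [show ind L + ((k + 1 : ℕ) : ℤ) = y + 1 by omega]
    ext x
    rw [Set.mem_Iio]
    constructor
    · rintro ⟨u, hu, hu1, hu2⟩
      obtain ⟨l, hl, w, hw, rfl⟩ := Submodule.mem_sup.1 hu
      obtain ⟨c, rfl⟩ := Submodule.mem_span_singleton.1 hw
      by_contra hxy
      have hlM : l ∈ M F y := mem_M.2 fun z hz => by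
        have := mem_M.1 hu2 z (by omega)
        simpa [mem_M.1 hvM z hz] using this
      have hly : l y = 0 := by
        by_contra h
        have : y ∈ minSet Y := ⟨l, hl, h, hlM⟩
        rw [hS] at this
        exact lt_irrefl y this
      have hc := mem_M.1 hu2 y (by omega)
      simp only [Finsupp.add_apply, Finsupp.smul_apply, hly, hv1, smul_eq_mul, mul_one, zero_add] at hc
      subst hc
      have : x ∈ minSet Y := ⟨l, hl, by simpa using hu1, by simpa using hu2⟩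
      rw [hS, Set.mem_Iio] at this
      omega
    · intro hx
      rcases eq_or_lt_of_le (show x ≤ y by omega) with h | h
      · exact ⟨v, Submodule.mem_sup_right (Submodule.mem_span_singleton_self v),
          by rw [h, hv1]; exact one_ne_zero, h ▸ hvM⟩
      · exact minSet_mono le_sup_left (by rw [hS]; exact h)

/-- A missing type can be inserted. -/
theorem exists_insert {σ : Finset (Vx F n)} (hσ : XSimplex σ) {i : Fin n}
    (hi : ∀ w ∈ σ, ind (sp w) ≠ ((i : ℕ) : ℤ)) :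
    ∃ v : Vx F n, ind (sp v) = ((i : ℕ) : ℤ) ∧ v ∉ σ ∧ XSimplex (insert v σ) := by
  -- a lattice `Y` of index `i`, adjacent to every member
  suffices h : ∃ v : Vx F n, ind (sp v) = ((i : ℕ) : ℤ) ∧ Opp (sp v) ∧ ∀ w ∈ σ, Adj v w by
    obtain ⟨v, hv, hvo, hadj⟩ := h
    refine ⟨v, hv, fun h => hi v h hv, fun a ha b hb => ?_, fun a ha => ?_⟩
    · rcases mem_insert.1 ha with ea | ea <;> rcases mem_insert.1 hb with eb | eb
      · rw [ea, eb]; exact Adj.refl _
      · rw [ea]; exact hadj b eb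
      · rw [eb]; exact (hadj a ea).symm
      · exact hσ.1 a ea b eb
    · rcases mem_insert.1 ha with rfl | ha
      exacts [hvo, hσ.2 a ha]
  rcases σ.eq_empty_or_nonempty with rfl | hne
  · exact ⟨stdV F n i, ind_N _, opp_stdV i, by simp⟩
  obtain ⟨wmax, hmax, hmax'⟩ := σ.exists_max_image (fun w => ind (sp w)) hne
  obtain ⟨wmin, hmin, hmin'⟩ := σ.exists_min_image (fun w => ind (sp w)) hne
  have hle : ∀ a ∈ σ, ∀ b ∈ σ, ind (sp a) ≤ ind (sp b) → sp a ≤ sp b ∧ sp b ≤ TL n (sp a) :=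
    fun a ha b hb h => (hσ.1 a ha b hb).le h
  have hsh : ∀ L : Submodule F (K F), IsLat n L → Opp L → ∀ m : ℤ, Opp (shL m L) := by
    intro L hL h m
    ext x
    rw [mem_minSet_shL, h, ind_shL hL, Set.mem_Iio, Set.mem_Iio]
    omega
  -- the neighbours
  obtain ⟨L, hL, hLo, hLi, hLbelow, hLabove⟩ : ∃ L, IsLat n L ∧ Opp L ∧ ind L < ((i : ℕ) : ℤ) ∧
      (∀ w ∈ σ, ind (sp w) < ((i : ℕ) : ℤ) → sp w ≤ L ∧ L ≤ TL n (sp w)) ∧
      (∀ w ∈ σ, ((i : ℕ) : ℤ) < ind (sp w) → L ≤ sp w ∧ sp w ≤ TL n L) := by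
    by_cases hex : ∃ w ∈ σ, ind (sp w) < ((i : ℕ) : ℤ)
    · obtain ⟨w₀, hw₀, hw₀'⟩ := (σ.filter fun w => ind (sp w) < ((i : ℕ) : ℤ)).exists_max_image
        (fun w => ind (sp w)) (by obtain ⟨w, h1, h2⟩ := hex; exact ⟨w, mem_filter.2 ⟨h1, h2⟩⟩)
      rw [mem_filter] at hw₀
      refine ⟨sp w₀, w₀.1.2, hσ.2 _ hw₀.1, hw₀.2,
        fun w hw h => hle w hw w₀ hw₀.1 (hw₀' w (mem_filter.2 ⟨hw, h⟩)),
        fun w hw h => hle w₀ hw₀.1 w hw ?_⟩
      have : ind (sp w₀) < ((i : ℕ) : ℤ) := hw₀.2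
      omega
    · have h0 : shL (n : ℤ) (shL (-(n : ℤ)) (sp wmax)) = sp wmax := by
        rw [shL_shL, add_neg_cancel, shL_zero]
      refine ⟨shL (-(n : ℤ)) (sp wmax), wmax.1.2.shift _, hsh _ wmax.1.2 (hσ.2 _ hmax) _, ?_,
        fun w hw h => absurd ⟨w, hw, h⟩ hex, fun w hw _ => ⟨?_, ?_⟩⟩
      · rw [ind_shL wmax.1.2]
        have : ind (sp wmax) < n := wmax.2.2
        omega
      · have := shL_mono (hle w hw wmax hmax (hmax' w hw)).2 (-(n : ℤ))
        rwa [TL, shL_shL, neg_add_cancel, shL_zero] at this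
      · rw [TL, h0]; exact (hle w hw wmax hmax (hmax' w hw)).1
  obtain ⟨U, hU, hUo, hUi, hUabove, hUbelow, hLU, hUT⟩ : ∃ U, IsLat n U ∧ Opp U ∧
      ((i : ℕ) : ℤ) < ind U ∧
      (∀ w ∈ σ, ((i : ℕ) : ℤ) < ind (sp w) → U ≤ sp w) ∧
      (∀ w ∈ σ, ind (sp w) < ((i : ℕ) : ℤ) → U ≤ TL n (sp w)) ∧ L ≤ U ∧ U ≤ TL n L := by
    by_cases hex : ∃ w ∈ σ, ((i : ℕ) : ℤ) < ind (sp w)
    · obtain ⟨w₁, hw₁, hw₁'⟩ := (σ.filter fun w => ((i : ℕ) : ℤ) < ind (sp w)).exists_min_image
        (fun w => ind (sp w)) (by obtain ⟨w, h1, h2⟩ := hex; exact ⟨w, mem_filter.2 ⟨h1, h2⟩⟩)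
      rw [mem_filter] at hw₁
      refine ⟨sp w₁, w₁.1.2, hσ.2 _ hw₁.1, hw₁.2,
        fun w hw h => (hle w₁ hw₁.1 w hw (hw₁' w (mem_filter.2 ⟨hw, h⟩))).1,
        fun w hw h => (hle w hw w₁ hw₁.1 ?_).2, hLabove w₁ hw₁.1 hw₁.2⟩
      have : ((i : ℕ) : ℤ) < ind (sp w₁) := hw₁.2
      omega
    · have hminlt : ind (sp wmin) < ((i : ℕ) : ℤ) :=
        lt_of_le_of_ne (not_lt.1 fun h => hex ⟨wmin, hmin, h⟩) (hi wmin hmin)
      refine ⟨TL n (sp wmin), wmin.1.2.shift _, hsh _ wmin.1.2 (hσ.2 _ hmin) _, ?_,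
        fun w hw h => absurd ⟨w, hw, h⟩ hex,
        fun w hw _ => shL_mono (hle wmin hmin w hw (hmin' w hw)).1 _,
        (hLbelow wmin hmin hminlt).2, shL_mono (hLbelow wmin hmin hminlt).1 _⟩
      rw [TL, ind_shL wmin.1.2]
      have h1 : 0 ≤ ind (sp wmin) := wmin.2.1
      have h2 : ((i : ℕ) : ℤ) < n := by exact_mod_cast i.2
      omega
  obtain ⟨Y, hY, hS, hLY, hYU⟩ := exists_between hL hLo hU hUo hLU hUT
    (((i : ℕ) : ℤ) - ind L).toNat (by omega)
  rw [show ind L + ((((i : ℕ) : ℤ) - ind L).toNat : ℤ) = ((i : ℕ) : ℤ) by omega] at hS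
  have hind := ind_of_minSet_eq hY hS
  refine ⟨⟨⟨Y, hY⟩, by
    show 0 ≤ ind Y ∧ ind Y < n
    rw [hind]; exact ⟨Int.natCast_nonneg _, by exact_mod_cast i.2⟩⟩, hind,
    show minSet Y = Set.Iio (ind Y) by rw [hind, hS], fun w hw => ?_⟩
  rcases lt_or_gt_of_ne (hi w hw) with h | h
  · exact Or.inr ⟨(hLbelow w hw h).1.trans hLY, hYU.trans (hUbelow w hw h)⟩
  · exact Or.inl ⟨hYU.trans (hUabove w hw h), (hLabove w hw h).2.trans (shL_mono hLY _)⟩

/-- Every simplex extends to a chamber. -/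
theorem exists_chamber_ext {σ : Finset (Vx F n)} (hσ : XSimplex σ) :
    ∃ C, σ ⊆ C ∧ XSimplex C ∧ C.card = n := by
  obtain ⟨k, hk⟩ : ∃ k, n = σ.card + k := ⟨n - σ.card, by have := hσ.1.card_le; omega⟩
  induction k generalizing σ with
  | zero => exact ⟨σ, subset_refl _, hσ, by omega⟩
  | succ k ih =>
    obtain ⟨i, hi⟩ : ∃ i : Fin n, ∀ w ∈ σ, ind (sp w) ≠ ((i : ℕ) : ℤ) := by
      by_contra hall
      push Not at hall
      choose f hf hf' using hall
      have := card_le_card_of_injOn f (s := (univ : Finset (Fin n))) (t := σ) (fun i _ => hf i)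
        (fun a _ b _ e => Fin.ext (by have := hf' a; rw [e, hf' b] at this; exact_mod_cast this.symm))
      simp at this
      omega
    obtain ⟨v, -, hv, hX⟩ := exists_insert hσ hi
    obtain ⟨C, h1, h2, h3⟩ := ih hX (by rw [card_insert_of_notMem hv]; omega)
    exact ⟨C, (subset_insert _ _).trans h1, h2, h3⟩

/-- The matrix with given columns. -/
noncomputable def ofCols (v : Fin n → K F) : Matrix (Fin n) (Fin n) F[X] :=
  fun k i => ∑ z ∈ (v i).support.filter (fun z => rsd (n := n) z = k),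
    monomial (z / (n : ℤ)).toNat (v i z)

lemma coeff_ofCols (v : Fin n → K F) (hv : ∀ i, v i ∈ M F 0) (k i : Fin n) (e : ℕ) :
    (ofCols v k i).coeff e = v i ((n : ℤ) * e + (k : ℕ)) := by
  have hn := NeZero.ne n
  obtain ⟨h1, h2⟩ := rsd_eq (n := n) (e : ℤ) k
  rw [ofCols, finset_sum_coeff, sum_eq_single ((n : ℤ) * e + (k : ℕ))]
  · rw [h2, Int.toNat_natCast, coeff_monomial, if_pos rfl]
  · intro z hz hne
    rw [mem_filter, Finsupp.mem_support_iff] at hz
    rw [coeff_monomial, if_neg]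
    intro he
    refine hne ?_
    have h0 : 0 ≤ z := by
      by_contra hh
      exact hz.1 (mem_M.1 (hv i) z (by omega))
    have h3 := rsd_decomp (n := n) z
    rw [hz.2] at h3
    have h4 : (0 : ℤ) ≤ z / n := Int.ediv_nonneg h0 (by omega)
    rw [← h3, ← he, Int.toNat_of_nonneg h4]
  · intro hz
    rw [mem_filter, not_and] at hz
    by_cases h : v i ((n : ℤ) * e + (k : ℕ)) = 0
    · rw [h, monomial_zero_right, coeff_zero]
    · exact absurd h1 (hz (Finsupp.mem_support_iff.2 h))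

lemma act_ofCols (v : Fin n → K F) (hv : ∀ i, v i ∈ M F 0) (i : Fin n) :
    act (ofCols v) (Finsupp.single ((i : ℕ) : ℤ) 1) = v i := by
  have hn := NeZero.ne n
  ext z
  obtain ⟨h1, h2⟩ := rsd_eq (n := n) (0 : ℤ) i
  rw [mul_zero, zero_add] at h1 h2
  by_cases h0 : 0 ≤ z
  · have h3 := rsd_decomp (n := n) z
    have h4 : (0 : ℤ) ≤ z / n := Int.ediv_nonneg h0 (by omega)
    have := act_coord (ofCols v) 0 (rsd (n := n) z) i (z / (n : ℤ)).toNat
    rw [mul_zero, zero_add, Int.toNat_of_nonneg h4, zero_add, coeff_ofCols v hv,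
      Int.toNat_of_nonneg h4, h3, add_comm] at this
    rwa [h3] at this
  · rw [mem_M.1 (hv i) z (by omega)]
    by_contra hne
    obtain ⟨k, e, hz, -⟩ := act_coord_ne hne
    rw [h2, mul_zero, zero_add] at hz
    have : (0 : ℤ) ≤ (n : ℤ) * e := by positivity
    omega

lemma eq_one_of_basis {g : Matrix (Fin n) (Fin n) F[X]}
    (h : ∀ i : Fin n, act g (Finsupp.single ((i : ℕ) : ℤ) 1) = Finsupp.single ((i : ℕ) : ℤ) 1) :
    g = 1 := by
  ext k i d
  have e1 := act_coord g 0 k i d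
  have e2 := act_coord (1 : Matrix (Fin n) (Fin n) F[X]) 0 k i d
  rw [mul_zero, zero_add] at e1 e2
  rw [← e1, ← e2, h i, act_one, Module.End.one_apply]

/-- The chain of translates of a chamber, by index. -/
theorem exists_element {C : Finset (Vx F n)} (hC : XSimplex C) (hc : C.card = n) :
    ∃ g : Up F n, ∀ w ∈ C, gmap g (N F (ind (sp w))) = sp w := by
  have hn := NeZero.ne n
  have htype : ∀ i : Fin n, ∃ w ∈ C, ind (sp w) = ((i : ℕ) : ℤ) := by
    by_contra hh
    push Not at hh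
    obtain ⟨i, hi⟩ := hh
    have hsub : (C.image fun w => ind (sp w)) ⊆ (Finset.Ico (0 : ℤ) n).erase ((i : ℕ) : ℤ) := by
      intro x hx
      obtain ⟨w, hw, rfl⟩ := mem_image.1 hx
      exact mem_erase.2 ⟨hi w hw, mem_Ico.2 ⟨w.2.1, w.2.2⟩⟩
    have h1 := card_le_card hsub
    rw [card_image_of_injOn hC.1.ind_injOn, card_erase_of_mem
      (mem_Ico.2 ⟨Int.natCast_nonneg _, by exact_mod_cast i.2⟩), Int.card_Ico, hc] at h1
    omega
  choose c hc1 hc2 using htype
  set Ch : ℤ → Submodule F (K F) := fun j => shL ((j / n) * n) (sp (c (rsd j))) with hCh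
  have hlat : ∀ j, IsLat n (Ch j) := fun j => (c (rsd j)).1.2.shift _
  have hChi : ∀ j, ind (Ch j) = j := fun j => by
    simp only [hCh]
    rw [ind_shL (c (rsd j)).1.2, hc2]
    linarith [rsd_decomp (n := n) j, mul_comm (n : ℤ) (j / n)]
  have hopp : ∀ j, minSet (Ch j) = Set.Iio j := by
    intro j
    ext x
    simp only [hCh, mem_minSet_shL]
    rw [hC.2 _ (hc1 (rsd j)), hc2, Set.mem_Iio, Set.mem_Iio]
    have := rsd_decomp (n := n) j
    rw [mul_comm] at this
    omega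
  have hmono : ∀ j j', j ≤ j' → Ch j ≤ Ch j' := by
    intro j j' hjj
    rcases (hC.1 _ (hc1 (rsd j)) _ (hc1 (rsd j'))).chain (j / n) (j' / n) with h | h
    · exact h
    · exact (eq_of_le_of_ind_le (hlat j') (hlat j) h (by rw [hChi, hChi]; exact hjj)).ge
  have hlead : ∀ i : Fin n, ((i : ℕ) : ℤ) ∈ minSet (Ch (((i : ℕ) : ℤ) + 1)) := fun i => by
    rw [hopp, Set.mem_Iio]; omega
  choose v hv hv1 hvM using fun i => exists_lead (hlead i)
  have hv0 : ∀ i, v i ∈ M F 0 := fun i => M_anti (Int.natCast_nonneg _) (hvM i)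
  set g := ofCols v with hg
  have hlow : Low g := by
    refine low_of_coeff fun k i hki => ?_
    rw [coeff_ofCols v hv0, Nat.cast_zero, mul_zero, zero_add]
    by_cases h : k = i
    · rw [if_pos h, h, hv1]
    · rw [if_neg h]
      exact mem_M.1 (hvM i) _ (by
        have : (k : ℕ) < (i : ℕ) := lt_of_le_of_ne hki fun e => h (Fin.ext e)
        omega)
  -- the standard chain goes to the chain of the chamber
  have himg : ∀ j, (N F j).map (act g) = Ch j := by
    intro j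
    have hle : (N F j).map (act g) ≤ Ch j := by
      rintro _ ⟨u, hu, rfl⟩
      rw [act_expand]
      refine Submodule.sum_mem _ fun y hy => Submodule.smul_mem _ _ ?_
      have hyj : y < j := by
        by_contra hh
        exact Finsupp.mem_support_iff.1 hy (mem_N.1 hu y (by omega))
      have e : Finsupp.single y (1 : F)
          = sh F ((y / n) * n) (Finsupp.single (((rsd (n := n) y : Fin n) : ℕ) : ℤ) 1) := by
        rw [sh_single, mul_comm, add_comm, rsd_decomp]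
      rw [e, act_sh, hg, act_ofCols v hv0]
      have h1 : sh F ((y / n) * n) (v (rsd y))
          ∈ shL ((y / n) * n) (Ch ((((rsd (n := n) y : Fin n) : ℕ) : ℤ) + 1)) :=
        ⟨_, hv _, rfl⟩
      refine hmono _ _ (show y + 1 ≤ j by omega) ?_
      have e1 : shL ((y / n) * n) (Ch ((((rsd (n := n) y : Fin n) : ℕ) : ℤ) + 1)) = Ch (y + 1) := by
        simp only [hCh, shL_shL]
        set r : ℤ := (((rsd (n := n) y : Fin n) : ℕ) : ℤ) + 1 with hr
        have hy1 : y + 1 = (n : ℤ) * (y / n + r / n) + (((rsd (n := n) r : Fin n) : ℕ) : ℤ) := by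
          linarith [rsd_decomp (n := n) r, rsd_decomp (n := n) y]
        obtain ⟨p1, p2⟩ := rsd_eq (n := n) (y / n + r / n) (rsd (n := n) r)
        rw [← hy1] at p1 p2
        rw [p1, p2, add_mul]
      rwa [e1] at h1
    refine le_antisymm hle (le_of_minSet_subset hle
      (hlat j).bdd.choose_spec.choose_spec.2 fun x hx => ?_)
    rw [hopp, Set.mem_Iio] at hx
    obtain ⟨h1, h2⟩ := hlow x _ (single_mem_M (F := F) le_rfl 1)
    exact ⟨_, ⟨_, single_mem_N hx 1, rfl⟩, by rw [h2]; simp, h1⟩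
  -- `g` is onto, so invertible
  have hsurj : ∀ u : K F, ∃ w, act g w = u := by
    intro u
    obtain ⟨b, hb⟩ := exists_mem_N u
    obtain ⟨a, b', hab⟩ := (c (rsd 0)).1.2.bdd
    set m : ℤ := max (b - a) 0 with hm
    have hmn : m ≤ m * n := le_mul_of_one_le_right (le_max_right _ _) (by omega)
    have hmb : b - a ≤ m := le_max_left _ _
    have h1 : u ∈ shL (m * n) (sp (c (rsd 0))) :=
      (hab.shift (m * n)).1 (N_mono (by omega) hb)
    have h2 : shL (m * n) (sp (c (rsd 0))) = Ch ((n : ℤ) * m + (((rsd (n := n) 0 : Fin n) : ℕ) : ℤ)) := by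
      obtain ⟨p1, p2⟩ := rsd_eq (n := n) m (rsd (n := n) 0)
      simp only [hCh, p1, p2]
    rw [h2, ← himg] at h1
    obtain ⟨w, -, hw⟩ := h1
    exact ⟨w, hw⟩
  choose w hw using fun i : Fin n => hsurj (Finsupp.single ((i : ℕ) : ℤ) 1)
  have hw0 : ∀ i, w i ∈ M F 0 := fun i =>
    Low.mem_M_of hlow (by rw [hw]; exact single_mem_M (Int.natCast_nonneg _) 1)
  have hgh : g * ofCols w = 1 := eq_one_of_basis fun i => by
    rw [act_mul, Module.End.mul_apply, act_ofCols w hw0, hw]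
  have hunit : IsUnit g.det := IsUnit.of_mul_eq_one (ofCols w).det (by rw [← det_mul, hgh, det_one])
  have h0 : (Polynomial.constantCoeff g.det) = 1 := by
    rw [RingHom.map_det]
    rw [det_of_lowerTriangular]
    · refine prod_eq_one fun i _ => ?_
      rw [RingHom.mapMatrix_apply, Matrix.map_apply, Polynomial.constantCoeff_apply,
        coeff_ofCols v hv0, Nat.cast_zero, mul_zero, zero_add, hv1]
    · intro k i hki
      rw [RingHom.mapMatrix_apply, Matrix.map_apply, Polynomial.constantCoeff_apply,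
        coeff_ofCols v hv0, Nat.cast_zero, mul_zero, zero_add]
      exact mem_M.1 (hvM i) _ (by exact_mod_cast (OrderDual.toDual_lt_toDual.1 hki : (k : Fin n) < i))
  have hdet : g.det = 1 := by
    obtain ⟨u, -, hu⟩ := Polynomial.isUnit_iff.1 hunit
    rw [← hu, Polynomial.constantCoeff_apply, coeff_C_zero] at h0
    rw [← hu, h0, map_one]
  refine ⟨⟨⟨g, hdet⟩, hlow⟩, fun x hx => ?_⟩
  show (N F (ind (sp x))).map (act g) = sp x
  rw [himg]
  obtain ⟨i, hi⟩ : ∃ i : Fin n, ind (sp x) = ((i : ℕ) : ℤ) :=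
    ⟨⟨(ind (sp x)).toNat, by have h1 : ind (sp x) < n := x.2.2; omega⟩, by
      have h1 : 0 ≤ ind (sp x) := x.2.1
      simp only; omega⟩
  have hxc : x = c i := (hC.1 x hx _ (hc1 i)).eq_of_ind_eq (hi.trans (hc2 i).symm)
  obtain ⟨p1, p2⟩ := rsd_eq (n := n) (0 : ℤ) i
  rw [mul_zero, zero_add] at p1 p2
  simp only [hCh, hi, p1, p2, zero_mul, shL_zero, ← hxc]

/-- The standard chamber. -/
noncomputable def stdC (F : Type) [Field F] (n : ℕ) : Finset (Vx F n) := univ.image (stdV F n)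

lemma ind_stdV (j : Fin n) : ind (sp (stdV F n j)) = ((j : ℕ) : ℤ) := ind_N _

lemma card_stdC : (stdC F n).card = n := by
  rw [stdC, card_image_of_injective, card_univ, Fintype.card_fin]
  intro a b h
  have h' := congrArg (fun v : Vx F n => ind (sp v)) h
  simp only [ind_stdV] at h'
  exact Fin.ext (by exact_mod_cast h')

lemma xSimplex_stdC : XSimplex (stdC F n) := by
  refine ⟨fun a ha b hb => ?_, fun a ha => ?_⟩
  · obtain ⟨i, -, rfl⟩ := mem_image.1 ha
    obtain ⟨j, -, rfl⟩ := mem_image.1 hb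
    have key : ∀ i j : Fin n, i ≤ j → sp (stdV F n i) ≤ sp (stdV F n j) ∧
        sp (stdV F n j) ≤ TL n (sp (stdV F n i)) := by
      intro i j hij
      refine ⟨N_mono (by exact_mod_cast hij), ?_⟩
      show N F ((j : ℕ) : ℤ) ≤ TL n (N F ((i : ℕ) : ℤ))
      rw [TL, shL_N]
      refine N_mono ?_
      have := j.2
      omega
    exact (le_total i j).imp (key i j) (key j i)
  · obtain ⟨i, -, rfl⟩ := mem_image.1 ha
    exact opp_stdV i

/-- **`U+` is transitive on chambers.** -/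
theorem exists_smul_stdC {C : Finset (Vx F n)} (hC : XSimplex C) (hc : C.card = n) :
    ∃ g : Up F n, (stdC F n).image (g • ·) = C := by
  obtain ⟨g, hg⟩ := exists_element hC hc
  refine ⟨g, ((eq_of_subset_of_card_le ?_ ?_).symm)⟩
  · intro w hw
    have h1 : 0 ≤ ind (sp w) := w.2.1
    have h2 : ind (sp w) < n := w.2.2
    refine mem_image.2 ⟨stdV F n ⟨(ind (sp w)).toNat, by omega⟩, mem_image_of_mem _ (mem_univ _), ?_⟩
    refine Subtype.ext (Subtype.ext ?_)
    show gmap g (N F (((ind (sp w)).toNat : ℕ) : ℤ)) = sp w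
    rw [Int.toNat_of_nonneg h1, hg w hw]
  · exact card_image_le.trans (by rw [card_stdC, hc])

/-- **`U+` is simply transitive on chambers.** -/
theorem eq_one_of_fix_stdC {g : Up F n} (h : (stdC F n).image (g • ·) = stdC F n) : g = 1 := by
  have hN : ∀ j : Fin n, gmap g (N F ((j : ℕ) : ℤ)) = N F ((j : ℕ) : ℤ) := by
    intro j
    have hm : g • stdV F n j ∈ stdC F n := by
      rw [← h]; exact mem_image_of_mem _ (mem_image_of_mem _ (mem_univ j))
    obtain ⟨j', -, hj'⟩ := mem_image.1 hm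
    have e := congrArg (fun v : Vx F n => ind (sp v)) hj'
    simp only [ind_stdV, ind_smul] at e
    rw [show j' = j from Fin.ext (by exact_mod_cast e)] at hj'
    exact (congrArg sp hj').symm
  have hall : ∀ y : ℤ, gmap g (N F y) = N F y := by
    intro y
    have e := shL_gmap g (y / n) (N F (((rsd (n := n) y : Fin n) : ℕ) : ℤ))
    rwa [hN, shL_N, add_comm, mul_comm, rsd_decomp, eq_comm] at e
  refine Subtype.ext (Subtype.ext ?_)
  refine eq_one_of_basis fun i => ?_
  set x : ℤ := ((i : ℕ) : ℤ)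
  obtain ⟨h1, h2⟩ := g.2 x _ (single_mem_M (F := F) le_rfl 1)
  have h3 : actU g (Finsupp.single x 1) ∈ N F (x + 1) :=
    (hall (x + 1)).le ⟨_, single_mem_N (by omega) 1, rfl⟩
  ext z
  rcases lt_trichotomy z x with hz | hz | hz
  · rw [mem_M.1 h1 z hz, Finsupp.single_apply, if_neg hz.ne']
  · rw [hz, h2]
  · rw [mem_N.1 h3 z (by omega), Finsupp.single_apply, if_neg hz.ne]

/-- Every good simplex extends to one with `n` vertices. -/
theorem good_extend {σ : Finset (posModel F n).Vert} (h : σ ∈ (posModel F n).good) :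
    ∃ C ∈ (posModel F n).good, σ ⊆ C ∧ C.card = n := by
  obtain ⟨C, h1, h2, h3⟩ := exists_chamber_ext (σ := σ) ⟨(mem_simp_iff σ).1 h.1,
    fun v hv => (good_posModel_iff v.1).1 (h.2 v hv)⟩
  exact ⟨C, ⟨(mem_simp_iff C).2 h2.1, fun v hv => (good_posModel_iff v.1).2 (h2.2 v hv)⟩, h1, h3⟩

/-- `U+` is transitive on good simplices with `n` vertices. -/
theorem good_transitive {σ τ : Finset (posModel F n).Vert} (hσ : σ ∈ (posModel F n).good)
    (hσn : σ.card = n) (hτ : τ ∈ (posModel F n).good) (hτn : τ.card = n) :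
    ∃ g : Up F n, σ.image (g • ·) = τ := by
  obtain ⟨g, hg⟩ := exists_smul_stdC (C := σ) ⟨(mem_simp_iff σ).1 hσ.1,
    fun v hv => (good_posModel_iff v.1).1 (hσ.2 v hv)⟩ hσn
  obtain ⟨h, hh⟩ := exists_smul_stdC (C := τ) ⟨(mem_simp_iff τ).1 hτ.1,
    fun v hv => (good_posModel_iff v.1).1 (hτ.2 v hv)⟩ hτn
  refine ⟨h * g⁻¹, ext fun v => ?_⟩
  have m1 : ∀ u : Vx F n, u ∈ σ ↔ ∃ a ∈ stdC F n, g • a = u := fun u => by
    rw [← hg]; exact mem_image
  have m2 : ∀ u : Vx F n, u ∈ τ ↔ ∃ a ∈ stdC F n, h • a = u := fun u => by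
    rw [← hh]; exact mem_image
  constructor
  · intro hv
    obtain ⟨u, hu, rfl⟩ : ∃ u ∈ σ, (h * g⁻¹) • u = v := mem_image.1 hv
    obtain ⟨a, ha, rfl⟩ := (m1 u).1 hu
    refine (m2 _).2 ⟨a, ha, ?_⟩
    show h • a = (h * g⁻¹) • g • a
    rw [smul_smul, mul_assoc, inv_mul_cancel, mul_one]
  · intro hv
    obtain ⟨a, ha, rfl⟩ := (m2 v).1 hv
    refine mem_image.2 ⟨g • a, (m1 _).2 ⟨a, ha, rfl⟩, ?_⟩
    show (h * g⁻¹) • g • a = h • a
    rw [smul_smul, mul_assoc, inv_mul_cancel, mul_one]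

end Vale.Agent.P067.Top.Lat
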