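import Vale.Agent.P067.Top.Chain
import Vale.Agent.P067.Alg.SSet

/-!
# P067 topology: a complex of finite sets with injective ranks, as a semisimplicial set

If `K` is closed under subsets and the rank is injective on each member, sets with `q+1`
members are the `q`-simplices, the `i`-th face deleting the member of `i`-th smallest rank.
Exactness of `K` on sets with `q+1` members gives exactness in degree `q`.
-/

namespace Vale.Agent.P067.Top

open Finset
open scoped Classical

variable {V : Type}

/-- The data of a ranked complex. -/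
structure Ranked (V : Type) where
  K : Set (Finset V)
  rank : V → ℕ
  down : Down K
  inj : ∀ σ ∈ K, Set.InjOn rank ↑σ

namespace Ranked

variable (C : Ranked V)

/-- The `q`-simplices. -/
abbrev Simp (q : ℕ) : Type := {σ : Finset V // σ ∈ C.K ∧ σ.card = q + 1}

lemma card_image (q : ℕ) (s : C.Simp q) : (s.1.image C.rank).card = q + 1 := by
  rw [card_image_of_injOn (C.inj _ s.2.1), s.2.2]

/-- The `i`-th rank of a simplex. -/
noncomputable def rk (q : ℕ) (s : C.Simp q) : Fin (q + 1) ↪o ℕ :=
  (s.1.image C.rank).orderEmbOfFin (C.card_image q s)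

/-- The member of `i`-th rank. -/
noncomputable def member (q : ℕ) (s : C.Simp q) (i : Fin (q + 1)) : V :=
  (mem_image.1 ((s.1.image C.rank).orderEmbOfFin_mem (C.card_image q s) i)).choose

lemma member_spec (q : ℕ) (s : C.Simp q) (i : Fin (q + 1)) :
    C.member q s i ∈ s.1 ∧ C.rank (C.member q s i) = C.rk q s i :=
  (mem_image.1 ((s.1.image C.rank).orderEmbOfFin_mem (C.card_image q s) i)).choose_spec

lemma eq_member (q : ℕ) (s : C.Simp q) {v : V} (hv : v ∈ s.1) {i : Fin (q + 1)}
    (h : C.rank v = C.rk q s i) : v = C.member q s i :=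
  C.inj _ s.2.1 hv (C.member_spec q s i).1 (h.trans (C.member_spec q s i).2.symm)

/-- Deleting the member of `i`-th rank. -/
noncomputable def face (q : ℕ) (i : Fin (q + 2)) (s : C.Simp (q + 1)) : C.Simp q :=
  ⟨s.1.erase (C.member (q + 1) s i), C.down _ s.2.1 _ (erase_subset _ _), by
    rw [card_erase_of_mem (C.member_spec _ s i).1, s.2.2]; omega⟩

lemma member_face (q : ℕ) (i : Fin (q + 2)) (s : C.Simp (q + 1)) (k : Fin (q + 1)) :
    C.member q (C.face q i s) k = C.member (q + 1) s (i.succAbove k) := by
  refine (C.eq_member q (C.face q i s) ?_ ?_).symm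
  · refine mem_erase.2 ⟨fun h => ?_, (C.member_spec _ s _).1⟩
    have := congrArg C.rank h
    rw [(C.member_spec _ s _).2, (C.member_spec _ s _).2] at this
    exact Fin.succAbove_ne i k ((C.rk (q + 1) s).injective this)
  · rw [(C.member_spec _ s _).2]
    have huniq := orderEmbOfFin_unique (C.card_image q (C.face q i s))
      (f := fun j => C.rk (q + 1) s (i.succAbove j)) (fun j => ?_)
      ((C.rk (q + 1) s).strictMono.comp (Fin.strictMono_succAbove i))
    · exact congrFun huniq k
    · refine mem_image.2 ⟨C.member (q + 1) s (i.succAbove j), mem_erase.2 ⟨fun h => ?_, ?_⟩,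
        (C.member_spec _ s _).2⟩
      · have := congrArg C.rank h
        rw [(C.member_spec _ s _).2, (C.member_spec _ s _).2] at this
        exact Fin.succAbove_ne i j ((C.rk (q + 1) s).injective this)
      · exact (C.member_spec _ s _).1

/-- The semisimplicial set. -/
noncomputable def sset : SSet where
  obj := C.Simp
  face := C.face
  face_face q i j hij s := by
    apply Subtype.ext
    show ((s.1.erase _).erase _) = ((s.1.erase _).erase _)
    have hij' : i.val ≤ j.val := hij
    have e1 : (j.succ).succAbove i = i.castSucc := Fin.succAbove_of_castSucc_lt _ _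
      (show i.val < j.val + 1 by omega)
    have e2 : (i.castSucc).succAbove j = j.succ := Fin.succAbove_of_le_castSucc _ _
      (show i.val ≤ j.val by omega)
    rw [C.member_face, C.member_face, erase_right_comm, e1, e2]

/-- Simplices as basis chains of finite sets. -/
noncomputable def toChn (q : ℕ) : C.sset.Ch q →ₗ[ZMod 2] Chn V :=
  Finsupp.lmapDomain (ZMod 2) (ZMod 2) fun s => s.1

lemma toChn_single (q : ℕ) (s : C.sset.obj q) :
    C.toChn q (Finsupp.single s (1 : ZMod 2)) = basic s.1 := by
  exact Finsupp.mapDomain_single

lemma toChn_injective (q : ℕ) : Function.Injective (C.toChn q) :=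
  Finsupp.mapDomain_injective Subtype.val_injective

lemma toChn_mem (q : ℕ) (z : C.sset.Ch q) : C.toChn q z ∈ piece C.K (q + 1) := by
  rw [piece, Finsupp.mem_supported]
  intro σ hσ
  obtain ⟨s, -, rfl⟩ := mem_image.1 (Finsupp.mapDomain_support hσ)
  exact s.2

lemma exists_preimage {q : ℕ} {x : Chn V} (hx : x ∈ piece C.K (q + 1)) :
    ∃ z, C.toChn q z = x := by
  refine piece_induction (motive := fun x => ∃ z, C.toChn q z = x) hx ⟨0, map_zero _⟩ ?_ ?_
  · rintro x y ⟨a, rfl⟩ ⟨b, rfl⟩
    exact ⟨a + b, map_add _ _ _⟩
  · exact fun σ hσ hk => ⟨_, C.toChn_single q ⟨σ, hσ, hk⟩⟩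

lemma toChn_bd (q : ℕ) (z : C.sset.Ch (q + 1)) :
    C.toChn q (C.sset.bd q z) = bdP C.K (C.toChn (q + 1) z) := by
  induction z using Finsupp.induction_linear with
  | zero => simp
  | add a b ha hb => simp [ha, hb]
  | single s c =>
    rcases (show c = 0 ∨ c = 1 by revert c; decide) with rfl | rfl
    · simp
    rw [C.toChn_single, SSet.bd_single, map_sum, bdP_basic]
    simp only [C.toChn_single]
    refine sum_bij (fun i _ => C.member (q + 1) s i) (fun i _ => (C.member_spec _ s i).1) ?_ ?_ ?_
    · intro i _ j _ h
      have := congrArg C.rank h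
      rw [(C.member_spec _ s i).2, (C.member_spec _ s j).2] at this
      exact (C.rk (q + 1) s).injective this
    · intro v hv
      have : C.rank v ∈ Set.range (C.rk (q + 1) s) := by
        unfold rk
        rw [range_orderEmbOfFin]
        exact mem_coe.2 (mem_image_of_mem _ hv)
      obtain ⟨i, hi⟩ := this
      exact ⟨i, mem_univ _, (C.eq_member _ s hv hi.symm).symm⟩
    · intro i _
      rw [if_pos (C.down _ s.2.1 _ (erase_subset _ _))]
      rfl

lemma toChn_aug (z : C.sset.Ch 0) :
    bdP C.K (C.toChn 0 z) = C.sset.aug z • basic ∅ := by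
  induction z using Finsupp.induction_linear with
  | zero => simp
  | add a b ha hb => simp [ha, hb, add_smul]
  | single s c =>
    rcases (show c = 0 ∨ c = 1 by revert c; decide) with rfl | rfl
    · simp
    rw [C.toChn_single, bdP_basic, SSet.aug, Finsupp.linearCombination_single, smul_eq_mul, one_mul,
      one_smul]
    obtain ⟨v, hv⟩ := card_eq_one.1 s.2.2
    have h0 : (∅ : Finset V) ∈ C.K := C.down _ s.2.1 _ (empty_subset _)
    simp [hv, h0]

/-- Exactness of `K` on sets with `q + 1` members gives exactness in degree `q`. -/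
theorem exact_sset {q : ℕ} (h : Exact C.K (q + 1)) : C.sset.Exact q := by
  have step : ∀ z : C.sset.Ch q, bdP C.K (C.toChn q z) = 0 → ∃ w, C.sset.bd q w = z := by
    intro z hz
    obtain ⟨w, hw, hwz⟩ := h _ (C.toChn_mem q z) hz
    obtain ⟨u, rfl⟩ := C.exists_preimage hw
    exact ⟨u, C.toChn_injective q (by rw [C.toChn_bd, hwz])⟩
  rcases q with - | q
  · intro z hz
    exact step z (by rw [C.toChn_aug z, hz, zero_smul])
  · intro z hz
    exact step z (by rw [← C.toChn_bd, hz, map_zero])

lemma rk_congr (q : ℕ) {s t : C.Simp q} (h : s.1.image C.rank = t.1.image C.rank) (i : Fin (q + 1)) :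
    C.rk q s i = C.rk q t i := by
  unfold rk
  generalize C.card_image q s = hs
  generalize C.card_image q t = ht
  revert hs ht
  rw [h]
  intros
  rfl

variable {G : Type} [Group G] [MulAction G V]

/-- The image of a simplex under a group element. -/
noncomputable def move (hK : ∀ (g : G), ∀ σ ∈ C.K, σ.image (g • ·) ∈ C.K) (q : ℕ) (g : G)
    (s : C.Simp q) : C.Simp q :=
  ⟨s.1.image (g • ·), hK g _ s.2.1, by
    rw [Finset.card_image_of_injective _ (MulAction.injective g), s.2.2]⟩

/-- A ranked complex with a group action preserving it and the ranks. -/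
noncomputable def gsset (hK : ∀ (g : G), ∀ σ ∈ C.K, σ.image (g • ·) ∈ C.K)
    (hr : ∀ (g : G) (v : V), C.rank (g • v) = C.rank v) : GSSet G where
  toSSet := C.sset
  act q :=
    { toFun := fun g =>
        { toFun := C.move hK q g
          invFun := C.move hK q g⁻¹
          left_inv := fun s => Subtype.ext (by
            simp [move, image_image, Function.comp_def, inv_smul_smul])
          right_inv := fun s => Subtype.ext (by
            simp [move, image_image, Function.comp_def, smul_inv_smul]) }
      map_one' := Equiv.ext fun s => Subtype.ext (show s.1.image ((1 : G) • ·) = s.1 by simp)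
      map_mul' := fun g h => Equiv.ext fun s => Subtype.ext
        (show s.1.image ((g * h) • ·) = (s.1.image (h • ·)).image (g • ·) by
          simp [image_image, Function.comp_def, mul_smul]) }
  act_face q i g s := by
    apply Subtype.ext
    show (s.1.image (g • ·)).erase _ = (s.1.erase _).image (g • ·)
    rw [image_erase (MulAction.injective g)]
    congr 1
    refine (C.eq_member (q + 1) _ (mem_image_of_mem _ (C.member_spec _ s i).1) ?_).symm
    rw [hr, (C.member_spec _ s i).2]
    refine C.rk_congr (q + 1) ?_ i
    show s.1.image C.rank = (s.1.image (g • ·)).image C.rank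
    simp [image_image, Function.comp_def, hr]

end Ranked

end Vale.Agent.P067.Top
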