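import Vale.Agent.P067.Alg.Transfer
import Vale.Agent.P067.Top.Ranked
import Vale.Agent.P067.Defs

/-!
# P067 topology: from exactness of a semisimplicial set to cocycles on finite vertex sets
-/

namespace Vale.Agent.P067.Top

open Finset

/-- `S` is, up to degree `m`, the set of faces of the complex with top faces `T`. -/
structure Realises {W : Type} [DecidableEq W] (S : SSet) (T : Finset (Finset W)) (m : ℕ) where
  vset : ∀ q, S.obj q → Finset W
  mem : ∀ q ≤ m, ∀ s, vset q s ∈ Vale.P067.faces T (q + 1)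
  inj : ∀ q ≤ m, Function.Injective (vset q)
  surj : ∀ q ≤ m, ∀ σ ∈ Vale.P067.faces T (q + 1), ∃ s, vset q s = σ
  face_sub : ∀ q i s, vset q (S.face q i s) ⊆ vset (q + 1) s
  face_inj : ∀ q s, Function.Injective fun i => vset q (S.face q i s)

namespace Realises

variable {W : Type} [DecidableEq W] {S : SSet} {T : Finset (Finset W)} {m : ℕ}

omit [DecidableEq W] in
lemma card_of_mem {T : Finset (Finset W)} [DecidableEq W] {k : ℕ} {σ : Finset W}
    (h : σ ∈ Vale.P067.faces T k) : σ.card = k := by
  obtain ⟨t, -, ht⟩ := mem_biUnion.1 h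
  exact (mem_powersetCard.1 ht).2

/-- A cochain as a functional on chains. -/
noncomputable def func (R : Realises S T m) (f : Finset W → ZMod 2) (q : ℕ) :
    S.Ch q →ₗ[ZMod 2] ZMod 2 :=
  Finsupp.linearCombination (ZMod 2) fun s => f (R.vset q s)

lemma func_bd (R : Realises S T m) (f : Finset W → ZMod 2) {q : ℕ} (hq : q + 1 ≤ m)
    (s : S.obj (q + 1)) :
    R.func f q (S.bd q (Finsupp.single s 1)) = Vale.P067.delta (q + 1) f (R.vset (q + 1) s) := by
  classical
  rw [SSet.bd_single, map_sum, Vale.P067.delta]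
  simp only [func, Finsupp.linearCombination_single, one_smul]
  have hc : (R.vset (q + 1) s).card = q + 2 := card_of_mem (R.mem _ hq s)
  have hmem : ∀ i, R.vset q (S.face q i s) ∈ (R.vset (q + 1) s).powersetCard (q + 1) := fun i =>
    mem_powersetCard.2 ⟨R.face_sub q i s, card_of_mem (R.mem q (by omega) _)⟩
  have e : (univ : Finset (Fin (q + 2))).image (fun i => R.vset q (S.face q i s)) =
      (R.vset (q + 1) s).powersetCard (q + 1) := by
    refine eq_of_subset_of_card_le (image_subset_iff.2 fun i _ => hmem i) (le_of_eq ?_)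
    rw [card_image_of_injective _ (R.face_inj q s), card_powersetCard, hc, card_univ,
      Fintype.card_fin, Nat.choose_succ_self_right]
  rw [← e, sum_image fun i _ j _ h => R.face_inj q s h]

/-- Exactness gives vanishing cohomology in the language of cochains on faces. -/
theorem isCobound_of_exact (R : Realises S T m) {i : ℕ} (him : i + 1 ≤ m) (hS : S.Exact i)
    (f : Finset W → ZMod 2) (hf : Vale.P067.IsCocycle T i f) : Vale.P067.IsCobound T i f := by
  classical
  have hz : ∀ w, R.func f i (S.bd i w) = 0 := fun w => by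
    induction w using Finsupp.induction_linear with
    | zero => simp
    | add a b ha hb => simp [ha, hb]
    | single s c =>
      rw [single_eq_smul, map_smul, map_smul, R.func_bd f him, hf _ (R.mem _ him s), smul_zero]
  rcases i with - | i
  · rcases isEmpty_or_nonempty (S.obj 0) with h | ⟨⟨s0⟩⟩
    · refine ⟨0, fun σ hσ => ?_⟩
      obtain ⟨s, -⟩ := R.surj 0 (by omega) σ hσ
      exact h.elim s
    refine ⟨fun _ => f (R.vset 0 s0), fun σ hσ => ?_⟩
    obtain ⟨s, rfl⟩ := R.surj 0 (by omega) σ hσ
    have := SSet.coexact_zero hS _ hz s s0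
    simpa [func, Vale.P067.delta, powersetCard_zero] using this
  · obtain ⟨g, hg⟩ := SSet.coexact_of_exact hS _ hz
    refine ⟨fun σ => if h : ∃ s, R.vset i s = σ then g (Finsupp.single (Classical.choose h) 1) else 0,
      fun σ hσ => ?_⟩
    obtain ⟨s, rfl⟩ := R.surj (i + 1) (by omega) σ hσ
    have h1 := hg (Finsupp.single s 1)
    have h2 : ∀ (G : Finset W → ZMod 2), (∀ t, G (R.vset i t) = g (Finsupp.single t 1)) →
        g (S.bd i (Finsupp.single s 1)) = R.func G i (S.bd i (Finsupp.single s 1)) := fun G hG => by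
      rw [SSet.bd_single, map_sum, map_sum]
      exact sum_congr rfl fun k _ => by simp [func, hG]
    rw [← R.func_bd _ (by omega) s, ← h2 _ fun t => ?_, ← h1]
    · simp [func]
    · have h : ∃ t', R.vset i t' = R.vset i t := ⟨t, rfl⟩
      simp only [dif_pos h, R.inj i (by omega) (Classical.choose_spec h)]

end Realises

namespace Ranked

open scoped Classical

variable {V W : Type} [DecidableEq W] (C : Ranked V) {G : Type} [Group G] [MulAction G V]
  (hK : ∀ (g : G), ∀ σ ∈ C.K, σ.image (g • ·) ∈ C.K)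
  (hr : ∀ (g : G) (v : V), C.rank (g • v) = C.rank v)

/-- The orbit complex of a ranked complex, read through an invariant vertex map. -/
noncomputable def realisesQuot (T : Finset (Finset W)) (m : ℕ) (π : V → W)
    (hπ : ∀ (g : G) v, π (g • v) = π v) (hinj : ∀ σ ∈ C.K, Set.InjOn π ↑σ)
    (hmem : ∀ σ ∈ C.K, 1 ≤ σ.card → σ.card ≤ m + 1 → σ.image π ∈ Vale.P067.faces T σ.card)
    (hsurj : ∀ k, 1 ≤ k → k ≤ m + 1 → ∀ τ ∈ Vale.P067.faces T k,
      ∃ σ ∈ C.K, σ.card = k ∧ σ.image π = τ)
    (horb : ∀ σ ∈ C.K, ∀ σ' ∈ C.K, σ.image π = σ'.image π → ∃ g : G, σ.image (g • ·) = σ') :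
    Realises (C.gsset hK hr).quot T m where
  vset q := Quotient.lift (fun s => s.1.image π) (by
    rintro a b ⟨g, rfl⟩
    show a.1.image π = (a.1.image (g • ·)).image π
    rw [image_image]
    exact image_congr fun v _ => (hπ g v).symm)
  mem q hq := by
    rintro ⟨s⟩
    show s.1.image π ∈ _
    have h := hmem s.1 s.2.1 (by rw [s.2.2]; omega) (by rw [s.2.2]; omega)
    rwa [s.2.2] at h
  inj q hq := by
    rintro ⟨s⟩ ⟨t⟩ h
    obtain ⟨g, hg⟩ := horb s.1 s.2.1 t.1 t.2.1 h
    exact Quotient.sound ⟨g, Subtype.ext hg⟩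
  surj q hq τ hτ := by
    obtain ⟨σ, hσ, hc, rfl⟩ := hsurj (q + 1) (by omega) (by omega) τ hτ
    exact ⟨Quotient.mk _ ⟨σ, hσ, hc⟩, rfl⟩
  face_sub q i := by
    rintro ⟨s⟩
    show (s.1.erase (C.member (q + 1) s i)).image π ⊆ s.1.image π
    exact image_mono _ (erase_subset _ _)
  face_inj q := by
    rintro ⟨s⟩ i j h
    have h' : (s.1.erase (C.member (q + 1) s i)).image π =
        (s.1.erase (C.member (q + 1) s j)).image π := h
    by_contra hij
    have hne : C.member (q + 1) s i ≠ C.member (q + 1) s j := fun e => by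
      have := congrArg C.rank e
      rw [(C.member_spec _ s i).2, (C.member_spec _ s j).2] at this
      exact hij ((C.rk (q + 1) s).injective this)
    have hm : π (C.member (q + 1) s i) ∈ (s.1.erase (C.member (q + 1) s i)).image π := by
      rw [h']
      exact mem_image_of_mem π (mem_erase.2 ⟨hne, (C.member_spec _ s i).1⟩)
    obtain ⟨v, hv, hv'⟩ := mem_image.1 hm
    have := hinj s.1 s.2.1 (mem_of_mem_erase hv) (C.member_spec _ s i).1 hv'
    exact (mem_erase.1 hv).1 this

end Ranked

end Vale.Agent.P067.Top
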