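import Vale.Agent.P067.Alg.Stabiliser
import Vale.Agent.P067.Top.Ranked
import Vale.Agent.P067.Top.MorseMain

/-!
# P067 topology: the good part of a model as a complex with group action

For a group acting on the vertices, preserving goodness and index, transitive on good simplices
of one type, with locally odd stabilisers, the group has no homology in the acyclicity range;
for a free action the orbit complex is exact there as soon as the group is.
-/

namespace Vale.Agent.P067.Top

open Finset
open scoped Classical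

/-- Equality of naturals as the generic ranked complexes decide it. -/
@[instance_reducible] noncomputable def natDecEqClassical : DecidableEq ℕ := Classical.decEq ℕ

-- one `DecidableEq ℕ` with the generic ranked complexes
attribute [local instance 2000] natDecEqClassical

/-- The simplex on `{0, ..., n-1}`, ranked. -/
def stdSimplex (n : ℕ) : Ranked ℕ where
  K := {T | T ⊆ range n}
  rank := id
  down := fun _ hσ _ hτ => hτ.trans hσ
  inj := fun _ _ => Function.injective_id.injOn

lemma stdSimplex_exact {n : ℕ} (hn : 0 < n) (k : ℕ) : Exact (stdSimplex n).K k :=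
  exact_cone (stdSimplex n).down.convex 0
    (fun _ hσ => Set.mem_ofPred.2 (insert_subset (mem_range.2 hn) (Set.mem_ofPred.1 hσ)))
    (fun _ hσ => Set.mem_ofPred.2 ((erase_subset _ _).trans (Set.mem_ofPred.1 hσ))) k

namespace Model

variable {n : ℕ} [NeZero n] (M : Model n)

/-- The index of a vertex as a natural number. -/
def rankV (v : M.Vert) : ℕ := (M.ind v.1).toNat

omit [NeZero n] in
lemma rankV_lt (v : M.Vert) : M.rankV v < n := by
  have := v.2.1
  have := v.2.2
  show (M.ind v.1).toNat < n
  omega

lemma rankV_inj {σ : Finset M.Vert} (hσ : σ ∈ M.simp) : Set.InjOn M.rankV ↑σ := by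
  intro v hv w hw e
  by_contra hne
  have hi : M.ind v.1 = M.ind w.1 := by
    have := v.2.1
    have := w.2.1
    simp only [rankV] at e
    omega
  have hvc : v.1 ∈ M.cover σ := M.mem_cover.2 (by rwa [norm_vert])
  have hwc : w.1 ∈ M.cover σ := M.mem_cover.2 (by rwa [norm_vert])
  have hne' : v.1 ≠ w.1 := fun h => hne (Subtype.ext h)
  rcases hσ hvc hwc hne' with h | h
  · have := M.ind_lt _ _ (lt_of_le_of_ne h hne')
    omega
  · have := M.ind_lt _ _ (lt_of_le_of_ne h (Ne.symm hne'))
    omega

/-- The good part, ranked by index. -/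
def goodR : Ranked M.Vert where
  K := M.good
  rank := M.rankV
  down := M.down_good
  inj := fun _ hσ => M.rankV_inj hσ.1

variable {G : Type} [Group G] [MulAction G M.Vert]

/-- Preservation of goodness and index. -/
structure Preserves (G : Type) [Group G] [MulAction G M.Vert] : Prop where
  good : ∀ (g : G) (σ : Finset M.Vert), σ ∈ M.good → σ.image (g • ·) ∈ M.good
  ind : ∀ (g : G) (v : M.Vert), M.ind (g • v).1 = M.ind v.1

/-- The good part as a complex with action. -/
noncomputable def goodW (hP : M.Preserves G) : GSSet G :=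
  M.goodR.gsset hP.good fun g v => by
    show (M.ind (g • v).1).toNat = (M.ind v.1).toNat
    rw [hP.ind]

variable {M}

lemma goodW_exact (hP : M.Preserves G) (hex : ∀ k, k + 1 < n → Exact M.good k) {q : ℕ}
    (hq : q + 2 < n) : (M.goodW hP).Exact q :=
  M.goodR.exact_sset (hex (q + 1) (by omega))

/-- The type of a simplex. -/
noncomputable def typeHom (hP : M.Preserves G) : SSet.Hom (M.goodW hP).quot (stdSimplex n).sset where
  app q := Quotient.lift
    (fun σ : M.goodR.Simp q => (⟨σ.1.image M.rankV, fun x hx => by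
        obtain ⟨v, -, rfl⟩ := mem_image.1 hx
        exact mem_range.2 (M.rankV_lt v),
      by rw [card_image_of_injOn (M.rankV_inj σ.2.1.1), σ.2.2]⟩ : (stdSimplex n).Simp q))
    (by
      rintro σ _ ⟨g, rfl⟩
      apply Subtype.ext
      show σ.1.image M.rankV = (σ.1.image (g • ·)).image M.rankV
      rw [image_image]
      refine image_congr fun v _ => ?_
      show (M.ind v.1).toNat = (M.ind (g • v).1).toNat
      rw [hP.ind])
  comm q i := by
    rintro ⟨σ⟩
    apply Subtype.ext
    show (σ.1.erase (M.goodR.member (q + 1) σ i)).image M.rankV = (σ.1.image M.rankV).erase _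
    have hinj := M.rankV_inj σ.2.1.1
    have hm := M.goodR.member_spec (q + 1) σ i
    rw [← (stdSimplex n).eq_member (q + 1) _ (mem_image_of_mem _ hm.1) ?_]
    · ext x
      simp only [mem_image, mem_erase]
      constructor
      · rintro ⟨y, ⟨hne, hy⟩, rfl⟩
        exact ⟨fun e => hne (hinj hy hm.1 e), y, hy, rfl⟩
      · rintro ⟨hne, y, hy, rfl⟩
        exact ⟨y, ⟨fun e => hne (by rw [e]), hy⟩, rfl⟩
    · show M.rankV (M.goodR.member (q + 1) σ i) = _
      refine hm.2.trans ?_
      unfold Ranked.rk
      have key : ∀ {k : ℕ} {A B : Finset ℕ} (_ : A = B) (hA : A.card = k) (hB : B.card = k)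
          (j : Fin k), A.orderEmbOfFin hA j = B.orderEmbOfFin hB j := by
        intro k A B h hA hB j
        subst h
        rfl
      exact key (Finset.ext fun x => by simp [stdSimplex, goodR]) _ _ i

/-- A group acting transitively on each type, with locally odd stabilisers, has no homology. -/
theorem GH_exact_of_good (hP : M.Preserves G) (hex : ∀ k, k + 1 < n → Exact M.good k)
    (hchamber : ∃ σ ∈ M.good, σ.card = n)
    (htrans : ∀ σ ∈ M.good, ∀ σ' ∈ M.good, σ.image M.rankV = σ'.image M.rankV →
      ∃ g : G, σ.image (g • ·) = σ')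
    (hodd : ∀ q w, LocOdd ((M.goodW hP).stab q w)) {i : ℕ} (hi : 1 ≤ i) (hn : i + 2 ≤ n) :
    (GH G).Exact i := by
  obtain ⟨σ₀, hσ₀, hcard⟩ := hchamber
  have hne : Nonempty ((M.goodW hP).obj 0) := by
    obtain ⟨v, hv⟩ := card_pos.1 (by omega : 0 < σ₀.card)
    exact ⟨⟨{v}, M.down_good σ₀ hσ₀ _ (singleton_subset_iff.2 hv), card_singleton v⟩⟩
  have hfull : σ₀.image M.rankV = range n :=
    eq_of_subset_of_card_le (fun x hx => by
      obtain ⟨v, -, rfl⟩ := mem_image.1 hx
      exact mem_range.2 (M.rankV_lt v))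
      (by rw [card_image_of_injOn (M.rankV_inj hσ₀.1), hcard, card_range])
  have hA : (M.goodW hP).quot.Exact i := by
    obtain ⟨j, rfl⟩ : ∃ j, i = j + 1 := ⟨i - 1, by omega⟩
    intro z hz
    have hT : (stdSimplex n).sset.Exact (j + 1) :=
      (stdSimplex n).exact_sset (stdSimplex_exact (by omega) _)
    obtain ⟨w, hw⟩ := hT ((typeHom hP).chain (j + 1) z)
      (by rw [← (typeHom hP).chain_bd, hz, map_zero])
    have hsurj : Function.Surjective ((typeHom hP).app (j + 2)) := by
      rintro ⟨T, hT, hTc⟩
      have hT' : T ⊆ σ₀.image M.rankV := hfull ▸ hT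
      have e : (σ₀.filter fun v => M.rankV v ∈ T).image M.rankV = T := by
        ext x
        simp only [mem_image, mem_filter]
        exact ⟨fun ⟨v, hv, hx⟩ => hx ▸ hv.2, fun hx => by
          obtain ⟨v, hv, rfl⟩ := mem_image.1 (hT' hx)
          exact ⟨v, ⟨hv, hx⟩, rfl⟩⟩
      refine ⟨Quotient.mk _ ⟨σ₀.filter fun v => M.rankV v ∈ T,
        M.down_good σ₀ hσ₀ _ (filter_subset _ _), ?_⟩, Subtype.ext e⟩
      rw [← card_image_of_injOn ((M.rankV_inj hσ₀.1).mono (coe_subset.2 (filter_subset _ _))), e,
        hTc]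
    have hinj : Function.Injective ((typeHom hP).app (j + 1)) := by
      rintro ⟨σ⟩ ⟨σ'⟩ e
      obtain ⟨g, hg⟩ := htrans σ.1 σ.2.1 σ'.1 σ'.2.1 (Subtype.ext_iff.1 e)
      exact Quotient.sound ⟨g, Subtype.ext hg⟩
    obtain ⟨u, rfl⟩ := Finsupp.mapDomain_surjective hsurj w
    refine ⟨u, Finsupp.mapDomain_injective hinj ?_⟩
    show (typeHom hP).chain (j + 1) ((M.goodW hP).quot.bd (j + 1) u) = (typeHom hP).chain (j + 1) z
    rw [(typeHom hP).chain_bd]
    exact hw
  exact exact_of_stabilisers (M.goodW hP) hi (fun p hp => goodW_exact hP hex (by omega)) hA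
    fun q p _ _ _ w => GH_exact_of_locOdd (hodd p w) q

/-- For a free action the orbit complex is exact where the group has no homology, and connected. -/
theorem quot_exact_of_free (hP : M.Preserves G) (hex : ∀ k, k + 1 < n → Exact M.good k)
    (hchamber : ∃ σ ∈ M.good, σ.card = n)
    (hfree : ∀ (g : G) (v : M.Vert), {v} ∈ M.good → g • v = v → g = 1) {i : ℕ} (hn : i + 2 < n)
    (hG : 1 ≤ i → (GH G).Exact i) : (M.goodW hP).quot.Exact i := by
  obtain ⟨σ₀, hσ₀, hcard⟩ := hchamber
  rcases i with - | j
  · intro z hz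
    obtain ⟨z', rfl⟩ := Finsupp.mapDomain_surjective
      (f := (M.goodW hP).proj.app 0) Quotient.mk_surjective z
    have hz' : (M.goodW hP).aug z' = 0 := by
      rw [← (M.goodW hP).proj.aug_chain z']
      exact hz
    obtain ⟨w, hw⟩ := goodW_exact hP hex (q := 0) (by omega) z' hz'
    exact ⟨(M.goodW hP).proj.chain 1 w, by rw [← SSet.Hom.chain_bd, hw]; rfl⟩
  have hne : Nonempty ((M.goodW hP).obj 0) := by
    obtain ⟨v, hv⟩ := card_pos.1 (by omega : 0 < σ₀.card)
    exact ⟨⟨{v}, M.down_good σ₀ hσ₀ _ (singleton_subset_iff.2 hv), card_singleton v⟩⟩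
  refine exact_quot_of_free (M.goodW hP) ?_ (by omega)
    (fun p hp => goodW_exact hP hex (by omega)) (hG (by omega))
  intro q g s hgs
  have e : s.1.image (g • ·) = s.1 := congrArg Subtype.val hgs
  obtain ⟨v, hv⟩ := card_pos.1 (by rw [s.2.2]; omega : 0 < s.1.card)
  have hgv : g • v = v := by
    refine M.rankV_inj s.2.1.1 (e ▸ mem_image_of_mem _ hv) hv ?_
    show (M.ind (g • v).1).toNat = (M.ind v.1).toNat
    rw [hP.ind]
  exact hfree g v (M.down_good _ s.2.1 _ (singleton_subset_iff.2 hv)) hgv

end Model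

end Vale.Agent.P067.Top
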