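import Vale.Agent.P067.Top.StableData
import Vale.Agent.P067.Top.Chamber
import Vale.Agent.P067.Link.Vanish

/-!
# P067 topology: Step A, vanishing of the cohomology of the quotients

`U+` acts on `X~` of `F[t, 1/t]^m`, transitively on good simplices of one type; given locally odd
vertex stabilisers and congruence subgroups of odd finite index, the congruence subgroups have no
homology in the stable range and the quotient of `X~` no cohomology in degrees below `d` when
`2 d ≤ n`.
-/

namespace Vale.Agent.P067.Top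

open Finset Matrix Polynomial
open scoped Classical

/-- Subgroups of locally odd groups are locally odd. -/
lemma locOdd_of_le {G : Type} [Group G] {H K : Subgroup G} (hK : LocOdd K) (h : H ≤ K) :
    LocOdd H := by
  intro s
  obtain ⟨L, hL, hfin, hodd⟩ := hK (s.image (Subgroup.inclusion h))
  have hinj : Function.Injective ((Subgroup.inclusion h).subgroupComap L) := fun a b e =>
    Subtype.ext (Subgroup.inclusion_injective h (congrArg Subtype.val e))
  refine ⟨L.comap (Subgroup.inclusion h), fun g hg => hL _ (mem_image_of_mem _ hg),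
    Finite.of_injective _ hinj, ?_⟩
  exact hodd.of_dvd_nat (Subgroup.card_dvd_of_injective _ hinj)

namespace Model

variable {n : ℕ} [NeZero n] {M : Model n} {G : Type} [Group G] [MulAction G M.Vert]

/-- Stabilisers of simplices lie in stabilisers of vertices. -/
lemma locOdd_stab (hP : M.Preserves G)
    (hv : ∀ v : M.Vert, {v} ∈ M.good → LocOdd (MulAction.stabilizer G v))
    (q : ℕ) (w : (M.goodW hP).obj q) : LocOdd ((M.goodW hP).stab q w) := by
  obtain ⟨v, hvw⟩ := card_pos.1 (by rw [w.2.2]; omega : 0 < w.1.card)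
  refine locOdd_of_le (hv v (M.down_good _ w.2.1 _ (singleton_subset_iff.2 hvw))) fun g hg => ?_
  have e : w.1.image (g • ·) = w.1 := congrArg Subtype.val hg
  refine M.rankV_inj w.2.1.1 (e ▸ mem_image_of_mem _ hvw) hvw ?_
  show (M.ind (g • v).1).toNat = (M.ind v.1).toNat
  rw [hP.ind]

end Model

open Vale.Agent.P067.Top.Lat

section

variable {F : Type} [Field F] [Fintype F]

omit [Fintype F] in
/-- `U+` preserves goodness and index. -/
theorem up_preserves (m : ℕ) [NeZero m] : (posModel F m).Preserves (Up F m) where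
  good g σ hσ := by convert good_smul (g := g) hσ
  ind g v := Lat.ind_smul g v

/-- `U+` is transitive on good simplices of one type. -/
theorem up_htrans (m : ℕ) [NeZero m] {σ σ' : Finset (posModel F m).Vert}
    (hσ : σ ∈ (posModel F m).good) (hσ' : σ' ∈ (posModel F m).good)
    (h : σ.image (posModel F m).rankV = σ'.image (posModel F m).rankV) :
    ∃ g : Up F m, σ.image (g • ·) = σ' := by
  obtain ⟨C, hC, hsub, hc⟩ := good_extend hσ
  obtain ⟨C', hC', hsub', hc'⟩ := good_extend hσ'
  obtain ⟨g, hg⟩ := good_transitive hC hc hC' hc'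
  refine ⟨g, eq_of_subset_of_card_le (fun w hw => ?_) ?_⟩
  · obtain ⟨v, hv, rfl⟩ := mem_image.1 hw
    obtain ⟨v', hv', e⟩ := mem_image.1 (h ▸ mem_image_of_mem (posModel F m).rankV hv)
    have h1 : g • v ∈ C' := by
      rw [← hg]
      exact mem_image.2 ⟨v, hsub hv, rfl⟩
    convert hv'
    refine (posModel F m).rankV_inj hC'.1 h1 (hsub' hv') (Eq.trans ?_ e.symm)
    show ((posModel F m).ind (g • v).1).toNat = ((posModel F m).ind v.1).toNat
    rw [(up_preserves m).ind]
  · rw [card_image_of_injective _ (MulAction.injective g),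
      ← card_image_of_injOn ((posModel F m).rankV_inj hσ'.1), ← h,
      card_image_of_injOn ((posModel F m).rankV_inj hσ.1)]

omit [Fintype F] in
lemma exists_good_card (m : ℕ) [NeZero m] :
    ∃ σ ∈ (posModel F m).good, σ.card = m :=
  ⟨stdC F m, (mem_good_iff _).2 xSimplex_stdC, card_stdC⟩

/-- The congruence subgroups have no homology in the stable range. -/
theorem gam_exact_up {s : ℕ} (hs : 1 ≤ s) {p : ℕ} [CharP F p] (hp : p.Prime) (hodd : Odd p)
    (n : ℕ) (hq : 2 ^ n ≤ Fintype.card F)
    (hfin : ∀ m [NeZero m], Finite (Up F m ⧸ GamU F m s))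
    (hoddU : ∀ m [NeZero m], Odd (Nat.card (Up F m ⧸ GamU F m s)))
    (hstab : ∀ m [NeZero m], ∀ v : (posModel F m).Vert, {v} ∈ (posModel F m).good →
      LocOdd (MulAction.stabilizer (Up F m) v)) :
    ∀ m ≤ n, ∀ i, 1 ≤ i → 2 * i + 2 ≤ m → (GH (Gam F s (Fin m))).Exact i :=
  gam_exact hs hp hodd (fun m _ => Up F m) (fun m _ => gam_le_Up hs) hfin hoddU n
    fun m _ hm i hi hi2 => Model.GH_exact_of_good (up_preserves m)
      (Vale.P067.Link.exact_good_field m F ((Nat.pow_le_pow_right (by norm_num) hm).trans hq))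
      (exists_good_card m) (fun σ hσ σ' hσ' e => up_htrans m hσ hσ' (coe_injective (by
        have := congrArg (fun A : Finset ℕ => (A : Set ℕ)) e
        simpa only [coe_image] using this)))
      (Model.locOdd_stab (up_preserves m) (hstab m)) hi (by omega)

/-- **Step A.** The quotient of `X~` by a congruence subgroup has no cohomology below degree `d`. -/
theorem vanishing {s : ℕ} (hs : 2 ≤ s) {p : ℕ} [CharP F p] (hp : p.Prime) (hodd : Odd p)
    {n d : ℕ} [NeZero n] (hq : 2 ^ n ≤ Fintype.card F) (hd : 2 * d ≤ n) (hn : d + 2 ≤ n)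
    (hfin : ∀ m [NeZero m], Finite (Up F m ⧸ GamU F m s))
    (hoddU : ∀ m [NeZero m], Odd (Nat.card (Up F m ⧸ GamU F m s)))
    (hstab : ∀ m [NeZero m], ∀ v : (posModel F m).Vert, {v} ∈ (posModel F m).good →
      LocOdd (MulAction.stabilizer (Up F m) v))
    [DecidableEq (posModel F n).Vert]
    (C : Vale.P067.Link.Cover (posModel F n).Vert (Up F n) n) [DecidableEq C.Orb]
    (hX : C.X = (posModel F n).good) (hΓ : C.Γ = GamU F n s) :
    ∀ i < d, ∀ f : Finset C.Orb → ZMod 2,
      Vale.P067.IsCocycle C.tops i f → Vale.P067.IsCobound C.tops i f := fun i hi =>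
  Vale.P067.Link.vanish_of_cover hq C hX (fun g v => (up_preserves n).ind g v)
    (fun γ hγ v hv h => good_free hs (hΓ ▸ hγ) hv h) (by omega) fun hi1 => by
    rw [hΓ, GamU]
    exact exact_of_mulEquiv (Subgroup.subgroupOfEquivOfLe (gam_le_Up (by omega)))
      (gam_exact_up (by omega) hp hodd n hq hfin hoddU hstab n le_rfl i hi1 (by omega))

end

end Vale.Agent.P067.Top
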