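import Vale.Agent.P067.Top.Stable
import Vale.Agent.P067.Top.Elementary

/-!
# P067 topology: congruence subgroups of `SL` over `F[t]` and their block subgroups
-/

namespace Vale.Agent.P067.Top

open Finset Matrix Polynomial
open scoped Classical

noncomputable section

variable (F : Type) [Field F] (s : ℕ)

/-- The ring `F[t]/t^s`. -/
abbrev Trunc : Type := F[X] ⧸ Ideal.span {(X : F[X]) ^ s}

/-- Reduction modulo `t^s`. -/
abbrev red : F[X] →+* Trunc F s := Ideal.Quotient.mk _

lemma red_surjective : Function.Surjective (red F s) := Ideal.Quotient.mk_surjective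

lemma hasDivNorm_trunc : HasDivNorm (Trunc F s) :=
  (hasDivNorm_polynomial F).of_surjective (red F s) (red_surjective F s)

/-- The congruence subgroup of level `t^s`. -/
def Gam (ι : Type) [Fintype ι] [DecidableEq ι] : Subgroup (SpecialLinearGroup ι F[X]) :=
  (SpecialLinearGroup.map (n := ι) (red F s)).ker

variable {F s}
variable {ι κ : Type} [Fintype ι] [DecidableEq ι] [Fintype κ] [DecidableEq κ]

instance gam_normal : (Gam F s ι).Normal := MonoidHom.normal_ker _

lemma mem_gam {g : SpecialLinearGroup ι F[X]} :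
    g ∈ Gam F s ι ↔ ∀ i j, red F s ((g : Matrix ι ι F[X]) i j) = (1 : Matrix ι ι (Trunc F s)) i j := by
  rw [Gam, MonoidHom.mem_ker]
  constructor
  · intro h i j
    exact congrArg (fun A : SpecialLinearGroup ι (Trunc F s) => (A : Matrix ι ι (Trunc F s)) i j) h
  · intro h
    ext i j
    exact h i j

/-- Renaming the index type. -/
def reindexSL {R : Type} [CommRing R] (e : ι ≃ κ) :
    SpecialLinearGroup ι R ≃* SpecialLinearGroup κ R where
  toFun g := ⟨Matrix.reindex e e (g : Matrix ι ι R), by rw [det_reindex_self]; exact g.2⟩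
  invFun g := ⟨Matrix.reindex e.symm e.symm (g : Matrix κ κ R), by
    rw [det_reindex_self]; exact g.2⟩
  left_inv g := by ext i j; simp
  right_inv g := by ext i j; simp
  map_mul' g h := by
    ext i j
    simp only [SpecialLinearGroup.coe_mul, Matrix.mul_apply, Matrix.reindex_apply,
      Matrix.submatrix_apply]
    exact (e.symm.sum_comp fun l => (g : Matrix ι ι R) (e.symm i) l * (h : Matrix ι ι R) l (e.symm j)).symm

lemma reindexSL_apply {R : Type} [CommRing R] (e : ι ≃ κ) (g : SpecialLinearGroup ι R) (i j : κ) :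
    (reindexSL e g : Matrix κ κ R) i j = (g : Matrix ι ι R) (e.symm i) (e.symm j) := rfl

lemma reindexSL_mem {e : ι ≃ κ} {g : SpecialLinearGroup ι F[X]} :
    reindexSL e g ∈ Gam F s κ ↔ g ∈ Gam F s ι := by
  simp only [mem_gam]
  constructor
  · intro h i j
    have := h (e i) (e j)
    simpa [reindexSL_apply, Matrix.one_apply] using this
  · intro h i j
    have := h (e.symm i) (e.symm j)
    simpa [reindexSL_apply, Matrix.one_apply] using this

/-- Renaming the index type of a congruence subgroup. -/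
def gamCongr (e : ι ≃ κ) : Gam F s ι ≃* Gam F s κ where
  toFun g := ⟨reindexSL e g.1, reindexSL_mem.2 g.2⟩
  invFun g := ⟨(reindexSL e).symm g.1,
    reindexSL_mem.1 (by rw [MulEquiv.apply_symm_apply]; exact g.2)⟩
  left_inv g := Subtype.ext ((reindexSL e).symm_apply_apply g.1)
  right_inv g := Subtype.ext ((reindexSL e).apply_symm_apply g.1)
  map_mul' g h := Subtype.ext ((reindexSL e).map_mul g.1 h.1)

section Block

variable {R : Type} [CommRing R] (P : Finset ι)

/-- Matrices fixing the basis vectors of `P`. -/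
def colStab : Subgroup (SpecialLinearGroup ι R) where
  carrier := {g | ∀ a ∈ P, (g : Matrix ι ι R) *ᵥ Pi.single a 1 = Pi.single a 1}
  one_mem' a _ := one_mulVec _
  mul_mem' {g h} hg hh a ha := by rw [mul_mulVec', hh a ha, hg a ha]
  inv_mem' {g} hg a ha := by
    conv_lhs => arg 2; rw [← hg a ha]
    rw [← mul_mulVec', inv_mul_cancel]
    exact one_mulVec _

/-- Matrices whose transpose fixes the basis vectors of `P`. -/
def rowStab : Subgroup (SpecialLinearGroup ι R) where
  carrier := {g | ∀ a ∈ P, Pi.single a 1 ᵥ* (g : Matrix ι ι R) = Pi.single a 1}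
  one_mem' a _ := vecMul_one _
  mul_mem' {g h} hg hh a ha := by
    show Pi.single a 1 ᵥ* ((g : Matrix ι ι R) * (h : Matrix ι ι R)) = _
    rw [← vecMul_vecMul, hg a ha, hh a ha]
  inv_mem' {g} hg a ha := by
    conv_lhs => arg 1; rw [← hg a ha]
    rw [vecMul_vecMul, show (g : Matrix ι ι R) * ((g⁻¹ : _) : Matrix ι ι R) = 1 from
      congrArg Subtype.val (mul_inv_cancel g), vecMul_one]

lemma colStab_entry {g : SpecialLinearGroup ι R} (h : g ∈ colStab P) {j : ι} (hj : j ∈ P) (i : ι) :
    (g : Matrix ι ι R) i j = (1 : Matrix ι ι R) i j := by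
  have := congrFun (h j hj) i
  simpa [Matrix.one_apply, Pi.single_apply] using this

lemma rowStab_entry {g : SpecialLinearGroup ι R} (h : g ∈ rowStab P) {i : ι} (hi : i ∈ P) (j : ι) :
    (g : Matrix ι ι R) i j = (1 : Matrix ι ι R) i j := by
  have := congrFun (h i hi) j
  simpa [Matrix.one_apply, Pi.single_apply, eq_comm] using this

lemma mem_colStab {g : SpecialLinearGroup ι R}
    (h : ∀ j ∈ P, ∀ i, (g : Matrix ι ι R) i j = (1 : Matrix ι ι R) i j) : g ∈ colStab P := by
  intro a ha
  ext i
  simpa [Matrix.one_apply, Pi.single_apply] using h a ha i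

/-- The block outside `P`. -/
def out (g : Matrix ι ι R) : Matrix {i : ι // i ∉ P} {i : ι // i ∉ P} R :=
  Matrix.of fun i j => g i.1 j.1

omit [Fintype ι] [DecidableEq ι] in
lemma out_apply (g : Matrix ι ι R) (i j : {i : ι // i ∉ P}) : out P g i j = g i.1 j.1 := rfl

lemma out_mul {g h : Matrix ι ι R}
    (hz : ∀ i ∉ P, ∀ l ∈ P, ∀ j ∉ P, g i l * h l j = 0) :
    out P (g * h) = out P g * out P h := by
  ext i j
  simp only [out_apply, Matrix.mul_apply]
  rw [← Finset.sum_subtype (univ.filter fun l => l ∉ P) (by simp)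
    (fun l => g i.1 l * h l j.1)]
  refine (Finset.sum_subset (filter_subset _ _) fun l _ hl => ?_).symm
  exact hz i.1 i.2 l (by simpa using hl) j.1 j.2

lemma det_fix (A : Matrix ι ι R) (hA : ∀ j ∈ P, ∀ i, A i j = (1 : Matrix ι ι R) i j) :
    A.det = (out P A).det := by
  rw [twoBlockTriangular_det A (fun i => i ∈ P) fun i hi j hj => by
    rw [hA j hj, one_apply_ne fun e : i = j => hi (e ▸ hj)]]
  have h1 : A.toSquareBlockProp (fun i => i ∈ P) = 1 := by
    ext i j
    show A i.1 j.1 = (1 : Matrix {a // a ∈ P} {a // a ∈ P} R) i j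
    rw [hA j.1 j.2 i.1]
    by_cases e : i = j
    · rw [e, Matrix.one_apply_eq, Matrix.one_apply_eq]
    · rw [one_apply_ne e, one_apply_ne fun h => e (Subtype.ext h)]
  have h2 : (A.toSquareBlockProp fun i => ¬i ∈ P) = out P A := rfl
  rw [h1, h2]
  convert one_mul _
  convert det_one

lemma det_out {g : SpecialLinearGroup ι R} (h : g ∈ colStab P ∨ g ∈ rowStab P) :
    (out P (g : Matrix ι ι R)).det = 1 := by
  rcases h with h | h
  · rw [← det_fix P _ fun j hj i => colStab_entry P h hj i]
    exact g.2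
  · have e : out P (g : Matrix ι ι R)ᵀ = (out P (g : Matrix ι ι R))ᵀ := rfl
    rw [← det_transpose, ← e, ← det_fix P _ fun j hj i => by
      rw [transpose_apply, rowStab_entry P h hj i, Matrix.one_apply, Matrix.one_apply]
      simp only [eq_comm]]
    rw [det_transpose]
    exact g.2

/-- The projection of a column stabiliser to the outer block. -/
def colOut : colStab (R := R) P →* SpecialLinearGroup {i : ι // i ∉ P} R where
  toFun g := ⟨out P (g.1 : Matrix ι ι R), det_out P (Or.inl g.2)⟩
  map_one' := Subtype.ext (show out P (1 : Matrix ι ι R) = 1 by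
    ext i j; simp [out_apply, Matrix.one_apply, Subtype.ext_iff])
  map_mul' g h := Subtype.ext (show out P ((g.1 : Matrix ι ι R) * (h.1 : Matrix ι ι R)) = _ from
    out_mul P fun i hi l hl j _ => by
      rw [colStab_entry P g.2 hl, one_apply_ne fun e : i = l => hi (e ▸ hl), zero_mul])

/-- The projection of a row stabiliser to the outer block. -/
def rowOut : rowStab (R := R) P →* SpecialLinearGroup {i : ι // i ∉ P} R where
  toFun g := ⟨out P (g.1 : Matrix ι ι R), det_out P (Or.inr g.2)⟩
  map_one' := Subtype.ext (show out P (1 : Matrix ι ι R) = 1 by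
    ext i j; simp [out_apply, Matrix.one_apply, Subtype.ext_iff])
  map_mul' g h := Subtype.ext (show out P ((g.1 : Matrix ι ι R) * (h.1 : Matrix ι ι R)) = _ from
    out_mul P fun i _ l hl j hj => by
      rw [rowStab_entry P h.2 hl, one_apply_ne fun e : l = j => hj (e ▸ hl), mul_zero])

/-- The matrix which is `D` outside `P` and the identity on `P`. -/
def embMat (D : Matrix {i : ι // i ∉ P} {i : ι // i ∉ P} R) : Matrix ι ι R :=
  fun i j => if h : i ∉ P ∧ j ∉ P then D ⟨i, h.1⟩ ⟨j, h.2⟩ else (1 : Matrix ι ι R) i j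

lemma embMat_inner (D : Matrix {i : ι // i ∉ P} {i : ι // i ∉ P} R) {j : ι} (hj : j ∈ P) (i : ι) :
    embMat P D i j = (1 : Matrix ι ι R) i j := dif_neg fun h => h.2 hj

lemma out_embMat (D : Matrix {i : ι // i ∉ P} {i : ι // i ∉ P} R) : out P (embMat P D) = D := by
  ext i j
  simp [out_apply, embMat, i.2, j.2]

lemma det_embMat (D : Matrix {i : ι // i ∉ P} {i : ι // i ∉ P} R) :
    (embMat P D).det = D.det := by
  rw [det_fix P _ fun j hj i => embMat_inner P D hj i, out_embMat]

lemma embMat_mul (D D' : Matrix {i : ι // i ∉ P} {i : ι // i ∉ P} R) :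
    embMat P D * embMat P D' = embMat P (D * D') := by
  ext i j
  by_cases hj : j ∈ P
  · rw [embMat_inner P _ hj, Matrix.mul_apply, sum_eq_single j]
    · rw [embMat_inner P _ hj, embMat_inner P _ hj, Matrix.one_apply_eq, mul_one]
    · intro l _ hl
      rw [embMat_inner P D' hj, one_apply_ne hl, mul_zero]
    · simp
  by_cases hi : i ∈ P
  · have e : ∀ E l, embMat P E i l = (1 : Matrix ι ι R) i l := fun E l => dif_neg fun h => h.1 hi
    rw [e, Matrix.mul_apply, sum_eq_single i]
    · rw [e, e, Matrix.one_apply_eq, one_mul]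
    · intro l _ hl
      rw [e, one_apply_ne (Ne.symm hl), zero_mul]
    · simp
  have h1 : out P (embMat P D * embMat P D') = D * D' := by
    rw [out_mul P fun a ha l hl b _ => by
      rw [embMat_inner P D hl, one_apply_ne fun e : a = l => ha (e ▸ hl), zero_mul],
      out_embMat, out_embMat]
  have h2 := congrFun (congrFun h1 ⟨i, hi⟩) ⟨j, hj⟩
  rw [out_apply] at h2
  rw [h2]
  simp [embMat, hi, hj]

/-- The outer block as a subgroup. -/
def emb : SpecialLinearGroup {i : ι // i ∉ P} R →* SpecialLinearGroup ι R where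
  toFun D := ⟨embMat P D.1, by rw [det_embMat]; exact D.2⟩
  map_one' := Subtype.ext (show embMat P 1 = 1 by
    ext i j
    simp only [embMat]
    split_ifs with h
    · simp [Matrix.one_apply, Subtype.ext_iff]
    · rfl)
  map_mul' D D' := Subtype.ext (embMat_mul P D.1 D'.1).symm

lemma emb_mem_colStab (D : SpecialLinearGroup {i : ι // i ∉ P} R) : emb P D ∈ colStab P :=
  mem_colStab P fun j hj i => embMat_inner P D.1 hj i

lemma emb_mem_rowStab (D : SpecialLinearGroup {i : ι // i ∉ P} R) : emb P D ∈ rowStab P := by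
  intro a ha
  ext j
  show (Pi.single a 1 ᵥ* embMat P D.1) j = _
  simp [embMat, ha, Matrix.one_apply, Pi.single_apply, eq_comm]

lemma colOut_emb (D : SpecialLinearGroup {i : ι // i ∉ P} R) :
    colOut P ⟨emb P D, emb_mem_colStab P D⟩ = D := Subtype.ext (out_embMat P D.1)

lemma rowOut_emb (D : SpecialLinearGroup {i : ι // i ∉ P} R) :
    rowOut P ⟨emb P D, emb_mem_rowStab P D⟩ = D := Subtype.ext (out_embMat P D.1)

end Block

/-- Lifting of elements which fix the basis vectors of `P`. -/
lemma exists_lift_colStab (P : Finset ι) {δ : SpecialLinearGroup ι (Trunc F s)}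
    (hδ : δ ∈ colStab P) :
    ∃ ε ∈ colStab (R := F[X]) P, SpecialLinearGroup.map (red F s) ε = δ := by
  obtain ⟨D, hD⟩ := map_surjective (ι := {i : ι // i ∉ P}) (red F s) (red_surjective F s)
    (hasDivNorm_trunc F s) (colOut P ⟨δ, hδ⟩)
  let L : Matrix ι ι F[X] := fun i j =>
    if h : j ∈ P then (1 : Matrix ι ι F[X]) i j
    else if hi : i ∈ P then (red_surjective F s ((δ : Matrix ι ι (Trunc F s)) i j)).choose
    else D.1 ⟨i, hi⟩ ⟨j, h⟩
  have hL : ∀ j ∈ P, ∀ i, L i j = (1 : Matrix ι ι F[X]) i j := fun j hj i => by simp [L, hj]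
  have hdet : L.det = 1 := by
    rw [det_fix P L hL]
    have h2 : out P L = D.1 := by
      refine Matrix.ext fun i j => ?_
      show L i.1 j.1 = _
      simp only [L, dif_neg i.2, dif_neg j.2]
    rw [h2]
    exact D.2
  refine ⟨⟨L, hdet⟩, mem_colStab P hL, ?_⟩
  ext i j
  show red F s (L i j) = _
  by_cases hj : j ∈ P
  · rw [hL j hj, colStab_entry P hδ hj, Matrix.one_apply, Matrix.one_apply, apply_ite (red F s),
      map_one, map_zero]
  · by_cases hi : i ∈ P
    · simp only [L, dif_neg hj, dif_pos hi]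
      exact (red_surjective F s _).choose_spec
    · simp only [L, dif_neg hj, dif_neg hi]
      have h := congrArg Subtype.val hD
      exact congrFun (congrFun h ⟨i, hi⟩) ⟨j, hj⟩

section Gam

variable (P : Finset ι)

/-- Column stabilisers inside the congruence subgroup. -/
def gamCol : Subgroup (Gam F s ι) := (colStab P).subgroupOf (Gam F s ι)

/-- Row stabilisers inside the congruence subgroup. -/
def gamRow : Subgroup (Gam F s ι) := (rowStab P).subgroupOf (Gam F s ι)

lemma out_mem_gam {g : SpecialLinearGroup ι F[X]} (hg : g ∈ Gam F s ι)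
    (D : SpecialLinearGroup {i : ι // i ∉ P} F[X])
    (hD : (D : Matrix {i : ι // i ∉ P} {i : ι // i ∉ P} F[X]) = out P (g : Matrix ι ι F[X])) :
    D ∈ Gam F s {i : ι // i ∉ P} := by
  rw [mem_gam] at *
  intro i j
  rw [hD, out_apply, hg]
  simp [Matrix.one_apply, Subtype.ext_iff]

/-- A column stabiliser of the congruence subgroup as a column stabiliser. -/
def colIncl : gamCol (F := F) (s := s) P →* colStab (R := F[X]) P :=
  ((Gam F s ι).subtype.comp (gamCol P).subtype).codRestrict _ fun g => g.2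

/-- A row stabiliser of the congruence subgroup as a row stabiliser. -/
def rowIncl : gamRow (F := F) (s := s) P →* rowStab (R := F[X]) P :=
  ((Gam F s ι).subtype.comp (gamRow P).subtype).codRestrict _ fun g => g.2

/-- The projection of the column stabiliser. -/
def gamColOut : gamCol (F := F) (s := s) P →* Gam F s {i : ι // i ∉ P} :=
  ((colOut P).comp (colIncl P)).codRestrict _ fun g => out_mem_gam P (g := g.1.1) g.1.2 _ rfl

/-- The projection of the row stabiliser. -/
def gamRowOut : gamRow (F := F) (s := s) P →* Gam F s {i : ι // i ∉ P} :=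
  ((rowOut P).comp (rowIncl P)).codRestrict _ fun g => out_mem_gam P (g := g.1.1) g.1.2 _ rfl

lemma emb_mem_gam {D : SpecialLinearGroup {i : ι // i ∉ P} F[X]}
    (hD : D ∈ Gam F s {i : ι // i ∉ P}) : emb P D ∈ Gam F s ι := by
  rw [mem_gam] at *
  intro i j
  show red F s (embMat P D.1 i j) = _
  rw [embMat]
  split_ifs with h
  · rw [hD]
    simp [Matrix.one_apply, Subtype.ext_iff]
  · simp [Matrix.one_apply, apply_ite (red F s)]

/-- The smaller congruence subgroup inside the larger one. -/
def gamEmb : Gam F s {i : ι // i ∉ P} →* Gam F s ι where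
  toFun D := ⟨emb P D.1, emb_mem_gam P D.2⟩
  map_one' := Subtype.ext (map_one (emb P))
  map_mul' D D' := Subtype.ext (map_mul (emb P) D.1 D'.1)

/-- The smaller congruence subgroup in the column stabiliser. -/
def gamColEmb : Gam F s {i : ι // i ∉ P} →* gamCol (F := F) (s := s) P where
  toFun D := ⟨gamEmb P D, emb_mem_colStab P D.1⟩
  map_one' := Subtype.ext (map_one (gamEmb P))
  map_mul' D D' := Subtype.ext (map_mul (gamEmb P) D D')

lemma gamColOut_emb : (gamColOut (F := F) (s := s) P).comp (gamColEmb P) = MonoidHom.id _ :=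
  MonoidHom.ext fun D => Subtype.ext (colOut_emb P D.1)

/-- Commutative of exponent `p`: matrices `1 + N` with `N` in one corner block. -/
lemma locOdd_of_corner {S : Type} [Group S] (val : S →* SpecialLinearGroup ι F[X])
    (hval : Function.Injective val)
    (hsq : ∀ a b : S, ((val a : Matrix ι ι F[X]) - 1) * ((val b : Matrix ι ι F[X]) - 1) = 0)
    {p : ℕ} [CharP F p] (hp : p.Prime) (hodd : Odd p) : LocOdd S := by
  have hmul : ∀ a b : S, ((val (a * b) : SpecialLinearGroup ι F[X]) : Matrix ι ι F[X]) =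
      (val a : Matrix ι ι F[X]) + (val b : Matrix ι ι F[X]) - 1 := by
    intro a b
    have h := hsq a b
    rw [sub_mul, mul_sub, mul_one, one_mul] at h
    rw [map_mul]
    change (val a : Matrix ι ι F[X]) * (val b : Matrix ι ι F[X]) = _
    rw [← sub_eq_zero]
    rw [← h]
    abel
  have hpow : ∀ (a : S) (k : ℕ), ((val (a ^ k) : SpecialLinearGroup ι F[X]) : Matrix ι ι F[X]) =
      1 + (k : F[X]) • ((val a : Matrix ι ι F[X]) - 1) := by
    intro a k
    induction k with
    | zero => simp
    | succ k ih =>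
      rw [pow_succ, hmul, ih, Nat.cast_succ, add_smul, one_smul]
      abel
  refine locOdd_of_comm (fun a b => hval (Subtype.ext ?_)) hp hodd fun a => hval (Subtype.ext ?_)
  · rw [hmul, hmul, add_comm]
  · rw [hpow, CharP.cast_eq_zero, zero_smul, add_zero, map_one]
    rfl

lemma locOdd_colOut {p : ℕ} [CharP F p] (hp : p.Prime) (hodd : Odd p) :
    LocOdd (gamColOut (F := F) (s := s) P).ker := by
  refine locOdd_of_corner (((Gam F s ι).subtype.comp (gamCol P).subtype).comp
    (gamColOut P).ker.subtype) (fun a b h => Subtype.ext (Subtype.ext (Subtype.ext h))) ?_ hp hodd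
  intro a b
  refine Matrix.ext fun i j => ?_
  rw [Matrix.mul_apply, Matrix.zero_apply]
  refine sum_eq_zero fun l _ => ?_
  have key : ∀ (a : (gamColOut (F := F) (s := s) P).ker) (x y : ι), x ∉ P ∨ y ∈ P →
      ((a.1.1.1 : SpecialLinearGroup ι F[X]) : Matrix ι ι F[X]) x y = (1 : Matrix ι ι F[X]) x y := by
    intro a x y hxy
    by_cases hy : y ∈ P
    · exact colStab_entry P a.1.2 hy x
    · have hx := hxy.resolve_right hy
      have h0 : gamColOut P a.1 = 1 := a.2
      have h := congrArg (fun D : Gam F s {i : ι // i ∉ P} =>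
        (D.1 : Matrix {i : ι // i ∉ P} {i : ι // i ∉ P} F[X]) ⟨x, hx⟩ ⟨y, hy⟩) h0
      exact h.trans (by simp [Matrix.one_apply])
  show (((a.1.1.1 : SpecialLinearGroup ι F[X]) : Matrix ι ι F[X]) i l - (1 : Matrix ι ι F[X]) i l) *
    (((b.1.1.1 : SpecialLinearGroup ι F[X]) : Matrix ι ι F[X]) l j - (1 : Matrix ι ι F[X]) l j) = 0
  by_cases hl : l ∈ P
  · rw [key a i l (Or.inr hl), sub_self, zero_mul]
  · rw [key b l j (Or.inl hl), sub_self, mul_zero]

lemma locOdd_rowOut {p : ℕ} [CharP F p] (hp : p.Prime) (hodd : Odd p) :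
    LocOdd (gamRowOut (F := F) (s := s) P).ker := by
  refine locOdd_of_corner (((Gam F s ι).subtype.comp (gamRow P).subtype).comp
    (gamRowOut P).ker.subtype) (fun a b h => Subtype.ext (Subtype.ext (Subtype.ext h))) ?_ hp hodd
  intro a b
  refine Matrix.ext fun i j => ?_
  rw [Matrix.mul_apply, Matrix.zero_apply]
  refine sum_eq_zero fun l _ => ?_
  have key : ∀ (a : (gamRowOut (F := F) (s := s) P).ker) (x y : ι), y ∉ P ∨ x ∈ P →
      ((a.1.1.1 : SpecialLinearGroup ι F[X]) : Matrix ι ι F[X]) x y = (1 : Matrix ι ι F[X]) x y := by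
    intro a x y hxy
    by_cases hx : x ∈ P
    · exact rowStab_entry P a.1.2 hx y
    · have hy := hxy.resolve_right hx
      have h0 : gamRowOut P a.1 = 1 := a.2
      have h := congrArg (fun D : Gam F s {i : ι // i ∉ P} =>
        (D.1 : Matrix {i : ι // i ∉ P} {i : ι // i ∉ P} F[X]) ⟨x, hx⟩ ⟨y, hy⟩) h0
      exact h.trans (by simp [Matrix.one_apply])
  show (((a.1.1.1 : SpecialLinearGroup ι F[X]) : Matrix ι ι F[X]) i l - (1 : Matrix ι ι F[X]) i l) *
    (((b.1.1.1 : SpecialLinearGroup ι F[X]) : Matrix ι ι F[X]) l j - (1 : Matrix ι ι F[X]) l j) = 0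
  by_cases hl : l ∈ P
  · rw [key b l j (Or.inr hl), sub_self, mul_zero]
  · rw [key a i l (Or.inl hl), sub_self, zero_mul]

end Gam

/-- Conjugation by a transvection at `j` moves the outer block inside a stabiliser of the same
block. -/
theorem sameHom_conj (j : ι) (l : ι) (hlj : l ≠ j) (c : F[X]) {p : ℕ} [CharP F p] (hp : p.Prime)
    (hodd : Odd p) (g : SpecialLinearGroup ι F[X]) (hg : g = tv l j hlj c ∨ g = tv j l (Ne.symm hlj) c) :
    SameHom (gamEmb (F := F) (s := s) {j})
      ((MulAut.conjNormal g).toMonoidHom.comp (gamEmb {j})) := by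
  rcases hg with rfl | rfl
  · -- `g` fixes row `j`
    have hrow : ∀ d : F[X], tv l j hlj d ∈ rowStab (R := F[X]) {j} := by
      intro d a ha
      rw [mem_singleton] at ha
      subst ha
      funext m
      show (Pi.single a 1 ᵥ* transvection l a d) m = _
      simp [transvection, Pi.single_apply, Matrix.add_apply, Matrix.one_apply, hlj,
        eq_comm]
    have hone : rowOut {j} ⟨tv l j hlj c, hrow c⟩ = 1 := by
      refine Subtype.ext (Matrix.ext fun x y => ?_)
      have hy : j ≠ y.1 := fun e => y.2 (mem_singleton.2 e.symm)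
      show transvection l j c x.1 y.1 = (1 : Matrix {i : ι // i ∉ ({j} : Finset ι)} {i : ι // i ∉ ({j} : Finset ι)} F[X]) x y
      simp [transvection, Matrix.one_apply, Matrix.single_apply, hy, Subtype.ext_iff]
    let φ : Gam F s {i : ι // i ∉ ({j} : Finset ι)} →* gamRow (F := F) (s := s) {j} :=
      (gamEmb {j}).codRestrict _ fun D => emb_mem_rowStab _ D.1
    let ψ : Gam F s {i : ι // i ∉ ({j} : Finset ι)} →* gamRow (F := F) (s := s) {j} :=
      ((MulAut.conjNormal (tv l j hlj c)).toMonoidHom.comp (gamEmb {j})).codRestrict _ fun D => by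
        show tv l j hlj c * emb {j} D.1 * (tv l j hlj c)⁻¹ ∈ rowStab {j}
        exact mul_mem (mul_mem (hrow c) (emb_mem_rowStab _ D.1)) (inv_mem (hrow c))
    refine ⟨gamRow (F := F) (s := s) {j}, inferInstance, (gamRow {j}).subtype, _, inferInstance,
      gamRowOut {j}, φ, ψ, locOdd_rowOut {j} hp hodd, ?_, rfl, rfl⟩
    refine MonoidHom.ext fun D => Subtype.ext ?_
    show rowOut {j} ⟨emb {j} D.1, emb_mem_rowStab _ _⟩ =
      rowOut {j} (⟨tv l j hlj c, hrow c⟩ * ⟨emb {j} D.1, emb_mem_rowStab _ _⟩ *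
        ⟨tv l j hlj c, hrow c⟩⁻¹)
    rw [map_mul, map_mul, map_inv, hone, one_mul, inv_one, mul_one]
  · -- `g` fixes column `j`
    have hcol : tv j l (Ne.symm hlj) c ∈ colStab (R := F[X]) {j} := by
      intro a ha
      rw [mem_singleton] at ha
      subst ha
      rw [tv_mulVec, Pi.single_eq_of_ne hlj, mul_zero, add_zero, Function.update_eq_self]
    have hone : colOut {j} ⟨tv j l (Ne.symm hlj) c, hcol⟩ = 1 := by
      refine Subtype.ext (Matrix.ext fun x y => ?_)
      have hx : j ≠ x.1 := fun e => x.2 (mem_singleton.2 e.symm)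
      show transvection j l c x.1 y.1 = (1 : Matrix {i : ι // i ∉ ({j} : Finset ι)} {i : ι // i ∉ ({j} : Finset ι)} F[X]) x y
      simp [transvection, Matrix.one_apply, Matrix.single_apply, hx, Subtype.ext_iff]
    let φ : Gam F s {i : ι // i ∉ ({j} : Finset ι)} →* gamCol (F := F) (s := s) {j} := gamColEmb {j}
    let ψ : Gam F s {i : ι // i ∉ ({j} : Finset ι)} →* gamCol (F := F) (s := s) {j} :=
      ((MulAut.conjNormal (tv j l (Ne.symm hlj) c)).toMonoidHom.comp (gamEmb {j})).codRestrict _
        fun D => by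
          show tv j l (Ne.symm hlj) c * emb {j} D.1 * (tv j l (Ne.symm hlj) c)⁻¹ ∈ colStab {j}
          exact mul_mem (mul_mem hcol (emb_mem_colStab _ D.1)) (inv_mem hcol)
    refine ⟨gamCol (F := F) (s := s) {j}, inferInstance, (gamCol {j}).subtype, _, inferInstance,
      gamColOut {j}, φ, ψ, locOdd_colOut {j} hp hodd, ?_, rfl, rfl⟩
    refine MonoidHom.ext fun D => Subtype.ext ?_
    show colOut {j} ⟨emb {j} D.1, emb_mem_colStab _ _⟩ =
      colOut {j} (⟨tv j l (Ne.symm hlj) c, hcol⟩ * ⟨emb {j} D.1, emb_mem_colStab _ _⟩ *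
        ⟨tv j l (Ne.symm hlj) c, hcol⟩⁻¹)
    rw [map_mul, map_mul, map_inv, hone, one_mul, inv_one, mul_one]

omit [Fintype κ] [DecidableEq κ] in
/-- Transvections through `j` generate. -/
theorem closure_tv_through {R : Type} [CommRing R] (hR : HasDivNorm R) (j : ι)
    :
    Subgroup.closure {g : SpecialLinearGroup ι R | ∃ (l : ι) (h : l ≠ j) (c : R),
      g = tv l j h c ∨ g = tv j l (Ne.symm h) c} = ⊤ := by
  rw [eq_top_iff, ← el_eq_top hR, El, Subgroup.closure_le]
  rintro g ⟨a, b, hab, c, rfl⟩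
  by_cases hbj : b = j
  · subst hbj
    exact Subgroup.subset_closure ⟨a, hab, c, Or.inl rfl⟩
  by_cases haj : a = j
  · subst haj
    exact Subgroup.subset_closure ⟨b, hbj, c, Or.inr rfl⟩
  have e : tv a b hab c = tv a j haj c * tv j b (Ne.symm hbj) 1 * tv a j haj (-c) *
      tv j b (Ne.symm hbj) (-1) := by
    apply Subtype.ext
    refine Matrix.ext_of_mulVec_single fun m => ?_
    generalize (Pi.single m 1 : ι → R) = v
    show (tv a b hab c : Matrix ι ι R) *ᵥ v = _
    ext x
    simp only [mul_mulVec', tv_mulVec, Function.update_apply]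
    by_cases h1 : x = a
    · subst h1
      simp [hab, hab.symm, haj, Ne.symm haj, hbj, Ne.symm hbj]
      ring
    · by_cases h2 : x = j
      · subst h2
        simp [h1, hab, hab.symm, haj, Ne.symm haj, hbj, Ne.symm hbj]
      · simp [h1, h2]
  rw [e]
  have mem : ∀ g, (∃ (l : ι) (h : l ≠ j) (c : R), g = tv l j h c ∨ g = tv j l (Ne.symm h) c) →
      g ∈ Subgroup.closure {g : SpecialLinearGroup ι R | ∃ (l : ι) (h : l ≠ j) (c : R),
        g = tv l j h c ∨ g = tv j l (Ne.symm h) c} := fun g h => Subgroup.subset_closure h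
  exact mul_mem (mul_mem (mul_mem (mem _ ⟨a, haj, c, Or.inl rfl⟩) (mem _ ⟨b, hbj, 1, Or.inr rfl⟩))
    (mem _ ⟨a, haj, -c, Or.inl rfl⟩)) (mem _ ⟨b, hbj, -1, Or.inr rfl⟩)

end

end Vale.Agent.P067.Top
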