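import Vale.Agent.P067.Top.Building
import Vale.Agent.P067.Top.Congruence

/-!
# P067 topology: the unipotent group and its congruence subgroups acting on lattices
-/

namespace Vale.Agent.P067.Top.Lat

open Finset Polynomial Matrix
open scoped Classical

variable {F : Type} [Field F] {n : ℕ} [NeZero n]

/-- Multiplication by `t`. -/
noncomputable abbrev Tn (F : Type) [Field F] (n : ℕ) : Module.End F (K F) :=
  (sh F (n : ℤ)).toLinearMap

/-- The residue of an index. -/
def rsd (x : ℤ) : Fin n :=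
  ⟨(x % n).toNat, by
    have := NeZero.ne n
    have := Int.emod_lt_of_pos x (show (0 : ℤ) < n by omega)
    omega⟩

lemma rsd_decomp (x : ℤ) : (n : ℤ) * (x / n) + ((rsd (n := n) x : Fin n) : ℕ) = x := by
  have := NeZero.ne n
  have h1 := Int.emod_nonneg x (show (n : ℤ) ≠ 0 by omega)
  have h2 := Int.emod_add_ediv_mul x n
  have h3 : (((rsd (n := n) x : Fin n) : ℕ) : ℤ) = x % n := Int.toNat_of_nonneg h1
  rw [h3]; linarith [mul_comm (n : ℤ) (x / n)]

lemma rsd_eq (m : ℤ) (i : Fin n) :
    rsd (n := n) ((n : ℤ) * m + (i : ℕ)) = i ∧ ((n : ℤ) * m + (i : ℕ)) / n = m := by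
  have := NeZero.ne n
  have hi : ((i : ℕ) : ℤ) < n := by exact_mod_cast i.2
  have h0 : (0 : ℤ) ≤ (i : ℕ) := Int.natCast_nonneg _
  constructor
  · refine Fin.ext ?_
    show (((n : ℤ) * m + (i : ℕ)) % n).toNat = i
    rw [Int.mul_add_emod_self_left, Int.emod_eq_of_lt h0 hi, Int.toNat_natCast]
  · rw [Int.mul_add_ediv_left _ _ (show (n : ℤ) ≠ 0 by omega), Int.ediv_eq_zero_of_lt h0 hi,
      add_zero]

lemma sh_single (m y : ℤ) (c : F) : sh F m (Finsupp.single y c) = Finsupp.single (y + m) c := by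
  simp [sh, Finsupp.domLCongr_single]

lemma Tn_pow_single (e : ℕ) (y : ℤ) :
    (Tn F n ^ e) (Finsupp.single y 1) = Finsupp.single (y + n * e) 1 := by
  induction e with
  | zero => simp
  | succ e ih =>
    rw [pow_succ', Module.End.mul_apply, ih, LinearEquiv.coe_coe, sh_single]
    congr 1
    push_cast
    ring

lemma aeval_single (p : F[X]) (y : ℤ) :
    Polynomial.aeval (Tn F n) p (Finsupp.single y 1)
      = ∑ e ∈ range (p.natDegree + 1), Finsupp.single (y + n * e) (p.coeff e) := by
  rw [Polynomial.aeval_eq_sum_range, LinearMap.sum_apply]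
  refine sum_congr rfl fun e _ => ?_
  rw [LinearMap.smul_apply, Tn_pow_single, Finsupp.smul_single, smul_eq_mul, mul_one]

/-- The coefficient of `t^e b_y` in `p(t) b_y`. -/
lemma aeval_single_apply (p : F[X]) (y : ℤ) (e : ℕ) :
    Polynomial.aeval (Tn F n) p (Finsupp.single y 1) (y + n * e) = p.coeff e := by
  have := NeZero.ne n
  rw [aeval_single, Finsupp.finset_sum_apply, sum_eq_single e]
  · simp
  · intro d _ hd
    rw [Finsupp.single_apply, if_neg]
    intro h
    exact hd (by
      have h' : (n : ℤ) * d = n * e := by linarith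
      exact_mod_cast mul_left_cancel₀ (show (n : ℤ) ≠ 0 by omega) h')
  · intro he
    rw [mem_range] at he
    simp [Polynomial.coeff_eq_zero_of_natDegree_lt (show p.natDegree < e by omega)]

/-- `p(t) b_y` lives at positions `y + n e`. -/
lemma aeval_single_ne {p : F[X]} {y z : ℤ}
    (h : Polynomial.aeval (Tn F n) p (Finsupp.single y 1) z ≠ 0) :
    ∃ e : ℕ, z = y + n * e ∧ p.coeff e ≠ 0 := by
  rw [aeval_single, Finsupp.finset_sum_apply] at h
  obtain ⟨e, -, he⟩ := exists_ne_zero_of_sum_ne_zero h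
  rw [Finsupp.single_apply] at he
  split_ifs at he with hh
  · exact ⟨e, hh.symm, he⟩
  · exact absurd rfl he

/-- The image of a basis vector. -/
noncomputable def actB (g : Matrix (Fin n) (Fin n) F[X]) (x : ℤ) : K F :=
  ∑ k : Fin n, Polynomial.aeval (Tn F n) (g k (rsd x))
    (Finsupp.single ((n : ℤ) * (x / n) + (k : ℕ)) 1)

/-- A matrix over `F[t]` acting on `F[t,1/t]^n`. -/
noncomputable def act (g : Matrix (Fin n) (Fin n) F[X]) : Module.End F (K F) :=
  Finsupp.linearCombination F (actB g)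

lemma act_single (g : Matrix (Fin n) (Fin n) F[X]) (x : ℤ) :
    act g (Finsupp.single x 1) = actB g x := by
  simp [act]

lemma end_ext {φ ψ : Module.End F (K F)}
    (h : ∀ x, φ (Finsupp.single x 1) = ψ (Finsupp.single x 1)) : φ = ψ := by
  refine Finsupp.lhom_ext fun x c => ?_
  rw [show Finsupp.single x c = c • Finsupp.single x (1 : F) by simp, map_smul, map_smul, h x]

lemma act_one : act (1 : Matrix (Fin n) (Fin n) F[X]) = 1 := by
  refine end_ext fun x => ?_
  rw [act_single, actB, sum_eq_single (rsd x)]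
  · simp [rsd_decomp]
  · intro k _ hk; simp [Matrix.one_apply_ne hk]
  · simp

lemma act_sub (g h : Matrix (Fin n) (Fin n) F[X]) : act (g - h) = act g - act h := by
  refine end_ext fun x => ?_
  simp only [LinearMap.sub_apply, act_single, actB, Matrix.sub_apply, map_sub, sum_sub_distrib]

lemma act_sh_single (g : Matrix (Fin n) (Fin n) F[X]) (x : ℤ) :
    act g (sh F (n : ℤ) (Finsupp.single x 1)) = sh F (n : ℤ) (act g (Finsupp.single x 1)) := by
  rw [sh_single, act_single, act_single, actB, actB, map_sum]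
  have e1 : x + (n : ℤ) = n * (x / n + 1) + ((rsd (n := n) x : Fin n) : ℕ) := by
    linarith [rsd_decomp (n := n) x]
  obtain ⟨h1, h2⟩ := rsd_eq (x / n + 1) (rsd (n := n) x)
  rw [← e1] at h1 h2
  refine sum_congr rfl fun k _ => ?_
  rw [h1, h2]
  have hc : Commute (Polynomial.aeval (Tn F n) (g k (rsd x))) (Tn F n) := by
    have := (Polynomial.commute_X (g k (rsd x))).map (Polynomial.aeval (Tn F n))
    rw [Polynomial.aeval_X] at this
    exact this.symm
  have := LinearMap.congr_fun hc.eq (Finsupp.single ((n : ℤ) * (x / n) + (k : ℕ)) 1)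
  simp only [Module.End.mul_apply, LinearEquiv.coe_coe, sh_single] at this
  rw [← this]
  congr 2
  ring

lemma act_comm_T (g : Matrix (Fin n) (Fin n) F[X]) : Commute (act g) (Tn F n) :=
  end_ext fun x => act_sh_single g x

lemma act_comm_aeval (g : Matrix (Fin n) (Fin n) F[X]) (p : F[X]) (v : K F) :
    act g (Polynomial.aeval (Tn F n) p v) = Polynomial.aeval (Tn F n) p (act g v) := by
  have h : Commute (act g) (Polynomial.aeval (Tn F n) p) := by
    induction p using Polynomial.induction_on' with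
    | add p q hp hq => rw [map_add]; exact hp.add_right hq
    | monomial e c =>
      rw [Polynomial.aeval_monomial]
      exact (Algebra.commute_algebraMap_right c _).mul_right ((act_comm_T g).pow_right e)
  exact LinearMap.congr_fun h.eq v

lemma act_mul (g h : Matrix (Fin n) (Fin n) F[X]) : act (g * h) = act g * act h := by
  refine end_ext fun x => ?_
  rw [Module.End.mul_apply, act_single, act_single, actB, actB, map_sum]
  simp only [act_comm_aeval, act_single, actB, fun (m : ℤ) (j : Fin n) => (rsd_eq m j).1,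
    fun (m : ℤ) (j : Fin n) => (rsd_eq m j).2, map_sum]
  rw [sum_comm]
  refine sum_congr rfl fun k _ => ?_
  rw [Matrix.mul_apply, map_sum, LinearMap.sum_apply]
  refine sum_congr rfl fun j _ => ?_
  rw [mul_comm, map_mul, Module.End.mul_apply]

/-- The action as a monoid homomorphism. -/
noncomputable def actHom : Matrix (Fin n) (Fin n) F[X] →* Module.End F (K F) where
  toFun := act
  map_one' := act_one
  map_mul' := act_mul

lemma act_sh (g : Matrix (Fin n) (Fin n) F[X]) (m : ℤ) (v : K F) :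
    act g (sh F (m * n) v) = sh F (m * n) (act g v) := by
  have key : ∀ (k : ℕ) (v : K F), act g (sh F (k * n) v) = sh F (k * n) (act g v) := by
    intro k
    induction k with
    | zero => intro v; simp [sh_zero]
    | succ k ih =>
      intro v
      have e : ∀ w : K F, sh F (((k + 1 : ℕ) : ℤ) * n) w = Tn F n (sh F ((k : ℤ) * n) w) := by
        intro w
        rw [LinearEquiv.coe_coe, sh_sh]
        congr 2
        push_cast; ring
      rw [e, e, ← ih]
      exact LinearMap.congr_fun (act_comm_T g).eq _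
  rcases Int.eq_nat_or_neg m with ⟨k, rfl | rfl⟩
  · exact key k v
  · have := key k (sh F (-(k : ℤ) * n) v)
    rw [sh_sh, show (k : ℤ) * n + -(k : ℤ) * n = 0 by ring, sh_zero] at this
    rw [this, sh_sh, show -(k : ℤ) * n + (k : ℤ) * n = 0 by ring, sh_zero]

/-- A coordinate of an image of a basis vector. -/
lemma act_coord (g : Matrix (Fin n) (Fin n) F[X]) (m : ℤ) (k i : Fin n) (e : ℕ) :
    act g (Finsupp.single ((n : ℤ) * m + (i : ℕ)) 1) ((n : ℤ) * m + (k : ℕ) + n * e)
      = (g k i).coeff e := by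
  rw [act_single, actB, (rsd_eq m i).1, (rsd_eq m i).2, Finsupp.finset_sum_apply, sum_eq_single k]
  · exact aeval_single_apply _ _ _
  · intro j _ hj
    by_contra h
    obtain ⟨d, hd, -⟩ := aeval_single_ne h
    refine hj (Fin.ext ?_)
    have h1 : (((n : ℤ) * (m + d) + (j : ℕ)) % n) = (j : ℕ) := by
      rw [Int.mul_add_emod_self_left, Int.emod_eq_of_lt (by omega) (by exact_mod_cast j.2)]
    have h2 : (((n : ℤ) * (m + e) + (k : ℕ)) % n) = (k : ℕ) := by
      rw [Int.mul_add_emod_self_left, Int.emod_eq_of_lt (by omega) (by exact_mod_cast k.2)]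
    have h3 : (n : ℤ) * (m + d) + (j : ℕ) = n * (m + e) + (k : ℕ) := by linarith
    rw [h3, h2] at h1
    exact_mod_cast h1.symm
  · simp

/-- Where an image of a basis vector is supported. -/
lemma act_coord_ne {g : Matrix (Fin n) (Fin n) F[X]} {x z : ℤ}
    (h : act g (Finsupp.single x 1) z ≠ 0) :
    ∃ (k : Fin n) (e : ℕ), z = n * (x / n) + (k : ℕ) + n * e ∧ (g k (rsd x)).coeff e ≠ 0 := by
  rw [act_single, actB, Finsupp.finset_sum_apply] at h
  obtain ⟨k, -, hk⟩ := exists_ne_zero_of_sum_ne_zero h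
  obtain ⟨e, he, hc⟩ := aeval_single_ne hk
  exact ⟨k, e, he, hc⟩

theorem act_injective : Function.Injective (act : Matrix (Fin n) (Fin n) F[X] → _) := by
  intro g h e
  ext k i d
  rw [← act_coord g 0 k i d, ← act_coord h 0 k i d, e]

lemma act_expand (g : Matrix (Fin n) (Fin n) F[X]) (v : K F) :
    act g v = ∑ x ∈ v.support, v x • act g (Finsupp.single x 1) := by
  conv_lhs => rw [← Finsupp.sum_single v]
  rw [Finsupp.sum, map_sum]
  refine sum_congr rfl fun x _ => ?_
  rw [show Finsupp.single x (v x) = v x • Finsupp.single x (1 : F) by simp, map_smul]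

/-- The image moves supports up by a bounded amount only. -/
lemma exists_bound (g : Matrix (Fin n) (Fin n) F[X]) :
    ∃ D : ℕ, ∀ (a : ℤ) (v : K F), v ∈ N F a → act g v ∈ N F (a + D) := by
  refine ⟨n * (2 + ∑ p : Fin n × Fin n, (g p.1 p.2).natDegree), fun a v hv => ?_⟩
  rw [act_expand]
  refine Submodule.sum_mem _ fun x hx => Submodule.smul_mem _ _ (mem_N.2 fun z hz => ?_)
  have hxa : x < a := by
    by_contra hh
    exact Finsupp.mem_support_iff.1 hx (mem_N.1 hv x (by omega))
  by_contra hne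
  obtain ⟨k, e, rfl, hc⟩ := act_coord_ne hne
  have he : e ≤ ∑ p : Fin n × Fin n, (g p.1 p.2).natDegree :=
    (Polynomial.le_natDegree_of_ne_zero hc).trans
      (single_le_sum (f := fun p : Fin n × Fin n => (g p.1 p.2).natDegree)
        (fun _ _ => Nat.zero_le _) (mem_univ (k, rsd x)))
  have h1 := rsd_decomp (n := n) x
  have h3 : ((k : ℕ) : ℤ) < n := by exact_mod_cast k.2
  set S := ∑ p : Fin n × Fin n, (g p.1 p.2).natDegree
  push_cast at hz
  have h4 : (n : ℤ) * e ≤ n * S := mul_le_mul_of_nonneg_left (by exact_mod_cast he) (by positivity)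
  linarith [Int.natCast_nonneg ((rsd (n := n) x : Fin n) : ℕ), Int.natCast_nonneg n]

/-- Lowest coefficients are preserved. -/
def Low (g : Matrix (Fin n) (Fin n) F[X]) : Prop :=
  ∀ x (v : K F), v ∈ M F x → act g v ∈ M F x ∧ act g v x = v x

theorem low_of_coeff {g : Matrix (Fin n) (Fin n) F[X]}
    (h : ∀ k i : Fin n, k ≤ i → (g k i).coeff 0 = if k = i then 1 else 0) : Low g := by
  have hb : ∀ y z : ℤ, z ≤ y → act g (Finsupp.single y 1) z = if z = y then 1 else 0 := by
    intro y z hzy
    by_cases hzy' : z = y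
    · subst hzy'
      rw [if_pos rfl]
      conv_lhs => arg 1; rw [← rsd_decomp (n := n) z]
      have e := act_coord g (z / n) (rsd (n := n) z) (rsd z) 0
      rw [h _ _ le_rfl, if_pos rfl, Nat.cast_zero, mul_zero, add_zero, rsd_decomp] at e
      rw [rsd_decomp]
      exact e
    · rw [if_neg hzy']
      by_contra hne
      obtain ⟨k, e, rfl, hc⟩ := act_coord_ne hne
      have h1 := rsd_decomp (n := n) y
      have hi : (((rsd (n := n) y : Fin n) : ℕ) : ℤ) < n := by exact_mod_cast (rsd (n := n) y).2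
      have he : e = 0 := by
        by_contra he
        have : (n : ℤ) * 1 ≤ n * e := mul_le_mul_of_nonneg_left (by omega) (by positivity)
        omega
      subst he
      have hk : k ≤ rsd (n := n) y := Fin.le_def.2 (by simp at hzy; omega)
      rw [h k _ hk, ite_ne_right_iff] at hc
      exact hzy' (by rw [hc.1]; simp [h1])
  intro x v hv
  have hsum : ∀ z, z ≤ x → act g v z = if z = x then v x else 0 := by
    intro z hz
    rw [act_expand, Finsupp.finset_sum_apply]
    simp only [Finsupp.smul_apply, smul_eq_mul]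
    by_cases hzx : z = x
    · subst hzx
      rw [if_pos rfl, sum_eq_single z]
      · rw [hb z z le_rfl, if_pos rfl, mul_one]
      · intro y hy hne
        have : z ≤ y := by
          by_contra hh
          exact Finsupp.mem_support_iff.1 hy (mem_M.1 hv y (by omega))
        rw [hb y z this, if_neg (Ne.symm hne), mul_zero]
      · intro hy; rw [Finsupp.notMem_support_iff.1 hy, zero_mul]
    · rw [if_neg hzx]
      refine sum_eq_zero fun y hy => ?_
      have : x ≤ y := by
        by_contra hh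
        exact Finsupp.mem_support_iff.1 hy (mem_M.1 hv y (by omega))
      rw [hb y z (by omega), if_neg (by omega), mul_zero]
  exact ⟨mem_M.2 fun z hz => by rw [hsum z hz.le, if_neg hz.ne], by rw [hsum x le_rfl, if_pos rfl]⟩

lemma Low.mem_M_of {g : Matrix (Fin n) (Fin n) F[X]} (hg : Low g) {x : ℤ} {w : K F}
    (h : act g w ∈ M F x) : w ∈ M F x := by
  refine mem_M.2 fun y hy => ?_
  by_contra hne
  have hne' : w.support.Nonempty := ⟨y, Finsupp.mem_support_iff.2 hne⟩
  set y0 := w.support.min' hne'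
  have hy0 : y0 ≤ y := w.support.min'_le y (Finsupp.mem_support_iff.2 hne)
  have hM : w ∈ M F y0 := mem_M.2 fun z hz => by
    by_contra h'
    exact absurd (w.support.min'_le z (Finsupp.mem_support_iff.2 h')) (not_le.2 hz)
  have := (hg y0 w hM).2
  rw [mem_M.1 h y0 (by omega)] at this
  exact Finsupp.mem_support_iff.1 (w.support.min'_mem hne') this.symm

/-- `U+`: lowest coefficients are preserved. -/
def Up (F : Type) [Field F] (n : ℕ) [NeZero n] : Subgroup (SpecialLinearGroup (Fin n) F[X]) where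
  carrier := {g | Low (g : Matrix (Fin n) (Fin n) F[X])}
  one_mem' x v hv := by
    simpa [act_one] using hv
  mul_mem' {g h} hg hh := fun x v hv => by
    obtain ⟨h1, h2⟩ := hh x v hv
    obtain ⟨g1, g2⟩ := hg x _ h1
    show act ((g : Matrix (Fin n) (Fin n) F[X]) * (h : Matrix (Fin n) (Fin n) F[X])) v ∈ M F x ∧
      act ((g : Matrix (Fin n) (Fin n) F[X]) * (h : Matrix (Fin n) (Fin n) F[X])) v x = v x
    rw [act_mul, Module.End.mul_apply]
    exact ⟨g1, g2.trans h2⟩
  inv_mem' {g} hg := fun x v hv => by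
    have e : act (g : Matrix (Fin n) (Fin n) F[X])
        (act ((g⁻¹ : SpecialLinearGroup (Fin n) F[X]) : Matrix (Fin n) (Fin n) F[X]) v) = v := by
      have hgg : (g : Matrix (Fin n) (Fin n) F[X])
          * ((g⁻¹ : SpecialLinearGroup (Fin n) F[X]) : Matrix (Fin n) (Fin n) F[X]) = 1 :=
        congrArg Subtype.val (mul_inv_cancel g)
      rw [← Module.End.mul_apply, ← act_mul, hgg, act_one, Module.End.one_apply]
    have hw : act ((g⁻¹ : SpecialLinearGroup (Fin n) F[X]) : Matrix (Fin n) (Fin n) F[X]) v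
        ∈ M F x := Low.mem_M_of hg (e.symm ▸ hv)
    have h2 := (hg x _ hw).2
    rw [e] at h2
    exact ⟨hw, h2.symm⟩

/-- The action of an element of `U+`. -/
noncomputable abbrev actU (g : Up F n) : Module.End F (K F) :=
  act ((g : SpecialLinearGroup (Fin n) F[X]) : Matrix (Fin n) (Fin n) F[X])

lemma actU_one : actU (1 : Up F n) = 1 := act_one

lemma actU_mul (g h : Up F n) : actU (g * h) = actU g * actU h := act_mul _ _

lemma actU_inv_apply (g : Up F n) (v : K F) : actU g⁻¹ (actU g v) = v := by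
  rw [← Module.End.mul_apply, ← actU_mul, inv_mul_cancel, actU_one, Module.End.one_apply]

/-- The image of a space. -/
noncomputable abbrev gmap (g : Up F n) (L : Submodule F (K F)) : Submodule F (K F) :=
  L.map (actU g)

lemma minSet_gmap (g : Up F n) (L : Submodule F (K F)) : minSet (gmap g L) = minSet L := by
  ext x
  constructor
  · rintro ⟨_, ⟨w, hw, rfl⟩, h1, h2⟩
    have hwM := Low.mem_M_of g.2 h2
    exact ⟨w, hw, fun h => h1 ((g.2 x w hwM).2.trans h), hwM⟩
  · rintro ⟨w, hw, h1, h2⟩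
    exact ⟨_, ⟨w, hw, rfl⟩, fun h => h1 ((g.2 x w h2).2.symm.trans h), (g.2 x w h2).1⟩

lemma ind_gmap (g : Up F n) (L : Submodule F (K F)) : ind (gmap g L) = ind L := by
  simp only [ind, minSet_gmap]

lemma shL_gmap (g : Up F n) (m : ℤ) (L : Submodule F (K F)) :
    shL (m * n) (gmap g L) = gmap g (shL (m * n) L) := by
  simp only [gmap, shL, ← Submodule.map_comp]
  congr 1
  exact LinearMap.ext fun v => (act_sh _ m v).symm

lemma isLat_gmap (g : Up F n) {L : Submodule F (K F)} (hL : IsLat n L) : IsLat n (gmap g L) := by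
  obtain ⟨a, b, ha, hb⟩ := hL.bdd
  obtain ⟨D, hD⟩ := exists_bound ((g : SpecialLinearGroup (Fin n) F[X]) : Matrix (Fin n) (Fin n) F[X])
  obtain ⟨D', hD'⟩ := exists_bound
    (((g⁻¹ : Up F n) : SpecialLinearGroup (Fin n) F[X]) : Matrix (Fin n) (Fin n) F[X])
  refine ⟨?_, a - D', b + D, fun v hv => ?_, ?_⟩
  · rintro _ ⟨w, hw, rfl⟩
    refine ⟨_, hL.down w hw, ?_⟩
    have := act_sh ((g : SpecialLinearGroup (Fin n) F[X]) : Matrix (Fin n) (Fin n) F[X]) (-1) w
    simpa using this
  · refine ⟨actU g⁻¹ v, ha ?_, ?_⟩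
    · have := hD' _ v hv
      rwa [sub_add_cancel] at this
    · simpa using actU_inv_apply g⁻¹ v
  · rintro _ ⟨w, hw, rfl⟩
    exact hD b w (hb hw)

noncomputable instance latAction : MulAction (Up F n) (Vx F n) where
  smul g v := ⟨⟨gmap g (sp v), isLat_gmap g v.1.2⟩, by
    simpa [ind_gmap] using v.2⟩
  one_smul v := Subtype.ext (Subtype.ext (show gmap (1 : Up F n) (sp v) = sp v by
    rw [gmap, actU_one]; exact Submodule.map_id _))
  mul_smul g h v := Subtype.ext (Subtype.ext (show gmap (g * h) (sp v) = gmap g (gmap h (sp v)) by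
    rw [gmap, gmap, gmap, actU_mul, ← Submodule.map_comp]; rfl))

noncomputable instance vertAction : MulAction (Up F n) (posModel F n).Vert := latAction

lemma sp_smul (g : Up F n) (v : Vx F n) : sp (g • v) = gmap g (sp v) := rfl

lemma ind_smul (g : Up F n) (v : Vx F n) : ind (sp (g • v)) = ind (sp v) := ind_gmap g _

lemma opp_smul (g : Up F n) (v : Vx F n) : Opp (sp (g • v)) ↔ Opp (sp v) := by
  rw [Opp, Opp, ind_smul, sp_smul, minSet_gmap]

lemma adj_smul {g : Up F n} {v w : Vx F n} (h : Adj v w) : Adj (g • v) (g • w) := by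
  have key : ∀ a b : Vx F n, sp a ≤ sp b ∧ sp b ≤ TL n (sp a) →
      sp (g • a) ≤ sp (g • b) ∧ sp (g • b) ≤ TL n (sp (g • a)) := by
    intro a b hab
    refine ⟨Submodule.map_mono hab.1, ?_⟩
    have e := shL_gmap g 1 (sp a)
    rw [one_mul] at e
    rw [sp_smul, sp_smul, TL, e]
    exact Submodule.map_mono hab.2
  exact h.imp (key v w) (key w v)

lemma xSimplex_smul {g : Up F n} {σ : Finset (Vx F n)} (h : XSimplex σ) :
    XSimplex (σ.image (g • ·)) := by
  refine ⟨fun a ha b hb => ?_, fun a ha => ?_⟩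
  · obtain ⟨a, ha', rfl⟩ := mem_image.1 ha
    obtain ⟨b, hb', rfl⟩ := mem_image.1 hb
    exact adj_smul (h.1 a ha' b hb')
  · obtain ⟨a, ha', rfl⟩ := mem_image.1 ha
    exact (opp_smul g a).2 (h.2 a ha')

theorem good_smul {g : Up F n} {σ : Finset (posModel F n).Vert} (h : σ ∈ (posModel F n).good) :
    σ.image (g • ·) ∈ (posModel F n).good := by
  have hs : Simplex (F := F) (n := n) σ := (mem_simp_iff σ).1 h.1
  refine ⟨(mem_simp_iff _).2 fun a ha b hb => ?_, fun a ha => ?_⟩
  · obtain ⟨a', ha', rfl⟩ : ∃ a' ∈ σ, g • a' = a := mem_image.1 ha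
    obtain ⟨b', hb', rfl⟩ : ∃ b' ∈ σ, g • b' = b := mem_image.1 hb
    exact adj_smul (hs a' ha' b' hb')
  · obtain ⟨a', ha', rfl⟩ : ∃ a' ∈ σ, g • a' = a := mem_image.1 ha
    exact (good_posModel_iff _).2 ((opp_smul g a').2 ((good_posModel_iff a'.1).1 (h.2 a' ha')))

/-! ### The congruence subgroups -/

variable {s : ℕ}

lemma dvd_of_gam {γ : SpecialLinearGroup (Fin n) F[X]} (h : γ ∈ Gam F s (Fin n)) (k i : Fin n) :
    (X : F[X]) ^ s ∣ ((γ : Matrix (Fin n) (Fin n) F[X]) - 1) k i := by
  rw [← Ideal.mem_span_singleton, ← Ideal.Quotient.eq_zero_iff_mem, Matrix.sub_apply, map_sub,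
    mem_gam.1 h k i, Matrix.one_apply, Matrix.one_apply, apply_ite (Ideal.Quotient.mk _), map_one,
    map_zero, sub_self]

theorem gam_le_Up (hs : 1 ≤ s) : Gam F s (Fin n) ≤ Up F n := by
  intro γ hγ
  refine low_of_coeff fun k i _ => ?_
  have h := Polynomial.X_pow_dvd_iff.1 (dvd_of_gam hγ k i) 0 (by omega)
  rw [Matrix.sub_apply, Polynomial.coeff_sub, sub_eq_zero, Matrix.one_apply] at h
  rw [h]
  split_ifs <;> simp

/-- The congruence subgroup inside `U+`. -/
noncomputable def GamU (F : Type) [Field F] (n s : ℕ) [NeZero n] : Subgroup (Up F n) :=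
  (Gam F s (Fin n)).subgroupOf (Up F n)

instance gamU_normal : (GamU F n s).Normal := (gam_normal).subgroupOf (Up F n)

/-- A congruence element moves supports high. -/
theorem gam_shift {γ : SpecialLinearGroup (Fin n) F[X]} (hγ : γ ∈ Gam F s (Fin n)) {x : ℤ}
    {v : K F} (hv : v ∈ M F x) :
    act (γ : Matrix (Fin n) (Fin n) F[X]) v - v ∈ M F (x + ((s : ℤ) - 1) * n + 1) := by
  have e : act (γ : Matrix (Fin n) (Fin n) F[X]) v - v
      = act ((γ : Matrix (Fin n) (Fin n) F[X]) - 1) v := by
    rw [act_sub, act_one, LinearMap.sub_apply, Module.End.one_apply]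
  rw [e, act_expand]
  refine Submodule.sum_mem _ fun y hy => Submodule.smul_mem _ _ (mem_M.2 fun z hz => ?_)
  have hxy : x ≤ y := by
    by_contra hh
    exact Finsupp.mem_support_iff.1 hy (mem_M.1 hv y (by omega))
  by_contra hne
  obtain ⟨k, d, rfl, hc⟩ := act_coord_ne hne
  have hd : s ≤ d := by
    by_contra hh
    exact hc (Polynomial.X_pow_dvd_iff.1 (dvd_of_gam hγ k _) d (by omega))
  have h1 := rsd_decomp (n := n) y
  have h2 : (((rsd (n := n) y : Fin n) : ℕ) : ℤ) < n := by exact_mod_cast (rsd (n := n) y).2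
  have h3 : (n : ℤ) * s ≤ n * d := mul_le_mul_of_nonneg_left (by exact_mod_cast hd) (by positivity)
  have h4 : ((s : ℤ) - 1) * n = n * s - n := by ring
  have := Int.natCast_nonneg (k : ℕ)
  omega

/-- An element fixing the top window of a lattice in general position is trivial. -/
theorem eq_one_of_fix {g : Up F n} {L : Submodule F (K F)} (hL : IsLat n L) (hopp : Opp L)
    (hfix : ∀ v ∈ L, v ∈ M F (ind L - n) → actU g v = v) : g = 1 := by
  obtain ⟨a, b, hab⟩ := hL.bdd
  set Fx : Submodule F (K F) := LinearMap.ker (actU g - 1) with hFx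
  have hmem : ∀ v, v ∈ Fx ↔ actU g v = v := fun v => by
    simp [hFx, LinearMap.mem_ker, sub_eq_zero]
  have hLfix : L ≤ L ⊓ Fx := by
    refine le_of_minSet_subset inf_le_left hab.2 fun x hx => ?_
    rw [hopp] at hx
    simp only [Set.mem_Iio] at hx
    have hn := NeZero.ne n
    set m : ℤ := (ind L - 1 - x) / n with hm
    have h1 := Int.emod_add_ediv_mul (ind L - 1 - x) n
    have h2 := Int.emod_nonneg (ind L - 1 - x) (show (n : ℤ) ≠ 0 by omega)
    have h3 := Int.emod_lt_of_pos (ind L - 1 - x) (show (0 : ℤ) < n by omega)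
    have h4 : 0 ≤ m := Int.ediv_nonneg (by omega) (by omega)
    rw [← hm] at h1
    have hyS : x + m * n ∈ minSet L := by rw [hopp, Set.mem_Iio]; omega
    obtain ⟨v, hv, hv1, hvM⟩ := exists_lead hyS
    have hfv := hfix v hv (M_anti (by omega) hvM)
    refine ⟨sh F (-m * n) v, ⟨?_, (hmem _).2 ?_⟩, ?_, ?_⟩
    · have := hL.shL_le_shL (i := 0) (j := m) h4
      rw [zero_mul, shL_zero] at this
      have h5 := mem_shL.1 (this hv)
      rwa [neg_mul]
    · rw [actU, act_sh, show act _ v = v from hfv]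
    · rw [sh_apply, show x - -m * n = x + m * n by ring, hv1]; exact one_ne_zero
    · have := (sh_mem_M (F := F) (m := -m * n)).2 hvM
      rwa [show x + m * n + -m * n = x by ring] at this
  have hall : ∀ v : K F, actU g v = v := by
    intro v
    obtain ⟨c, hc⟩ := exists_mem_N v
    set m : ℤ := max (c - a) 0 with hm
    have h4 : (0 : ℤ) ≤ m := le_max_right _ _
    have hcm : c - a ≤ m := le_max_left _ _
    have hn := NeZero.ne n
    have hmn : m ≤ m * n := le_mul_of_one_le_right h4 (by omega)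
    have h5 : sh F (-(m * n)) v ∈ L := hab.1 (N_mono (by omega) ((sh_mem_N (m := -(m * n))).2 hc))
    have h6 := (hmem _).1 (hLfix h5).2
    rw [← neg_mul, actU, act_sh] at h6
    exact (sh F _).injective h6
  have : ((g : SpecialLinearGroup (Fin n) F[X]) : Matrix (Fin n) (Fin n) F[X]) = 1 :=
    act_injective (by rw [act_one]; exact LinearMap.ext hall)
  exact Subtype.ext (Subtype.ext this)

/-- The congruence subgroup acts freely on general-position lattices, in a strong sense. -/
theorem eq_one_of_close {g : Up F n} (hg : g ∈ GamU F n s) {L U₀ : Submodule F (K F)}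
    (hL : IsLat n L) (hopp : Opp L) {c : ℤ} (hc : c ≤ ind L + ((s : ℤ) - 2) * n + 1)
    (h1 : L ≤ U₀) (h2 : gmap g L ≤ U₀) (h3 : U₀ ⊓ M F c = ⊥) : g = 1 := by
  refine eq_one_of_fix hL hopp fun v hv hvM => ?_
  have hd : actU g v - v ∈ U₀ ⊓ M F c :=
    ⟨U₀.sub_mem (h2 ⟨v, hv, rfl⟩) (h1 hv), M_anti (le_trans hc (le_of_eq (by ring)))
      (gam_shift (Subgroup.mem_subgroupOf.1 hg) hvM)⟩
  rw [h3, Submodule.mem_bot, sub_eq_zero] at hd
  exact hd

/-- **F1: free action.** -/
theorem free (hs : 2 ≤ s) {g : Up F n} (hg : g ∈ GamU F n s) {v : Vx F n} (hv : Opp (sp v))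
    (hfix : g • v = v) : g = 1 := by
  refine eq_one_of_close hg v.1.2 hv (c := ind (sp v)) ?_ le_rfl ?_ ((opp_iff v.1.2).1 hv)
  · have : (0 : ℤ) ≤ ((s : ℤ) - 2) * n := mul_nonneg (by omega) (by omega)
    show ind (sp v) ≤ ind (sp v) + ((s : ℤ) - 2) * n + 1
    omega
  · rw [← sp_smul, hfix]

/-- **F2: stars embed.** -/
theorem star_embed (hs : 3 ≤ s) {g : Up F n} (hg : g ∈ GamU F n s) {v w : Vx F n}
    (hv : Opp (sp v)) (hw : Opp (sp w)) (h1 : Adj v w) (h2 : Adj v (g • w)) : g = 1 := by
  have hsn : (n : ℤ) ≤ ((s : ℤ) - 2) * n := le_mul_of_one_le_left (by omega) (by omega)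
  have hbot := (opp_iff v.1.2).1 hv
  have a1 : 0 ≤ ind (sp v) := v.2.1
  have a2 : ind (sp v) < n := v.2.2
  have a3 : 0 ≤ ind (sp w) := w.2.1
  rcases le_total (ind (sp v)) (ind (sp w)) with hle | hle
  · refine eq_one_of_close hg w.1.2 hw (c := ind (sp v) + n) (U₀ := TL n (sp v))
      (show ind (sp v) + n ≤ ind (sp w) + ((s : ℤ) - 2) * n + 1 by omega)
      (h1.le hle).2 (h2.le (by rw [ind_smul]; exact hle)).2 ?_
    rw [eq_bot_iff]
    rintro u ⟨hu1, hu2⟩
    have h3 : sh F (-(n : ℤ)) u ∈ sp v ⊓ M F (ind (sp v)) := by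
      refine ⟨mem_shL.1 hu1, ?_⟩
      have := (sh_mem_M (m := -(n : ℤ))).2 hu2
      rwa [add_neg_cancel_right] at this
    rw [hbot, Submodule.mem_bot] at h3
    rw [Submodule.mem_bot]
    exact (sh F _).injective (h3.trans (map_zero _).symm)
  · exact eq_one_of_close hg w.1.2 hw (c := ind (sp v)) (U₀ := sp v)
      (show ind (sp v) ≤ ind (sp w) + ((s : ℤ) - 2) * n + 1 by omega)
      (h1.symm.le hle).1 (h2.symm.le (by rw [ind_smul]; exact hle)).1 hbot

/-- Free action, on the good complex. -/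
theorem good_free (hs : 2 ≤ s) {g : Up F n} (hg : g ∈ GamU F n s) {v : (posModel F n).Vert}
    (hv : {v} ∈ (posModel F n).good) (hfix : g • v = v) : g = 1 :=
  free hs hg ((good_posModel_iff v.1).1 (hv.2 v (mem_singleton_self v))) hfix

/-- Stars embed, on the good complex. -/
theorem good_star (hs : 3 ≤ s) {g : Up F n} (hg : g ∈ GamU F n s) {v w : (posModel F n).Vert}
    (h1 : ({v, w} : Finset (posModel F n).Vert) ∈ (posModel F n).good)
    (h2 : ({v, g • w} : Finset (posModel F n).Vert) ∈ (posModel F n).good) : g = 1 := by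
  have m1 : v ∈ ({v, w} : Finset (posModel F n).Vert) := mem_insert_self _ _
  have m2 : w ∈ ({v, w} : Finset (posModel F n).Vert) := mem_insert_of_mem (mem_singleton_self _)
  have m3 : v ∈ ({v, g • w} : Finset (posModel F n).Vert) := mem_insert_self _ _
  have m4 : g • w ∈ ({v, g • w} : Finset (posModel F n).Vert) :=
    mem_insert_of_mem (mem_singleton_self _)
  exact star_embed hs hg ((good_posModel_iff v.1).1 (h1.2 v m1))
    ((good_posModel_iff w.1).1 (h1.2 w m2)) ((mem_simp_iff _).1 h1.1 v m1 w m2)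
    ((mem_simp_iff _).1 h2.1 v m3 (g • w) m4)

end Vale.Agent.P067.Top.Lat
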