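import Vale.Agent.P067.Top.Chain

/-!
# P067 topology: the abstract input of the Morse lemma

`Λ` is the poset of all lattices with the index `ind`, the shift `sh 1 = T` and a set of integers
`pos` attached to every lattice. A vertex is a lattice of index in `[0,n)`.
-/

namespace Vale.Agent.P067.Top

/-- An indexed periodic poset labelled by sets of integers. -/
structure Model (n : ℕ) where
  Lam : Type
  [po : PartialOrder Lam]
  sh : ℤ → Lam → Lam
  sh_zero : ∀ x, sh 0 x = x
  sh_add : ∀ a b x, sh (a + b) x = sh a (sh b x)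
  sh_le : ∀ m x y, x ≤ y → sh m x ≤ sh m y
  ind : Lam → ℤ
  ind_sh : ∀ m x, ind (sh m x) = ind x + m * n
  ind_lt : ∀ x y, x < y → ind x < ind y
  lt_sh : ∀ x, x < sh 1 x
  pos : Lam → Set ℤ
  pos_sh : ∀ m x k, k ∈ pos (sh m x) ↔ k - m * n ∈ pos x
  pos_mono : ∀ x y, x ≤ y → pos x ⊆ pos y
  pos_bdd : ∀ x, ∃ a b : ℤ, Set.Iio a ⊆ pos x ∧ pos x ⊆ Set.Iio b
  pos_ne : ∀ x y, x < y → pos x ≠ pos y

attribute [instance] Model.po

namespace Model

variable {n : ℕ} (M : Model n)

/-- The vertices: lattices of index in `[0,n)`. -/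
def Vert : Type := {x : M.Lam // 0 ≤ M.ind x ∧ M.ind x < n}

/-- All translates of the members of a set of vertices. -/
def cover (σ : Finset M.Vert) : Set M.Lam := {x | ∃ v ∈ σ, ∃ m : ℤ, M.sh m v.1 = x}

/-- The simplices of the building: sets of vertices whose translates form a chain. -/
def simp : Set (Finset M.Vert) := {σ | IsChain (· ≤ ·) (M.cover σ)}

/-- `c` separates the pair `(p.1, p.2)`: it contains the second and not the first position. -/
def Sep (c : M.Lam) (p : ℤ × ℤ) : Prop := p.2 ∈ M.pos c ∧ p.1 ∉ M.pos c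

/-- The position set is an initial segment. -/
def Good (c : M.Lam) : Prop := ∀ x y, x < y → ¬ M.Sep c (x, y)

/-- The simplices with all members good: the opposition complex `X~`. -/
def good : Set (Finset M.Vert) := {σ | σ ∈ M.simp ∧ ∀ v ∈ σ, M.Good v.1}

/-- `e` lies strictly between `c` and `c'` and takes the least new positions. -/
def Fills (c c' e : M.Lam) : Prop :=
  c < e ∧ e < c' ∧ ∀ a ∈ M.pos e, a ∉ M.pos c → ∀ b ∈ M.pos c', b ∉ M.pos e → a < b

/-- The complex of chains of elements filling the gap between `c` and `c'`. -/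
def gap (c c' : M.Lam) : Set (Finset M.Lam) :=
  {τ | IsChain (· ≤ ·) (τ : Set M.Lam) ∧ ∀ e ∈ τ, M.Fills c c' e}

end Model

end Vale.Agent.P067.Top
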