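import Vale.Agent.P067.Top.Lattice
import Vale.Agent.P067.Top.Model

/-!
# P067 topology: the lattice models and their gaps
-/

namespace Vale.Agent.P067.Top.Lat

open Finset
open scoped Classical

variable {F : Type} [Field F] {n : ℕ}

/-- The translate of a lattice by `m` powers of `t`. -/
noncomputable def shLat (m : ℤ) (x : Lat F n) : Lat F n := ⟨shL (m * n) x.1, x.2.shift _⟩

lemma minSet_bdd (x : Lat F n) : ∃ a b : ℤ, Set.Iio a ⊆ minSet x.1 ∧ minSet x.1 ⊆ Set.Iio b := by
  obtain ⟨a, b, h⟩ := x.2.bdd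
  exact ⟨a, b, fun _ hy => h.mem_minSet hy, fun _ hy => h.lt_of_minSet hy⟩

lemma maxSet_bdd (x : Lat F n) : ∃ a b : ℤ, Set.Iio a ⊆ maxSet x.1 ∧ maxSet x.1 ⊆ Set.Iio b := by
  obtain ⟨a, b, h⟩ := x.2.bdd
  exact ⟨a, b, fun _ hy => h.mem_maxSet hy, fun _ hy => h.lt_of_maxSet hy⟩

lemma minSet_ne {x y : Lat F n} (h : x < y) : minSet x.1 ≠ minSet y.1 := by
  intro e
  obtain ⟨a, b, -, hy⟩ := x.2.common y.2
  exact h.not_ge (le_of_minSet_subset h.le hy.2 e.ge)

lemma maxSet_ne {x y : Lat F n} (h : x < y) : maxSet x.1 ≠ maxSet y.1 := by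
  intro e
  obtain ⟨a, b, hx, -⟩ := x.2.common y.2
  exact h.not_ge (le_of_maxSet_subset h.le hx.1 e.ge)

lemma ind_lt {x y : Lat F n} (h : x < y) : ind x.1 < ind y.1 := by
  refine lt_of_le_of_ne (ind_mono x.2 y.2 h.le) fun e => h.ne ?_
  exact Subtype.ext (eq_of_le_of_ind_le x.2 y.2 h.le e.ge)

lemma lt_shLat_one [NeZero n] (x : Lat F n) : x < shLat 1 x := by
  refine lt_of_le_of_ne (show x.1 ≤ shL ((1 : ℤ) * n) x.1 by rw [one_mul]; exact x.2.le_TL) fun e => ?_
  have h := congrArg (fun y : Lat F n => ind y.1) e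
  simp only [shLat, ind_shL x.2, one_mul] at h
  have := NeZero.ne n
  omega

lemma shLat_zero (x : Lat F n) : shLat 0 x = x :=
  Subtype.ext (show shL ((0 : ℤ) * n) x.1 = x.1 by rw [zero_mul, shL_zero])

/-- The model given by lowest positions. -/
noncomputable def posModel (F : Type) [Field F] (n : ℕ) [NeZero n] : Model n where
  Lam := Lat F n
  sh := shLat
  sh_zero := shLat_zero
  sh_add a b x := Subtype.ext (by simp only [shLat, shL_shL, add_mul])
  sh_le m x y h := shL_mono (L := x.1) (L' := y.1) h _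
  ind x := ind x.1
  ind_sh m x := ind_shL x.2 _
  ind_lt _ _ := ind_lt
  lt_sh := lt_shLat_one
  pos x := minSet x.1
  pos_sh _ _ _ := mem_minSet_shL
  pos_mono _ _ h := minSet_mono h
  pos_bdd := minSet_bdd
  pos_ne _ _ := minSet_ne

/-- The model given by highest positions. -/
noncomputable def posModel' (F : Type) [Field F] (n : ℕ) [NeZero n] : Model n where
  Lam := Lat F n
  sh := shLat
  sh_zero := shLat_zero
  sh_add a b x := Subtype.ext (by simp only [shLat, shL_shL, add_mul])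
  sh_le m x y h := shL_mono (L := x.1) (L' := y.1) h _
  ind x := ind x.1
  ind_sh m x := ind_shL x.2 _
  ind_lt _ _ := ind_lt
  lt_sh := lt_shLat_one
  pos x := maxSet x.1
  pos_sh _ _ _ := mem_maxSet_shL
  pos_mono _ _ h := maxSet_mono h
  pos_bdd := maxSet_bdd
  pos_ne _ _ := maxSet_ne

/-- A bounded down-closed set of integers is an initial segment. -/
lemma eq_Iio_of_down {S : Set ℤ} {a b : ℤ} (hab : a ≤ b) (ha : ∀ x < a, x ∈ S)
    (hb : ∀ x ∈ S, x < b) (hd : ∀ x y, x < y → y ∈ S → x ∈ S) :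
    S = Set.Iio (a + (cnt S a b : ℤ)) := by
  obtain ⟨m, hm, hmax⟩ := Int.exists_greatest_of_bdd (P := (· ∈ S)) ⟨b, fun x hx => (hb x hx).le⟩
    ⟨a - 1, ha _ (by omega)⟩
  have hS : ∀ x, x ∈ S ↔ x ≤ m := fun x => ⟨hmax x, fun h => by
    rcases h.lt_or_eq with h | h
    · exact hd x m h hm
    · exact h ▸ hm⟩
  have h1 : m < b := hb m hm
  have h2 : a - 1 ≤ m := hmax _ (ha _ (by omega))
  have hc : (cnt S a b : ℤ) = m + 1 - a := by
    rw [cnt_add S (show a ≤ m + 1 by omega) (show m + 1 ≤ b by omega), Nat.cast_add,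
      cnt_full (by omega) (fun x _ hx => (hS x).2 (by omega)),
      cnt_empty (fun x hx _ => by rw [hS]; omega)]
    simp
  ext x
  rw [hS, Set.mem_Iio]
  omega

/-- Good for the lowest positions: the opposition condition. -/
theorem good_posModel_iff [NeZero n] (x : Lat F n) : (posModel F n).Good x ↔ Opp x.1 := by
  change (∀ u y, u < y → ¬(y ∈ minSet x.1 ∧ u ∉ minSet x.1)) ↔ _
  constructor
  · intro h
    obtain ⟨a, b, hx⟩ := x.2.bdd
    rw [Opp, ind_eq hx]
    exact eq_Iio_of_down hx.le (fun u hu => hx.mem_minSet hu) (fun u hu => hx.lt_of_minSet hu)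
      fun u y huy hy => not_not.1 fun h' => h u y huy ⟨hy, h'⟩
  · intro h u y huy hy
    rw [Opp] at h
    rw [h] at hy
    exact hy.2 (show u < ind x.1 from huy.trans hy.1)

/-- Good for the highest positions: the standard lattices. -/
theorem good_posModel'_iff [NeZero n] (x : Lat F n) :
    (posModel' F n).Good x ↔ x.1 = N F (ind x.1) := by
  change (∀ u y, u < y → ¬(y ∈ maxSet x.1 ∧ u ∉ maxSet x.1)) ↔ _
  constructor
  · intro h
    obtain ⟨a, b, hx⟩ := x.2.bdd
    refine eq_N_of_maxSet x.2 ?_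
    rw [ind_eq_maxSet hx]
    exact eq_Iio_of_down hx.le (fun u hu => hx.mem_maxSet hu) (fun u hu => hx.lt_of_maxSet hu)
      fun u y huy hy => not_not.1 fun h' => h u y huy ⟨hy, h'⟩
  · intro h u y huy hy
    rw [h, maxSet_N] at hy
    exact hy.2 (show u < ind x.1 from huy.trans hy.1)

/-- Simplices are the sets of pairwise adjacent vertices. -/
theorem mem_simp_iff [NeZero n] (σ : Finset (Vx F n)) :
    σ ∈ (posModel F n).simp ↔ Simplex σ := by
  change IsChain (· ≤ ·) {x : Lat F n | ∃ v ∈ σ, ∃ m : ℤ, shLat m v.1 = x} ↔ _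
  constructor
  · intro h
    have key : ∀ v ∈ σ, ∀ w ∈ σ, ind (sp v) ≤ ind (sp w) → Adj v w := by
      intro v hv w hw hle
      have hv' : ∀ m : ℤ, shLat m v.1 ∈ {x : Lat F n | ∃ v ∈ σ, ∃ m : ℤ, shLat m v.1 = x} :=
        fun m => ⟨v, hv, m, rfl⟩
      have hw0 : w.1 ∈ {x : Lat F n | ∃ v ∈ σ, ∃ m : ℤ, shLat m v.1 = x} :=
        ⟨w, hw, 0, shLat_zero _⟩
      have h0 : v.1 ∈ {x : Lat F n | ∃ v ∈ σ, ∃ m : ℤ, shLat m v.1 = x} :=
        ⟨v, hv, 0, shLat_zero _⟩
      have e1 : sp v ≤ sp w := by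
        rcases h.total h0 hw0 with h' | h'
        · exact h'
        · exact (eq_of_le_of_ind_le w.1.2 v.1.2 h' hle).symm.le
      have e2 : sp w ≤ TL n (sp v) := by
        rcases h.total hw0 (hv' 1) with h' | h'
        · have h'' : sp w ≤ shL ((1 : ℤ) * n) (sp v) := h'
          rwa [one_mul] at h''
        · have := ind_mono (v.1.2.shift _) w.1.2 h'
          rw [ind_shL v.1.2, one_mul] at this
          have := v.2.1; have := w.2.2
          omega
      exact Or.inl ⟨e1, e2⟩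
    intro v hv w hw
    rcases le_total (ind (sp v)) (ind (sp w)) with hle | hle
    · exact key v hv w hw hle
    · exact (key w hw v hv hle).symm
  · rintro h _ ⟨v, hv, i, rfl⟩ _ ⟨w, hw, j, rfl⟩ -
    exact (h v hv w hw).chain i j

/-- Spaces between `c` and `c' ≤ t c` are lattices. -/
theorem isLat_between {c c' Y : Submodule F (K F)} (hc : IsLat n c) (hc' : IsLat n c')
    (hT : c' ≤ TL n c) (h1 : c ≤ Y) (h2 : Y ≤ c') : IsLat n Y := by
  refine ⟨fun v hv => h1 (mem_shL.1 (hT (h2 hv))), ?_⟩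
  obtain ⟨a, b, ha, hb⟩ := hc.common hc'
  exact ⟨a, b, ha.1.trans h1, h2.trans hb.2⟩

/-- The part of `c'` above `c` with positions below `z`. -/
noncomputable def lowPart (c c' : Submodule F (K F)) (z : ℤ) : Submodule F (K F) := c ⊔ c' ⊓ N F z

/-- The part of `c'` above `c` with positions at least `z`: the flag of the gap. -/
noncomputable def highPart (c c' : Submodule F (K F)) (z : ℤ) : Submodule F (K F) := c ⊔ c' ⊓ M F z

lemma lowPart_mono (c c' : Submodule F (K F)) {z z' : ℤ} (h : z ≤ z') :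
    lowPart c c' z ≤ lowPart c c' z' :=
  sup_le_sup_left (inf_le_inf_left _ (N_mono h)) _

lemma maxSet_lowPart {c c' : Submodule F (K F)} (hle : c ≤ c') (z : ℤ) {x : ℤ} :
    x ∈ maxSet (lowPart c c' z) ↔ x ∈ maxSet c ∨ (x ∈ maxSet c' ∧ x < z) := by
  constructor
  · rintro ⟨v, hv, h1, h2⟩
    obtain ⟨u, hu, w, hw, rfl⟩ := Submodule.mem_sup.1 hv
    by_cases hxz : x < z
    · exact Or.inr ⟨⟨_, c'.add_mem (hle hu) hw.1, h1, h2⟩, hxz⟩
    · have hw0 : ∀ y, x ≤ y → w y = 0 := fun y hy => mem_N.1 hw.2 y (by omega)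
      refine Or.inl ⟨u, hu, ?_, mem_N.2 fun y hy => ?_⟩
      · simpa [hw0 x le_rfl] using h1
      · simpa [hw0 y (by omega)] using mem_N.1 h2 y hy
  · rintro (h | ⟨⟨v, hv, h1, h2⟩, hxz⟩)
    · exact maxSet_mono le_sup_left h
    · exact ⟨v, Submodule.mem_sup_right ⟨hv, N_mono (by omega) h2⟩, h1, h2⟩

lemma minSet_highPart {c c' : Submodule F (K F)} (hle : c ≤ c') (z : ℤ) {x : ℤ} :
    x ∈ minSet (highPart c c' z) ↔ x ∈ minSet c ∨ (x ∈ minSet c' ∧ z ≤ x) := by
  constructor
  · rintro ⟨v, hv, h1, h2⟩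
    obtain ⟨u, hu, w, hw, rfl⟩ := Submodule.mem_sup.1 hv
    by_cases hxz : z ≤ x
    · exact Or.inr ⟨⟨_, c'.add_mem (hle hu) hw.1, h1, h2⟩, hxz⟩
    · have hw0 : ∀ y, y ≤ x → w y = 0 := fun y hy => mem_M.1 hw.2 y (by omega)
      refine Or.inl ⟨u, hu, ?_, mem_M.2 fun y hy => ?_⟩
      · simpa [hw0 x le_rfl] using h1
      · simpa [hw0 y (by omega)] using mem_M.1 h2 y hy
  · rintro (h | ⟨⟨v, hv, h1, h2⟩, hxz⟩)
    · exact minSet_mono le_sup_left h
    · exact ⟨v, Submodule.mem_sup_right ⟨hv, M_anti (by omega) h2⟩, h1, h2⟩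

/-- The index grows by the number of new highest positions. -/
theorem ind_add_cnt_max {L L' : Submodule F (K F)} {a b : ℤ} (h : Bdd L a b) (h' : Bdd L' a b)
    (hle : L ≤ L') :
    ind L' = ind L + cnt (maxSet L' \ maxSet L) a b := by
  have key : cnt (maxSet L') a b = cnt (maxSet L) a b + cnt (maxSet L' \ maxSet L) a b := by
    rw [cnt, cnt, cnt, ← card_filter_add_card_filter_not
      (s := (Finset.Ico a b).filter (· ∈ maxSet L')) (· ∈ maxSet L), filter_filter, filter_filter]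
    congr 1
    · refine congrArg card (filter_congr fun x _ => ⟨fun hx => hx.2, fun hx => ⟨maxSet_mono hle hx, hx⟩⟩)
    · refine congrArg card ?_
      ext x
      simp
  rw [ind_eq_maxSet h, ind_eq_maxSet h']
  omega

/-- A space filling the gap by highest positions is a `lowPart`. -/
theorem fills'_eq [NeZero n] {c c' e : Lat F n} (h : (posModel' F n).Fills c c' e) :
    ∃ z, e.1 = lowPart c.1 c'.1 z := by
  obtain ⟨hce, hec', hsep⟩ := h
  change ∀ a ∈ maxSet e.1, a ∉ maxSet c.1 → ∀ b ∈ maxSet c'.1, b ∉ maxSet e.1 → a < b at hsep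
  obtain ⟨a, b, hb1, hb2⟩ := e.2.common c'.2
  -- the least position not yet taken
  have hne : ∃ x, x ∈ maxSet c'.1 ∧ x ∉ maxSet e.1 := by
    by_contra hn
    push Not at hn
    exact maxSet_ne hec' (Set.Subset.antisymm (maxSet_mono hec'.le) hn)
  obtain ⟨z, ⟨hz, hz'⟩, hmin⟩ := Int.exists_least_of_bdd
    (P := fun x => x ∈ maxSet c'.1 ∧ x ∉ maxSet e.1)
    ⟨a, fun x hx => by
      by_contra hh
      exact hx.2 (hb1.mem_maxSet (by omega))⟩ hne
  refine ⟨z, le_antisymm ?_ ?_⟩
  · have hle : lowPart c.1 c'.1 z ≤ e.1 := by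
      refine le_trans le_sup_right (le_of_maxSet_subset (L' := e.1 ⊔ c'.1 ⊓ N F z) le_sup_left hb1.1
        fun x hx => ?_) |> sup_le (show c.1 ≤ e.1 from hce.le)
      obtain ⟨v, hv, h1, h2⟩ := hx
      obtain ⟨u, hu, w, hw, rfl⟩ := Submodule.mem_sup.1 hv
      by_cases hxz : x < z
      · by_contra hxe
        exact absurd (hmin x ⟨⟨_, c'.1.add_mem (hec'.le hu) hw.1, h1, h2⟩, hxe⟩) (by omega)
      · have hw0 : ∀ y, x ≤ y → w y = 0 := fun y hy => mem_N.1 hw.2 y (by omega)
        exact ⟨u, hu, by simpa [hw0 x le_rfl] using h1,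
          mem_N.2 fun y hy => by simpa [hw0 y (by omega)] using mem_N.1 h2 y hy⟩
    obtain ⟨a', b', hc, -⟩ := c.2.common c'.2
    refine le_of_maxSet_subset hle (hc.1.trans le_sup_left) fun x hx => ?_
    rw [maxSet_lowPart (le_trans hce.le hec'.le : c ≤ c')]
    by_cases hxc : x ∈ maxSet c.1
    · exact Or.inl hxc
    · exact Or.inr ⟨maxSet_mono hec'.le hx, hsep x hx hxc z hz hz'⟩
  · refine sup_le (show c.1 ≤ e.1 from hce.le) (le_trans le_sup_right (le_of_maxSet_subset
      (L' := e.1 ⊔ c'.1 ⊓ N F z) le_sup_left hb1.1 fun x hx => ?_))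
    obtain ⟨v, hv, h1, h2⟩ := hx
    obtain ⟨u, hu, w, hw, rfl⟩ := Submodule.mem_sup.1 hv
    by_cases hxz : x < z
    · by_contra hxe
      exact absurd (hmin x ⟨⟨_, c'.1.add_mem (hec'.le hu) hw.1, h1, h2⟩, hxe⟩) (by omega)
    · have hw0 : ∀ y, x ≤ y → w y = 0 := fun y hy => mem_N.1 hw.2 y (by omega)
      exact ⟨u, hu, by simpa [hw0 x le_rfl] using h1,
        mem_N.2 fun y hy => by simpa [hw0 y (by omega)] using mem_N.1 h2 y hy⟩

/-- The spaces filling a gap by highest positions form a chain. -/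
theorem fills'_total [NeZero n] {c c' e e' : Lat F n} (h : (posModel' F n).Fills c c' e)
    (h' : (posModel' F n).Fills c c' e') : e ≤ e' ∨ e' ≤ e := by
  obtain ⟨z, hz⟩ := fills'_eq h
  obtain ⟨z', hz'⟩ := fills'_eq h'
  rcases le_total z z' with hzz | hzz
  · exact Or.inl (show e.1 ≤ e'.1 by rw [hz, hz']; exact lowPart_mono _ _ hzz)
  · exact Or.inr (show e'.1 ≤ e.1 by rw [hz, hz']; exact lowPart_mono _ _ hzz)

/-- Thresholds: every number up to the total is a count below some position. -/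
lemma exists_cnt_eq (S : Set ℤ) {a b : ℤ} (hab : a ≤ b) {y : ℕ} (hy : y ≤ cnt S a b) :
    ∃ z, a ≤ z ∧ z ≤ b ∧ cnt S a z = y := by
  obtain ⟨k, rfl⟩ : ∃ k : ℕ, b = a + k := ⟨(b - a).toNat, by omega⟩
  clear hab
  induction k with
  | zero =>
    refine ⟨a, le_rfl, by omega, ?_⟩
    simp only [Nat.cast_zero, add_zero] at hy
    have h0 : cnt S a a = 0 := cnt_empty fun x h1 h2 => absurd h2 (by omega)
    omega
  | succ k ih =>
    by_cases h : y ≤ cnt S a (a + k)
    · obtain ⟨z, h1, h2, h3⟩ := ih h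
      exact ⟨z, h1, by omega, h3⟩
    · refine ⟨a + (k + 1 : ℕ), by omega, le_rfl, ?_⟩
      have h1 := cnt_add S (show a ≤ a + k by omega)
        (show a + (k : ℤ) ≤ a + (k + 1 : ℕ) by omega)
      have h2 : cnt S (a + k) (a + (k + 1 : ℕ)) ≤ 1 := by
        refine (card_filter_le _ _).trans ?_
        rw [Int.card_Ico]; omega
      omega

/-- In each gap there is exactly one filling space of each intermediate index. -/
theorem existsUnique_fills' [NeZero n] {c c' : Lat F n} (hle : c ≤ c')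
    (hT : c' ≤ shLat 1 c) {i : ℤ} (h1 : ind c.1 < i) (h2 : i < ind c'.1) :
    ∃! e, (posModel' F n).Fills c c' e ∧ ind e.1 = i := by
  obtain ⟨a, b, hc, hc'⟩ := c.2.common c'.2
  have htot := ind_add_cnt_max hc hc' hle
  obtain ⟨z, hza, hzb, hz⟩ := exists_cnt_eq (maxSet c'.1 \ maxSet c.1) hc.le
    (y := (i - ind c.1).toNat) (by omega)
  set Y := lowPart c.1 c'.1 z
  have hYc' : Y ≤ c'.1 := sup_le hle inf_le_left
  have hT' : c'.1 ≤ TL n c.1 := by
    have h : c'.1 ≤ shL ((1 : ℤ) * n) c.1 := hT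
    rwa [one_mul] at h
  have hY : IsLat n Y := isLat_between c.2 c'.2 hT' le_sup_left hYc'
  have hYb : Bdd Y a b := ⟨hc.1.trans le_sup_left, hYc'.trans hc'.2⟩
  have hind : ind Y = i := by
    rw [ind_add_cnt_max hc hYb le_sup_left]
    have e : cnt (maxSet Y \ maxSet c.1) a b = cnt (maxSet c'.1 \ maxSet c.1) a z := by
      rw [cnt_add _ hza hzb, cnt_empty (a := z) (b := b) fun x hx _ hxY => ?_, add_zero]
      · refine congrArg card ?_
        ext x
        simp only [mem_filter, mem_Ico, Set.mem_diff, Y, maxSet_lowPart hle z]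
        exact ⟨fun ⟨hx, hS, hnc⟩ => ⟨hx, (hS.resolve_left hnc).1, hnc⟩,
          fun ⟨hx, hS, hnc⟩ => ⟨hx, Or.inr ⟨hS, hx.2⟩, hnc⟩⟩
      · rcases (maxSet_lowPart hle z).1 hxY.1 with h | h
        · exact hxY.2 h
        · have := h.2; omega
    rw [e, hz]; omega
  refine ⟨⟨Y, hY⟩, ⟨⟨?_, ?_, ?_⟩, hind⟩, fun e ⟨he, hei⟩ => ?_⟩
  · refine lt_of_le_of_ne (show c.1 ≤ Y from le_sup_left) fun e => ?_
    have : c.1 = Y := congrArg Subtype.val e
    rw [← this] at hind; omega
  · refine lt_of_le_of_ne (show Y ≤ c'.1 from hYc') fun e => ?_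
    have : Y = c'.1 := congrArg Subtype.val e
    rw [this] at hind; omega
  · intro x hx hxc y hy hyY
    change x ∈ maxSet Y at hx
    change y ∉ maxSet Y at hyY
    rw [maxSet_lowPart hle] at hx hyY
    have hxz : x < z := (hx.resolve_left hxc).2
    have : ¬ y < z := fun h => hyY (Or.inr ⟨hy, h⟩)
    omega
  · have hfill : (posModel' F n).Fills c c' ⟨Y, hY⟩ := by
      refine ⟨lt_of_le_of_ne (show c.1 ≤ Y from le_sup_left) fun e => ?_,
        lt_of_le_of_ne (show Y ≤ c'.1 from hYc') fun e => ?_, fun x hx hxc y hy hyY => ?_⟩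
      · have : c.1 = Y := congrArg Subtype.val e
        rw [← this] at hind; omega
      · have : Y = c'.1 := congrArg Subtype.val e
        rw [this] at hind; omega
      · change x ∈ maxSet Y at hx
        change y ∉ maxSet Y at hyY
        rw [maxSet_lowPart hle] at hx hyY
        have hxz : x < z := (hx.resolve_left hxc).2
        have : ¬ y < z := fun h => hyY (Or.inr ⟨hy, h⟩)
        omega
    rcases fills'_total he hfill with h | h
    · exact Subtype.ext (eq_of_le_of_ind_le e.2 hY h (hind.trans hei.symm).le)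
    · exact (Subtype.ext (eq_of_le_of_ind_le hY e.2 h (hei.trans hind.symm).le)).symm

/-- Filling by lowest positions: general position with respect to the flag of the gap. -/
theorem fills_iff [NeZero n] {c c' e : Lat F n} (hce : c < e) (hec' : e < c') {a b z : ℤ}
    (hc : Bdd c.1 a b) (hc' : Bdd c'.1 a b) (hza : a ≤ z) (hzb : z ≤ b)
    (hz : (cnt (minSet c'.1 \ minSet c.1) a z : ℤ) = ind e.1 - ind c.1) :
    (posModel F n).Fills c c' e ↔ e.1 ⊓ highPart c.1 c'.1 z ≤ c.1 := by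
  have hcc : c.1 ≤ c'.1 := le_trans hce.le hec'.le
  have he : Bdd e.1 a b := ⟨hc.1.trans hce.le, le_trans hec'.le hc'.2⟩
  have hcnt := ind_add_cnt hc he hce.le
  set D := (Finset.Ico a b).filter (· ∈ minSet c'.1 \ minSet c.1) with hD
  set De := (Finset.Ico a b).filter (· ∈ minSet e.1 \ minSet c.1) with hDe
  have hsub : De ⊆ D := by
    intro x hx
    simp only [hDe, hD, mem_filter, Set.mem_diff] at hx ⊢
    exact ⟨hx.1, minSet_mono hec'.le hx.2.1, hx.2.2⟩
  have hmemD : ∀ x, x ∈ minSet c'.1 → x ∉ minSet c.1 → x ∈ D := by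
    intro x h1 h2
    simp only [hD, mem_filter, mem_Ico, Set.mem_diff]
    refine ⟨⟨?_, hc'.lt_of_minSet h1⟩, h1, h2⟩
    by_contra hh
    exact h2 (hc.mem_minSet (by omega))
  have hcard : De.card = (D.filter (· < z)).card := by
    have e1 : (De.card : ℤ) = ind e.1 - ind c.1 := by
      rw [hcnt, cnt]; simp [hDe]
    have e2 : (D.filter (· < z)).card = cnt (minSet c'.1 \ minSet c.1) a z := by
      rw [cnt, hD, filter_filter]
      refine congrArg card ?_
      ext x
      simp only [mem_filter, mem_Ico]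
      exact ⟨fun ⟨⟨h1, _⟩, h2, h3⟩ => ⟨⟨h1, h3⟩, h2⟩,
        fun ⟨⟨h1, h3⟩, h2⟩ => ⟨⟨h1, by omega⟩, h2, h3⟩⟩
    omega
  change (c < e ∧ e < c' ∧ ∀ u ∈ minSet e.1, u ∉ minSet c.1 →
    ∀ y ∈ minSet c'.1, y ∉ minSet e.1 → u < y) ↔ _
  constructor
  · rintro ⟨-, -, hsep⟩
    -- all new positions lie below `z`
    have hlow : ∀ x ∈ De, x < z := by
      intro x hx
      by_contra hxz
      obtain ⟨y, hy, hyn⟩ : ∃ y ∈ D.filter (· < z), y ∉ De := by
        by_contra hn
        push Not at hn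
        have heq := eq_of_subset_of_card_le (s := D.filter (· < z)) (t := De) hn hcard.le
        rw [← heq, mem_filter] at hx
        exact hxz hx.2
      simp only [hD, mem_filter, Set.mem_diff] at hy
      simp only [hDe, mem_filter, Set.mem_diff] at hx hyn
      have := hsep x hx.2.1 hx.2.2 y hy.1.2.1 (fun h => hyn ⟨hy.1.1, h, hy.1.2.2⟩)
      omega
    refine le_of_minSet_subset (L := c.1) (L' := e.1 ⊓ highPart c.1 c'.1 z)
      (le_inf hce.le le_sup_left) (inf_le_left.trans he.2) fun x hx => ?_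
    by_contra hxc
    have h1 := minSet_mono inf_le_left hx
    rcases (minSet_highPart hcc z).1 (minSet_mono inf_le_right hx) with h2 | h2
    · exact hxc h2
    · have hxD := hmemD x h2.1 hxc
      have : x ∈ De := by
        simp only [hDe, hD, mem_filter, Set.mem_diff] at hxD ⊢
        exact ⟨hxD.1, h1, hxc⟩
      have := hlow x this
      omega
  · intro hflag
    refine ⟨hce, hec', fun u hu huc y hy hye => ?_⟩
    have hlow : De ⊆ D.filter (· < z) := by
      intro x hx
      refine mem_filter.2 ⟨hsub hx, ?_⟩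
      by_contra hxz
      simp only [hDe, mem_filter, Set.mem_diff] at hx
      obtain ⟨v, hv, h1, h2⟩ := hx.2.1
      exact hx.2.2 ⟨v, hflag ⟨hv, Submodule.mem_sup_right
        ⟨hec'.le hv, M_anti (by omega) h2⟩⟩, h1, h2⟩
    have heq := eq_of_subset_of_card_le hlow hcard.ge
    have huD : u ∈ De := by
      have := hmemD u (minSet_mono hec'.le hu) huc
      simp only [hDe, hD, mem_filter, Set.mem_diff] at this ⊢
      exact ⟨this.1, hu, huc⟩
    have h1 : u < z := (mem_filter.1 (show u ∈ D.filter (· < z) by rw [← heq]; exact huD)).2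
    by_contra hyu
    have hyc : y ∉ minSet c.1 := fun h => hye (minSet_mono hce.le h)
    have hyD : y ∈ De := heq ▸ mem_filter.2 ⟨hmemD y hy hyc, by omega⟩
    simp only [hDe, mem_filter, Set.mem_diff] at hyD
    exact hye hyD.2.1

end Vale.Agent.P067.Top.Lat
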