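import Vale.Agent.P067.Top.UpFamily

/-!
# P067 topology: the congruence quotients of `U+`
-/

namespace Vale.Agent.P067.Top.Lat

open Finset Polynomial Matrix
open scoped Classical

variable {F : Type} [Field F]

lemma upA_eq_up {n : ℕ} [NeZero n] : UpA F n = Up F n := Subgroup.ext fun _ => mem_upA

lemma card_quot_congr {G : Type} [Group G] (N : Subgroup G) {H H' : Subgroup G} (h : H = H') :
    (Finite (H ⧸ N.subgroupOf H) ↔ Finite (H' ⧸ N.subgroupOf H')) ∧
      Nat.card (H ⧸ N.subgroupOf H) = Nat.card (H' ⧸ N.subgroupOf H') := by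
  subst h
  exact ⟨Iff.rfl, rfl⟩

/-- The congruence subgroups have finite index in `U+`. -/
theorem finite_gamQuot [Finite F] (n s : ℕ) [NeZero n] : Finite (Up F n ⧸ GamU F n s) :=
  (card_quot_congr (Gam F s (Fin n)) upA_eq_up).1.1 (finite_quot s n)

/-- The index is odd. -/
theorem odd_card_gamQuot [Finite F] {p : ℕ} [CharP F p] (hp : p.Prime) (hodd : Odd p) (n s : ℕ)
    [NeZero n] : Odd (Nat.card (Up F n ⧸ GamU F n s)) := by
  have h : Nat.card (UpA F n ⧸ (Gam F s (Fin n)).subgroupOf (UpA F n))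
      = Nat.card (Up F n ⧸ GamU F n s) := (card_quot_congr (Gam F s (Fin n)) upA_eq_up).2
  exact h ▸ odd_quot hp hodd s n

/-- The index is at least `q^(s-1)`. -/
theorem card_gamQuot_ge [Finite F] {n : ℕ} [NeZero n] (hn : 2 ≤ n) (s : ℕ) :
    Nat.card F ^ (s - 1) ≤ Nat.card (Up F n ⧸ GamU F n s) := by
  have h : Nat.card (UpA F n ⧸ (Gam F s (Fin n)).subgroupOf (UpA F n))
      = Nat.card (Up F n ⧸ GamU F n s) := (card_quot_congr (Gam F s (Fin n)) upA_eq_up).2
  exact h ▸ card_quot_ge hn s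

/-- The index is unbounded in the level. -/
theorem exists_gamQuot_ge [Finite F] {n : ℕ} [NeZero n] (hn : 2 ≤ n) (m : ℕ) :
    ∃ s, 3 ≤ s ∧ m ≤ Nat.card (Up F n ⧸ GamU F n s) := by
  refine ⟨m + 3, by omega, le_trans ?_ (card_gamQuot_ge hn (m + 3))⟩
  calc m ≤ 2 ^ (m + 3 - 1) := (Nat.lt_two_pow_self.le).trans (Nat.pow_le_pow_right two_pos (by omega))
    _ ≤ Nat.card F ^ (m + 3 - 1) := Nat.pow_le_pow_left Finite.one_lt_card _

end Vale.Agent.P067.Top.Lat
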