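import Mathlib

/-!
# P067 topology: lattices in `F[t, 1/t]^n`, their leading sets and index

The space is `ℤ →₀ F` with basis `b_k`, and `t` shifts indices by `n`.
-/

namespace Vale.Agent.P067.Top.Lat

open Finset
open scoped Classical

variable {F : Type} [Field F] {n : ℕ}

/-- The vector space `F[t, 1/t]^n`. -/
abbrev K (F : Type) [Field F] : Type := ℤ →₀ F

/-- Shift of indices by `m`. -/
noncomputable def sh (F : Type) [Field F] (m : ℤ) : K F ≃ₗ[F] K F :=
  Finsupp.domLCongr (Equiv.addRight m)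

/-- Supports in `[j, ∞)`. -/
noncomputable def M (F : Type) [Field F] (j : ℤ) : Submodule F (K F) :=
  Finsupp.supported F F (Set.Ici j)

/-- Supports in `(-∞, j)`. -/
noncomputable def N (F : Type) [Field F] (j : ℤ) : Submodule F (K F) :=
  Finsupp.supported F F (Set.Iio j)

lemma sh_apply (m : ℤ) (v : K F) (x : ℤ) : sh F m v x = v (x - m) := by
  simp [sh, Finsupp.equivMapDomain_apply, sub_eq_add_neg]

lemma sh_zero (v : K F) : sh F 0 v = v := by ext x; simp [sh_apply]

lemma sh_sh (a b : ℤ) (v : K F) : sh F a (sh F b v) = sh F (a + b) v := by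
  ext x; simp [sh_apply, sub_sub]

lemma mem_M {j : ℤ} {v : K F} : v ∈ M F j ↔ ∀ x < j, v x = 0 := by
  simp [M, Finsupp.mem_supported']

lemma mem_N {j : ℤ} {v : K F} : v ∈ N F j ↔ ∀ x, j ≤ x → v x = 0 := by
  simp [N, Finsupp.mem_supported']

lemma M_anti {a b : ℤ} (h : a ≤ b) : M F b ≤ M F a :=
  Finsupp.supported_mono (Set.Ici_subset_Ici.2 h)

lemma N_mono {a b : ℤ} (h : a ≤ b) : N F a ≤ N F b :=
  Finsupp.supported_mono (Set.Iio_subset_Iio h)

lemma eq_zero_of_mem {a b : ℤ} (h : a ≤ b) {v : K F} (h1 : v ∈ M F b) (h2 : v ∈ N F a) : v = 0 := by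
  ext x
  rcases lt_or_ge x b with hx | hx
  · exact mem_M.1 h1 x hx
  · exact mem_N.1 h2 x (h.trans hx)

lemma exists_mem_M (v : K F) : ∃ j, v ∈ M F j := by
  refine ⟨-∑ y ∈ v.support, |y|, mem_M.2 fun x hx => ?_⟩
  by_contra h
  have := single_le_sum (f := fun y : ℤ => |y|) (fun y _ => abs_nonneg y)
    (Finsupp.mem_support_iff.2 h)
  linarith [neg_abs_le x]

lemma exists_mem_N (v : K F) : ∃ j, v ∈ N F j := by
  refine ⟨∑ y ∈ v.support, |y| + 1, mem_N.2 fun x hx => ?_⟩
  by_contra h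
  have := single_le_sum (f := fun y : ℤ => |y|) (fun y _ => abs_nonneg y)
    (Finsupp.mem_support_iff.2 h)
  linarith [le_abs_self x]

lemma single_mem_N {x j : ℤ} (h : x < j) (c : F) : Finsupp.single x c ∈ N F j :=
  Finsupp.single_mem_supported _ _ h

lemma single_mem_M {x j : ℤ} (h : j ≤ x) (c : F) : Finsupp.single x c ∈ M F j :=
  Finsupp.single_mem_supported _ _ h

lemma sh_mem_M {j m : ℤ} {v : K F} : sh F m v ∈ M F (j + m) ↔ v ∈ M F j := by
  simp only [mem_M, sh_apply]
  exact ⟨fun h x hx => by simpa using h (x + m) (by omega), fun h x hx => h _ (by omega)⟩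

lemma sh_mem_N {j m : ℤ} {v : K F} : sh F m v ∈ N F (j + m) ↔ v ∈ N F j := by
  simp only [mem_N, sh_apply]
  exact ⟨fun h x hx => by simpa using h (x + m) (by omega), fun h x hx => h _ (by omega)⟩

/-- Positions of leading coefficients: lowest positions of vectors of `L`. -/
def minSet (L : Submodule F (K F)) : Set ℤ := {x | ∃ v ∈ L, v x ≠ 0 ∧ v ∈ M F x}

/-- Highest positions of vectors of `L`. -/
def maxSet (L : Submodule F (K F)) : Set ℤ := {x | ∃ v ∈ L, v x ≠ 0 ∧ v ∈ N F (x + 1)}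

lemma exists_lead {L : Submodule F (K F)} {x : ℤ} (h : x ∈ minSet L) :
    ∃ v ∈ L, v x = 1 ∧ v ∈ M F x := by
  obtain ⟨v, hv, hx, hM⟩ := h
  exact ⟨(v x)⁻¹ • v, L.smul_mem _ hv, by simp [hx], Submodule.smul_mem _ _ hM⟩

lemma minSet_mono {L L' : Submodule F (K F)} (h : L ≤ L') : minSet L ⊆ minSet L' :=
  fun _ ⟨v, hv, h1, h2⟩ => ⟨v, h hv, h1, h2⟩

lemma maxSet_mono {L L' : Submodule F (K F)} (h : L ≤ L') : maxSet L ⊆ maxSet L' :=
  fun _ ⟨v, hv, h1, h2⟩ => ⟨v, h hv, h1, h2⟩

/-- Bounded above and equal leading sets: equal spaces. -/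
theorem le_of_minSet_subset {L L' : Submodule F (K F)} {b : ℤ} (hle : L ≤ L') (hb : L' ≤ N F b)
    (hS : minSet L' ⊆ minSet L) : L' ≤ L := by
  have key : ∀ k : ℕ, ∀ v ∈ L', v ∈ M F (b - k) → v ∈ L := by
    intro k
    induction k with
    | zero =>
      intro v hv hM
      rw [eq_zero_of_mem le_rfl (by simpa using hM) (hb hv)]
      exact L.zero_mem
    | succ k ih =>
      intro v hv hM
      set x : ℤ := b - (k + 1 : ℕ) with hxdef
      by_cases hx : v x = 0
      · refine ih v hv (mem_M.2 fun y hy => ?_)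
        rcases lt_or_eq_of_le (show y ≤ x by omega) with h | h
        · exact mem_M.1 hM y h
        · rw [h, hx]
      · obtain ⟨e, he, he1, heM⟩ := exists_lead (hS ⟨v, hv, hx, hM⟩)
        have : v - v x • e ∈ L := by
          refine ih _ (L'.sub_mem hv (L'.smul_mem _ (hle he))) (mem_M.2 fun y hy => ?_)
          rcases lt_or_eq_of_le (show y ≤ x by omega) with h | h
          · simp [mem_M.1 hM y h, mem_M.1 heM y h]
          · simp [h, he1]
        simpa using L.add_mem this (L.smul_mem (v x) he)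
  intro v hv
  obtain ⟨j, hj⟩ := exists_mem_M v
  exact key (b - j).toNat v hv (M_anti (by omega) hj)

/-- Bounded below and equal highest positions: equal spaces. -/
theorem le_of_maxSet_subset {L L' : Submodule F (K F)} {a : ℤ} (hle : L ≤ L') (ha : N F a ≤ L)
    (hS : maxSet L' ⊆ maxSet L) : L' ≤ L := by
  have key : ∀ k : ℕ, ∀ v ∈ L', v ∈ N F (a + k) → v ∈ L := by
    intro k
    induction k with
    | zero => intro v _ hN; exact ha (by simpa using hN)
    | succ k ih =>
      intro v hv hN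
      set x : ℤ := a + k with hxdef
      have hN' : v ∈ N F (x + 1) := by
        rw [show x + 1 = a + ((k + 1 : ℕ) : ℤ) by omega]; exact hN
      by_cases hx : v x = 0
      · refine ih v hv (mem_N.2 fun y hy => ?_)
        rcases lt_or_eq_of_le hy with h | h
        · exact mem_N.1 hN' y (by omega)
        · rw [← h, hx]
      · obtain ⟨e, he, he1, heN⟩ := hS ⟨v, hv, hx, hN'⟩
        have : v - (v x / e x) • e ∈ L := by
          refine ih _ (L'.sub_mem hv (L'.smul_mem _ (hle he))) (mem_N.2 fun y hy => ?_)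
          rcases lt_or_eq_of_le hy with h | h
          · simp [mem_N.1 hN' y (by omega), mem_N.1 heN y (by omega)]
          · subst h; simp [he1]
        simpa using L.add_mem this (L.smul_mem (v x / e x) he)
  intro v hv
  obtain ⟨j, hj⟩ := exists_mem_N v
  exact key (j - a).toNat v hv (N_mono (by omega) hj)

/-- `N a ≤ L ≤ N b`. -/
def Bdd (L : Submodule F (K F)) (a b : ℤ) : Prop := N F a ≤ L ∧ L ≤ N F b

lemma Bdd.mono {L : Submodule F (K F)} {a b a' b' : ℤ} (h : Bdd L a b) (ha : a' ≤ a)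
    (hb : b ≤ b') : Bdd L a' b' :=
  ⟨(N_mono ha).trans h.1, h.2.trans (N_mono hb)⟩

lemma Bdd.le {L : Submodule F (K F)} {a b : ℤ} (h : Bdd L a b) : a ≤ b := by
  by_contra hab
  push Not at hab
  have := h.2 (h.1 (single_mem_N hab (1 : F)))
  simpa using mem_N.1 this b le_rfl

lemma Bdd.mem_minSet {L : Submodule F (K F)} {a b : ℤ} (h : Bdd L a b) {x : ℤ} (hx : x < a) :
    x ∈ minSet L :=
  ⟨Finsupp.single x 1, h.1 (single_mem_N hx 1), by simp, single_mem_M le_rfl _⟩

lemma Bdd.lt_of_minSet {L : Submodule F (K F)} {a b : ℤ} (h : Bdd L a b) {x : ℤ}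
    (hx : x ∈ minSet L) : x < b := by
  obtain ⟨v, hv, h1, -⟩ := hx
  by_contra hb
  push Not at hb
  exact h1 (mem_N.1 (h.2 hv) x hb)

lemma Bdd.mem_maxSet {L : Submodule F (K F)} {a b : ℤ} (h : Bdd L a b) {x : ℤ} (hx : x < a) :
    x ∈ maxSet L :=
  ⟨Finsupp.single x 1, h.1 (single_mem_N hx 1), by simp, single_mem_N (by omega) _⟩

lemma Bdd.lt_of_maxSet {L : Submodule F (K F)} {a b : ℤ} (h : Bdd L a b) {x : ℤ}
    (hx : x ∈ maxSet L) : x < b := by
  obtain ⟨v, hv, h1, -⟩ := hx
  by_contra hb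
  push Not at hb
  exact h1 (mem_N.1 (h.2 hv) x hb)

/-- Number of elements of `S` in `[a, b)`. -/
noncomputable def cnt (S : Set ℤ) (a b : ℤ) : ℕ := ((Finset.Ico a b).filter (· ∈ S)).card

lemma cnt_add (S : Set ℤ) {a b c : ℤ} (hab : a ≤ b) (hbc : b ≤ c) :
    cnt S a c = cnt S a b + cnt S b c := by
  rw [cnt, cnt, cnt, ← Ico_union_Ico_eq_Ico hab hbc, filter_union, card_union_of_disjoint]
  exact disjoint_filter_filter (Ico_disjoint_Ico_consecutive a b c)

lemma cnt_full {S : Set ℤ} {a b : ℤ} (hab : a ≤ b) (h : ∀ x, a ≤ x → x < b → x ∈ S) :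
    (cnt S a b : ℤ) = b - a := by
  rw [cnt, filter_true_of_mem (fun x hx => h x (mem_Ico.1 hx).1 (mem_Ico.1 hx).2), Int.card_Ico]
  omega

lemma cnt_empty {S : Set ℤ} {a b : ℤ} (h : ∀ x, a ≤ x → x < b → x ∉ S) : cnt S a b = 0 := by
  rw [cnt, card_eq_zero, filter_eq_empty_iff]
  exact fun x hx => h x (mem_Ico.1 hx).1 (mem_Ico.1 hx).2

/-- The window `L ∩ [x, b)`, by leading positions. -/
lemma finrank_inf_M {L : Submodule F (K F)} {b : ℤ} (hb : L ≤ N F b) (x : ℤ) :
    Module.finrank F (L ⊓ M F x : Submodule F (K F)) = cnt (minSet L) x b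
      ∧ FiniteDimensional F (L ⊓ M F x : Submodule F (K F)) := by
  suffices h : ∀ k : ℕ, Module.finrank F (L ⊓ M F (b - k) : Submodule F (K F))
      = cnt (minSet L) (b - k) b ∧ FiniteDimensional F (L ⊓ M F (b - k) : Submodule F (K F)) by
    rcases le_or_gt x b with hx | hx
    · have := h (b - x).toNat
      rwa [show b - ((b - x).toNat : ℤ) = x by omega] at this
    · have e : (L ⊓ M F x : Submodule F (K F)) = ⊥ := by
        rw [eq_bot_iff]
        intro v hv
        exact eq_zero_of_mem hx.le hv.2 (hb hv.1)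
      rw [e, cnt_empty fun y hy hy' => absurd hy' (by omega)]
      exact ⟨finrank_bot _ _, inferInstance⟩
  intro k
  induction k with
  | zero =>
    have e : (L ⊓ M F b : Submodule F (K F)) = ⊥ := by
      rw [eq_bot_iff]
      intro v hv
      exact eq_zero_of_mem le_rfl hv.2 (hb hv.1)
    rw [Nat.cast_zero, sub_zero, e, cnt_empty fun y hy hy' => absurd hy' (by omega)]
    exact ⟨finrank_bot _ _, inferInstance⟩
  | succ k ih =>
    set y : ℤ := b - (k + 1 : ℕ) with hy
    rw [show b - (k : ℤ) = y + 1 by omega] at ih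
    obtain ⟨ih, hfd⟩ := ih
    have hcnt : cnt (minSet L) y b = (if y ∈ minSet L then 1 else 0) + cnt (minSet L) (y + 1) b := by
      rw [cnt_add _ (show y ≤ y + 1 by omega) (by omega)]
      congr 1
      have : Finset.Ico y (y + 1) = {y} := by ext z; simp; omega
      rw [cnt, this, filter_singleton]
      split_ifs <;> simp
    rw [hcnt]
    by_cases hmem : y ∈ minSet L
    · obtain ⟨e, he, he1, heM⟩ := exists_lead hmem
      have hne : e ≠ 0 := fun h => by simp [h] at he1
      have hsup : (L ⊓ M F y : Submodule F (K F)) = (L ⊓ M F (y + 1)) ⊔ F ∙ e := by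
        refine le_antisymm (fun v hv => ?_) (sup_le (inf_le_inf_left _ (M_anti (by omega)))
          ((Submodule.span_singleton_le_iff_mem _ _).2 ⟨he, heM⟩))
        refine Submodule.mem_sup.2 ⟨v - v y • e, ⟨L.sub_mem hv.1 (L.smul_mem _ he),
          mem_M.2 fun z hz => ?_⟩, v y • e, Submodule.smul_mem _ _ (Submodule.mem_span_singleton_self e),
          by simp⟩
        rcases lt_or_eq_of_le (show z ≤ y by omega) with h | h
        · simp [mem_M.1 hv.2 z h, mem_M.1 heM z h]
        · simp [h, he1]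
      have hinf : (L ⊓ M F (y + 1)) ⊓ (F ∙ e) = ⊥ := by
        rw [eq_bot_iff]
        rintro v ⟨hv1, hv2⟩
        obtain ⟨c, rfl⟩ := Submodule.mem_span_singleton.1 hv2
        have hc := mem_M.1 hv1.2 y (by omega)
        simp only [Finsupp.smul_apply, he1, smul_eq_mul, mul_one] at hc
        simp [hc]
      rw [hsup]
      refine ⟨?_, inferInstance⟩
      have h1 := Submodule.finrank_sup_add_finrank_inf_eq (L ⊓ M F (y + 1)) (F ∙ e)
      rw [hinf, finrank_bot, finrank_span_singleton hne, ih] at h1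
      rw [if_pos hmem]; omega
    · have e : (L ⊓ M F y : Submodule F (K F)) = L ⊓ M F (y + 1) := by
        refine le_antisymm (fun v hv => ⟨hv.1, mem_M.2 fun z hz => ?_⟩)
          (inf_le_inf_left _ (M_anti (by omega)))
        rcases lt_or_eq_of_le (show z ≤ y by omega) with h | h
        · exact mem_M.1 hv.2 z h
        · rw [h]; by_contra h'
          exact hmem ⟨v, hv.1, h', hv.2⟩
      rw [e, if_neg hmem, zero_add]
      exact ⟨ih, hfd⟩

/-- The window `L ∩ [a, x)`, by highest positions. -/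
lemma finrank_inf_M_inf_N {L : Submodule F (K F)} {a : ℤ} (ha : N F a ≤ L) (k : ℕ) :
    Module.finrank F ((L ⊓ M F a) ⊓ N F (a + k) : Submodule F (K F))
      = cnt (maxSet L) a (a + k)
      ∧ FiniteDimensional F ((L ⊓ M F a) ⊓ N F (a + k) : Submodule F (K F)) := by
  induction k with
  | zero =>
    have e : ((L ⊓ M F a) ⊓ N F a : Submodule F (K F)) = ⊥ := by
      rw [eq_bot_iff]
      intro v hv
      exact eq_zero_of_mem le_rfl hv.1.2 hv.2
    rw [Nat.cast_zero, add_zero, e, cnt_empty fun y hy hy' => absurd hy' (by omega)]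
    exact ⟨finrank_bot _ _, inferInstance⟩
  | succ k ih =>
    set y : ℤ := a + k with hy
    have hy1 : a + ((k + 1 : ℕ) : ℤ) = y + 1 := by omega
    rw [hy1]
    obtain ⟨ih, hfd⟩ := ih
    have hcnt : cnt (maxSet L) a (y + 1) = cnt (maxSet L) a y + if y ∈ maxSet L then 1 else 0 := by
      rw [cnt_add _ (show a ≤ y by omega) (show y ≤ y + 1 by omega)]
      congr 1
      have : Finset.Ico y (y + 1) = {y} := by ext z; simp; omega
      rw [cnt, this, filter_singleton]
      split_ifs <;> simp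
    rw [hcnt]
    by_cases hmem : y ∈ maxSet L
    · obtain ⟨v₀, hv₀, hy0, hN0⟩ := hmem
      -- move the representative into the window
      set low : K F := v₀.filter (fun z => z < a) with hlow
      have hlowmem : low ∈ L := ha (mem_N.2 fun z hz => Finsupp.filter_apply_neg _ _ (by omega))
      set e : K F := (v₀ y)⁻¹ • (v₀ - low) with hedef
      have hlowy : low y = 0 := Finsupp.filter_apply_neg _ _ (by omega)
      have he1 : e y = 1 := by simp [hedef, hlowy, hy0]
      have heL : e ∈ L := L.smul_mem _ (L.sub_mem hv₀ hlowmem)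
      have heM : e ∈ M F a := mem_M.2 fun z hz => by
        simp [hedef, hlow, Finsupp.filter_apply_pos (fun z => z < a) v₀ hz]
      have heN : e ∈ N F (y + 1) := mem_N.2 fun z hz => by
        have : low z = 0 := Finsupp.filter_apply_neg _ _ (by omega)
        simp [hedef, this, mem_N.1 hN0 z hz]
      have hne : e ≠ 0 := fun h => by simp [h] at he1
      have hsup : ((L ⊓ M F a) ⊓ N F (y + 1) : Submodule F (K F))
          = ((L ⊓ M F a) ⊓ N F y) ⊔ F ∙ e := by
        refine le_antisymm (fun v hv => ?_) (sup_le (inf_le_inf_left _ (N_mono (by omega)))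
          ((Submodule.span_singleton_le_iff_mem _ _).2 ⟨⟨heL, heM⟩, heN⟩))
        refine Submodule.mem_sup.2 ⟨v - v y • e, ⟨⟨L.sub_mem hv.1.1 (L.smul_mem _ heL),
          Submodule.sub_mem _ hv.1.2 (Submodule.smul_mem _ _ heM)⟩, mem_N.2 fun z hz => ?_⟩,
          v y • e, Submodule.smul_mem _ _ (Submodule.mem_span_singleton_self e), by simp⟩
        rcases lt_or_eq_of_le hz with h | h
        · simp [mem_N.1 hv.2 z (by omega), mem_N.1 heN z (by omega)]
        · simp [← h, he1]
      have hinf : ((L ⊓ M F a) ⊓ N F y) ⊓ (F ∙ e) = ⊥ := by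
        rw [eq_bot_iff]
        rintro v ⟨hv1, hv2⟩
        obtain ⟨c, rfl⟩ := Submodule.mem_span_singleton.1 hv2
        have hc := mem_N.1 hv1.2 y le_rfl
        simp only [Finsupp.smul_apply, he1, smul_eq_mul, mul_one] at hc
        simp [hc]
      rw [hsup]
      refine ⟨?_, inferInstance⟩
      have h1 := Submodule.finrank_sup_add_finrank_inf_eq ((L ⊓ M F a) ⊓ N F y) (F ∙ e)
      rw [hinf, finrank_bot, finrank_span_singleton hne, ih] at h1
      rw [if_pos ⟨v₀, hv₀, hy0, hN0⟩]; omega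
    · have e : ((L ⊓ M F a) ⊓ N F (y + 1) : Submodule F (K F)) = (L ⊓ M F a) ⊓ N F y := by
        refine le_antisymm (fun v hv => ⟨hv.1, mem_N.2 fun z hz => ?_⟩)
          (inf_le_inf_left _ (N_mono (by omega)))
        rcases lt_or_eq_of_le hz with h | h
        · exact mem_N.1 hv.2 z (by omega)
        · rw [← h]; by_contra h'
          exact hmem ⟨v, hv.1.1, h', hv.2⟩
      rw [e, if_neg hmem, add_zero]
      exact ⟨ih, hfd⟩

/-- The index of a lattice: `a + dim (L / N a)`. -/
noncomputable def ind (L : Submodule F (K F)) : ℤ :=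
  ((minSet L ∩ Set.Ici 0).ncard : ℤ) - ((Set.Iio 0 \ minSet L).ncard : ℤ)

theorem ind_eq {L : Submodule F (K F)} {a b : ℤ} (h : Bdd L a b) :
    ind L = a + cnt (minSet L) a b := by
  set S := minSet L
  set c := min a 0
  set d := max b 0
  have hab := h.le
  have h1 : S ∩ Set.Ici 0 = ((Finset.Ico 0 d).filter (· ∈ S) : Set ℤ) := by
    ext x
    simp only [Set.mem_inter_iff, Set.mem_Ici, coe_filter, Set.mem_ofPred_eq, mem_Ico]
    exact ⟨fun ⟨hx, h0⟩ => ⟨⟨h0, by have := h.lt_of_minSet hx; omega⟩, hx⟩,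
      fun ⟨⟨h0, _⟩, hx⟩ => ⟨hx, h0⟩⟩
  have h2 : Set.Iio 0 \ S = ((Finset.Ico c 0).filter (· ∉ S) : Set ℤ) := by
    ext x
    simp only [Set.mem_diff, Set.mem_Iio, coe_filter, Set.mem_ofPred_eq, mem_Ico]
    refine ⟨fun ⟨h0, hx⟩ => ⟨⟨?_, h0⟩, hx⟩, fun ⟨⟨_, h0⟩, hx⟩ => ⟨h0, hx⟩⟩
    by_contra hc
    exact hx (h.mem_minSet (by omega))
  have h3 : (cnt S c d : ℤ) = (a - c) + cnt S a b := by
    have e1 : cnt S c d = cnt S c a + (cnt S a b + cnt S b d) := by
      rw [cnt_add S (show c ≤ a by omega) (show a ≤ d by omega), cnt_add S hab (show b ≤ d by omega)]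
    have e2 : (cnt S c a : ℤ) = a - c := cnt_full (by omega) fun x _ hx => h.mem_minSet hx
    have e3 : cnt S b d = 0 := cnt_empty fun x hx _ hS => by have := h.lt_of_minSet hS; omega
    omega
  have h4 : cnt S c d = cnt S c 0 + cnt S 0 d := cnt_add S (by omega) (by omega)
  have h5 : ((cnt S c 0 : ℕ) : ℤ) + ((Finset.Ico c 0).filter (· ∉ S)).card = -c := by
    rw [cnt, ← Nat.cast_add, card_filter_add_card_filter_not, Int.card_Ico]
    omega
  rw [ind, h1, h2, Set.ncard_coe_finset, Set.ncard_coe_finset]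
  change ((cnt S 0 d : ℕ) : ℤ) - _ = _
  omega

theorem ind_eq_maxSet {L : Submodule F (K F)} {a b : ℤ} (h : Bdd L a b) :
    ind L = a + cnt (maxSet L) a b := by
  have hab := h.le
  have h1 := (finrank_inf_M_inf_N h.1 (b - a).toNat).1
  rw [show a + ((b - a).toNat : ℤ) = b by omega] at h1
  rw [ind_eq h, ← h1, ← (finrank_inf_M h.2 a).1]
  have e : ((L ⊓ M F a) ⊓ N F b : Submodule F (K F)) = L ⊓ M F a :=
    inf_eq_left.2 fun v hv => h.2 hv.1
  rw [e]

/-- Lattices: bounded, stable under `1/t`. -/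
structure IsLat (n : ℕ) (L : Submodule F (K F)) : Prop where
  down : ∀ v ∈ L, sh F (-(n : ℤ)) v ∈ L
  bdd : ∃ a b, Bdd L a b

lemma IsLat.common {L L' : Submodule F (K F)} (h : IsLat n L) (h' : IsLat n L') :
    ∃ a b, Bdd L a b ∧ Bdd L' a b := by
  obtain ⟨a, b, hL⟩ := h.bdd
  obtain ⟨a', b', hL'⟩ := h'.bdd
  exact ⟨min a a', max b b', hL.mono (by omega) (by omega), hL'.mono (by omega) (by omega)⟩

/-- The index grows by the number of new leading positions. -/
theorem ind_add_cnt {L L' : Submodule F (K F)} {a b : ℤ} (h : Bdd L a b) (h' : Bdd L' a b)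
    (hle : L ≤ L') :
    ind L' = ind L + cnt (minSet L' \ minSet L) a b := by
  have key : cnt (minSet L') a b = cnt (minSet L) a b + cnt (minSet L' \ minSet L) a b := by
    rw [cnt, cnt, cnt, ← card_filter_add_card_filter_not
      (s := (Finset.Ico a b).filter (· ∈ minSet L')) (· ∈ minSet L), filter_filter, filter_filter]
    congr 1
    · refine congrArg card (filter_congr fun x _ => ⟨fun hx => hx.2, fun hx => ⟨minSet_mono hle hx, hx⟩⟩)
    · refine congrArg card ?_
      ext x
      simp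
  rw [ind_eq h, ind_eq h']
  omega

theorem ind_mono {L L' : Submodule F (K F)} (h : IsLat n L) (h' : IsLat n L') (hle : L ≤ L') :
    ind L ≤ ind L' := by
  obtain ⟨a, b, hL, hL'⟩ := h.common h'
  rw [ind_add_cnt hL hL' hle]; omega

/-- Nested lattices of equal index are equal. -/
theorem eq_of_le_of_ind_le {L L' : Submodule F (K F)} (h : IsLat n L) (h' : IsLat n L')
    (hle : L ≤ L') (hind : ind L' ≤ ind L) : L = L' := by
  obtain ⟨a, b, hL, hL'⟩ := h.common h'
  refine le_antisymm hle (le_of_minSet_subset hle hL'.2 fun x hx => ?_)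
  by_contra hx'
  have hxa : a ≤ x := by
    by_contra hh
    exact hx' (hL.mem_minSet (by omega))
  have : 0 < cnt (minSet L' \ minSet L) a b :=
    card_pos.2 ⟨x, by simp [hxa, hL'.lt_of_minSet hx, hx, hx']⟩
  have := ind_add_cnt hL hL' hle
  omega

/-- The translate of a space by `m`. -/
noncomputable abbrev shL (m : ℤ) (L : Submodule F (K F)) : Submodule F (K F) :=
  L.map (sh F m).toLinearMap

lemma mem_shL {m : ℤ} {L : Submodule F (K F)} {v : K F} : v ∈ shL m L ↔ sh F (-m) v ∈ L := by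
  simp only [shL, Submodule.mem_map, LinearEquiv.coe_coe]
  constructor
  · rintro ⟨w, hw, rfl⟩; rwa [sh_sh, neg_add_cancel, sh_zero]
  · exact fun h => ⟨_, h, by rw [sh_sh, add_neg_cancel, sh_zero]⟩

lemma shL_zero (L : Submodule F (K F)) : shL 0 L = L := by
  ext v; rw [mem_shL, neg_zero, sh_zero]

lemma shL_shL (a b : ℤ) (L : Submodule F (K F)) : shL a (shL b L) = shL (a + b) L := by
  ext v; rw [mem_shL, mem_shL, mem_shL, sh_sh, neg_add, add_comm (-a)]

lemma Bdd.shift {L : Submodule F (K F)} {a b : ℤ} (h : Bdd L a b) (m : ℤ) :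
    Bdd (shL m L) (a + m) (b + m) := by
  refine ⟨fun v hv => mem_shL.2 (h.1 ?_), fun v hv => ?_⟩
  · have := (sh_mem_N (m := -m)).2 hv
    rwa [add_neg_cancel_right] at this
  · have := (sh_mem_N (m := m)).2 (h.2 (mem_shL.1 hv))
    rwa [sh_sh, add_neg_cancel, sh_zero] at this

lemma IsLat.shift {L : Submodule F (K F)} (h : IsLat n L) (m : ℤ) : IsLat n (shL m L) := by
  obtain ⟨a, b, hL⟩ := h.bdd
  refine ⟨fun v hv => mem_shL.2 ?_, _, _, hL.shift m⟩
  have := h.down _ (mem_shL.1 hv)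
  rw [sh_sh] at this ⊢
  rwa [add_comm] at this

lemma mem_minSet_shL {m : ℤ} {L : Submodule F (K F)} {x : ℤ} :
    x ∈ minSet (shL m L) ↔ x - m ∈ minSet L := by
  constructor
  · rintro ⟨v, hv, h1, h2⟩
    refine ⟨_, mem_shL.1 hv, by rwa [sh_apply, sub_neg_eq_add, sub_add_cancel], ?_⟩
    exact (sh_mem_M (m := -m)).2 h2
  · rintro ⟨v, hv, h1, h2⟩
    refine ⟨sh F m v, mem_shL.2 (by rwa [sh_sh, neg_add_cancel, sh_zero]), by rwa [sh_apply], ?_⟩
    have := (sh_mem_M (m := m)).2 h2
    rwa [sub_add_cancel] at this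

lemma mem_maxSet_shL {m : ℤ} {L : Submodule F (K F)} {x : ℤ} :
    x ∈ maxSet (shL m L) ↔ x - m ∈ maxSet L := by
  constructor
  · rintro ⟨v, hv, h1, h2⟩
    refine ⟨_, mem_shL.1 hv, by rwa [sh_apply, sub_neg_eq_add, sub_add_cancel], ?_⟩
    rw [show x - m + 1 = x + 1 + -m by omega]
    exact (sh_mem_N (m := -m)).2 h2
  · rintro ⟨v, hv, h1, h2⟩
    refine ⟨sh F m v, mem_shL.2 (by rwa [sh_sh, neg_add_cancel, sh_zero]), by rwa [sh_apply], ?_⟩
    rw [show x + 1 = x - m + 1 + m by omega]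
    exact (sh_mem_N (m := m)).2 h2

theorem ind_shL {L : Submodule F (K F)} (h : IsLat n L) (m : ℤ) :
    ind (shL m L) = ind L + m := by
  obtain ⟨a, b, hL⟩ := h.bdd
  rw [ind_eq hL, ind_eq (hL.shift m)]
  have : cnt (minSet (shL m L)) (a + m) (b + m) = cnt (minSet L) a b := by
    rw [cnt, cnt]
    refine card_bij' (fun x _ => x - m) (fun x _ => x + m) ?_ ?_ (fun x _ => sub_add_cancel x m)
      (fun x _ => add_sub_cancel_right x m)
    · intro x hx
      simp only [coe_filter, Set.mem_ofPred_eq, mem_filter, mem_Ico, mem_minSet_shL] at hx ⊢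
      exact ⟨⟨by omega, by omega⟩, hx.2⟩
    · intro x hx
      simp only [coe_filter, Set.mem_ofPred_eq, mem_filter, mem_Ico, mem_minSet_shL] at hx ⊢
      exact ⟨⟨by omega, by omega⟩, by simpa using hx.2⟩
  rw [this]; ring

/-- `T L`. -/
noncomputable abbrev TL (n : ℕ) (L : Submodule F (K F)) : Submodule F (K F) := shL (n : ℤ) L

lemma IsLat.le_TL {L : Submodule F (K F)} (h : IsLat n L) : L ≤ TL n L :=
  fun _ hv => mem_shL.2 (h.down _ hv)

lemma shL_mono {L L' : Submodule F (K F)} (h : L ≤ L') (m : ℤ) : shL m L ≤ shL m L' :=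
  Submodule.map_mono h

/-- Translates of a lattice are nested. -/
lemma IsLat.shL_le_shL {L : Submodule F (K F)} (h : IsLat n L) {i j : ℤ} (hij : i ≤ j) :
    shL (i * n) L ≤ shL (j * n) L := by
  obtain ⟨k, rfl⟩ : ∃ k : ℕ, j = i + k := ⟨(j - i).toNat, by omega⟩
  induction k with
  | zero => simp
  | succ k ih =>
    refine (ih (by omega)).trans ?_
    rw [show (i + ((k + 1 : ℕ) : ℤ)) * (n : ℤ) = (i + (k : ℤ)) * n + n by push_cast; ring,
      ← shL_shL]
    exact shL_mono h.le_TL _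

lemma mem_minSet_sub {L : Submodule F (K F)} (h : IsLat n L) {x : ℤ} (hx : x ∈ minSet L) :
    x - n ∈ minSet L := by
  have := minSet_mono h.le_TL hx
  exact mem_minSet_shL.1 this

lemma mem_maxSet_sub {L : Submodule F (K F)} (h : IsLat n L) {x : ℤ} (hx : x ∈ maxSet L) :
    x - n ∈ maxSet L := by
  have := maxSet_mono h.le_TL hx
  exact mem_maxSet_shL.1 this

lemma Bdd_N (j : ℤ) : Bdd (N F j) j j := ⟨le_rfl, le_rfl⟩

lemma isLat_N (n : ℕ) (j : ℤ) : IsLat n (N F j) :=
  ⟨fun v hv => mem_N.2 fun x hx => by rw [sh_apply]; exact mem_N.1 hv _ (by omega), j, j, Bdd_N j⟩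

lemma minSet_N (j : ℤ) : minSet (N F j) = Set.Iio j :=
  Set.ext fun _ => ⟨fun hx => (Bdd_N j).lt_of_minSet hx, fun hx => (Bdd_N j).mem_minSet hx⟩

lemma maxSet_N (j : ℤ) : maxSet (N F j) = Set.Iio j :=
  Set.ext fun _ => ⟨fun hx => (Bdd_N j).lt_of_maxSet hx, fun hx => (Bdd_N j).mem_maxSet hx⟩

lemma ind_N (j : ℤ) : ind (N F j) = j := by
  rw [ind_eq (Bdd_N j), cnt_empty fun x h1 h2 => absurd h2 (by omega)]; simp

lemma shL_N (m j : ℤ) : shL m (N F j) = N F (j + m) := by
  ext v
  rw [mem_shL]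
  have := (sh_mem_N (F := F) (m := -m) (j := j + m) (v := v))
  rwa [add_neg_cancel_right] at this

/-- In general position with respect to the standard flag. -/
def Opp (L : Submodule F (K F)) : Prop := minSet L = Set.Iio (ind L)

theorem opp_iff {L : Submodule F (K F)} (h : IsLat n L) : Opp L ↔ L ⊓ M F (ind L) = ⊥ := by
  obtain ⟨a, b, hL⟩ := h.bdd
  constructor
  · intro hS
    rw [eq_bot_iff]
    intro v hv
    by_contra hne
    have hne' : v.support.Nonempty := Finsupp.support_nonempty_iff.2 hne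
    have hx := Finsupp.mem_support_iff.1 (v.support.min'_mem hne')
    have hmem : v.support.min' hne' ∈ minSet L :=
      ⟨v, hv.1, hx, mem_M.2 fun y hy => by
        by_contra h'
        exact absurd (v.support.min'_le y (Finsupp.mem_support_iff.2 h')) (not_le.2 hy)⟩
    rw [hS] at hmem
    exact hx (mem_M.1 hv.2 _ hmem)
  · intro hbot
    have hsub : minSet L ⊆ Set.Iio (ind L) := by
      intro x hx
      by_contra hge
      obtain ⟨v, hv, h1, h2⟩ := hx
      have : v ∈ L ⊓ M F (ind L) := ⟨hv, M_anti (not_lt.1 hge) h2⟩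
      rw [hbot] at this
      exact h1 (by rw [(Submodule.mem_bot F).1 this]; rfl)
    refine Set.Subset.antisymm hsub fun x hx => ?_
    by_contra hx'
    simp only [Set.mem_Iio] at hx
    have hxa : a ≤ x := by
      by_contra hh
      exact hx' (hL.mem_minSet (by omega))
    have e := ind_eq hL
    have hlt : ((Finset.Ico a b).filter (· ∈ minSet L)).card < ((Finset.Ico a (ind L))).card := by
      refine card_lt_card (Finset.ssubset_iff_of_subset ?_ |>.2 ⟨x, mem_Ico.2 ⟨hxa, hx⟩, ?_⟩)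
      · intro y hy
        rw [mem_filter, mem_Ico] at hy
        exact mem_Ico.2 ⟨hy.1.1, hsub hy.2⟩
      · simp [hx']
    rw [Int.card_Ico] at hlt
    unfold cnt at e
    omega

theorem eq_N_of_maxSet {L : Submodule F (K F)} (h : IsLat n L) (hS : maxSet L = Set.Iio (ind L)) :
    L = N F (ind L) := by
  have hle : L ≤ N F (ind L) := by
    intro v hv
    refine mem_N.2 fun y hy => ?_
    by_contra hne
    have hne' : v.support.Nonempty := ⟨y, Finsupp.mem_support_iff.2 hne⟩
    set x := v.support.max' hne'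
    have hxy : y ≤ x := v.support.le_max' y (Finsupp.mem_support_iff.2 hne)
    have hx : x ∈ maxSet L := ⟨v, hv, Finsupp.mem_support_iff.1 (v.support.max'_mem hne'),
      mem_N.2 fun z hz => by
        by_contra h'
        have := v.support.le_max' z (Finsupp.mem_support_iff.2 h')
        omega⟩
    rw [hS, Set.mem_Iio] at hx
    omega
  exact eq_of_le_of_ind_le h (isLat_N n _) hle (by rw [ind_N])

/-- Lattices. -/
abbrev Lat (F : Type) [Field F] (n : ℕ) : Type := {L : Submodule F (K F) // IsLat n L}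

/-- Vertices: lattices up to translation, normalised by their index. -/
abbrev Vx (F : Type) [Field F] (n : ℕ) : Type :=
  {x : Lat F n // 0 ≤ ind x.1 ∧ ind x.1 < n}

/-- The space of a vertex. -/
abbrev sp (v : Vx F n) : Submodule F (K F) := v.1.1

/-- Two vertices lie in a common periodic chain. -/
def Adj (v w : Vx F n) : Prop :=
  (sp v ≤ sp w ∧ sp w ≤ TL n (sp v)) ∨ (sp w ≤ sp v ∧ sp v ≤ TL n (sp w))

/-- Simplices. -/
def Simplex (σ : Finset (Vx F n)) : Prop := ∀ v ∈ σ, ∀ w ∈ σ, Adj v w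

lemma Adj.symm {v w : Vx F n} (h : Adj v w) : Adj w v := h.elim Or.inr Or.inl

lemma Adj.refl (v : Vx F n) : Adj v v := Or.inl ⟨le_rfl, v.1.2.le_TL⟩

lemma Simplex.mono {σ τ : Finset (Vx F n)} (h : Simplex σ) (hs : τ ⊆ σ) : Simplex τ :=
  fun v hv w hw => h v (hs hv) w (hs hw)

theorem Adj.eq_of_ind_eq {v w : Vx F n} (h : Adj v w) (he : ind (sp v) = ind (sp w)) : v = w := by
  rcases h with h | h
  · exact Subtype.ext (Subtype.ext (eq_of_le_of_ind_le v.1.2 w.1.2 h.1 he.ge))
  · exact Subtype.ext (Subtype.ext (eq_of_le_of_ind_le w.1.2 v.1.2 h.1 he.le).symm)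

theorem Adj.le {v w : Vx F n} (h : Adj v w) (he : ind (sp v) ≤ ind (sp w)) :
    sp v ≤ sp w ∧ sp w ≤ TL n (sp v) := by
  rcases h with h | h
  · exact h
  · have := ind_mono w.1.2 v.1.2 h.1
    obtain rfl := Adj.eq_of_ind_eq (Or.inr h) (le_antisymm he this)
    exact ⟨le_rfl, v.1.2.le_TL⟩

/-- Adjacent vertices have comparable translates. -/
theorem Adj.chain {v w : Vx F n} (h : Adj v w) (i j : ℤ) :
    shL (i * n) (sp v) ≤ shL (j * n) (sp w) ∨ shL (j * n) (sp w) ≤ shL (i * n) (sp v) := by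
  have key : ∀ (a b : Vx F n), sp a ≤ sp b → sp b ≤ TL n (sp a) → ∀ i j : ℤ,
      shL (i * n) (sp a) ≤ shL (j * n) (sp b) ∨ shL (j * n) (sp b) ≤ shL (i * n) (sp a) := by
    intro a b hab hba i j
    rcases le_or_gt i j with hij | hij
    · exact Or.inl ((a.1.2.shL_le_shL hij).trans (shL_mono hab _))
    · refine Or.inr (((shL_mono hba _).trans (le_of_eq ?_)).trans
        (a.1.2.shL_le_shL (show j + 1 ≤ i by omega)))
      rw [TL, shL_shL, add_mul, one_mul]
  rcases h with ⟨h1, h2⟩ | ⟨h1, h2⟩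
  · exact key v w h1 h2 i j
  · exact (key w v h1 h2 j i).symm

theorem Simplex.ind_injOn {σ : Finset (Vx F n)} (h : Simplex σ) :
    Set.InjOn (fun v : Vx F n => ind (sp v)) σ :=
  fun v hv w hw e => (h v hv w hw).eq_of_ind_eq e

theorem Simplex.card_le {σ : Finset (Vx F n)} (h : Simplex σ) : σ.card ≤ n := by
  calc σ.card = (σ.image fun v : Vx F n => ind (sp v)).card := (card_image_of_injOn h.ind_injOn).symm
    _ ≤ (Finset.Ico (0 : ℤ) n).card := card_le_card fun x hx => by
        obtain ⟨v, -, rfl⟩ := mem_image.1 hx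
        exact mem_Ico.2 ⟨v.2.1, v.2.2⟩
    _ = n := by simp

/-- The simplices of the opposition complex `X~`. -/
def XSimplex (σ : Finset (Vx F n)) : Prop := Simplex σ ∧ ∀ v ∈ σ, Opp (sp v)

end Vale.Agent.P067.Top.Lat
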