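import Vale.Agent.P067.Top.Chain

/-!
# P067 topology: the join lemma and its corollaries, transport along injective maps
-/

namespace Vale.Agent.P067.Top

open Finset
open scoped Classical

variable {V W : Type}

/-- Sets whose two parts (inside and outside `S`) lie in `A` and `B`. -/
def join (S : Set V) (A B : Set (Finset V)) : Set (Finset V) :=
  {σ | σ.filter (· ∈ S) ∈ A ∧ σ.filter (· ∉ S) ∈ B}

lemma convex_join (S : Set V) {A B : Set (Finset V)} (hA : Convex A) (hB : Convex B) :
    Convex (join S A B) := fun _ hσ _ hτ _ h1 h2 =>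
  ⟨hA _ hσ.1 _ hτ.1 _ (filter_subset_filter _ h1) (filter_subset_filter _ h2),
    hB _ hσ.2 _ hτ.2 _ (filter_subset_filter _ h1) (filter_subset_filter _ h2)⟩

lemma down_join (S : Set V) {A B : Set (Finset V)} (hA : Down A) (hB : Down B) :
    Down (join S A B) := fun _ hσ _ hτ =>
  ⟨hA _ hσ.1 _ (filter_subset_filter _ hτ), hB _ hσ.2 _ (filter_subset_filter _ hτ)⟩

/-- The product of chains. -/
noncomputable def mul : Chn V →ₗ[ZMod 2] Chn V →ₗ[ZMod 2] Chn V :=
  ext' fun a => ext' fun b => basic (a ∪ b)

lemma mul_basic (a b : Finset V) : mul (basic a) (basic b) = basic (a ∪ b) := by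
  rw [mul, ext'_basic, ext'_basic]

/-- The join lemma. -/
theorem exact_join (S : Set V) {A B : Set (Finset V)} (hA : Convex A) (hB : Convex B)
    (ha : ∀ a ∈ A, ∀ v ∈ a, v ∈ S) (hb : ∀ b ∈ B, ∀ v ∈ b, v ∉ S) {a₀ b₀ : ℕ}
    (exA : ∀ k < a₀, Exact A k) (exB : ∀ k < b₀, Exact B k) :
    ∀ k < a₀ + b₀, Exact (join S A B) k := by
  obtain ⟨HA, hHA, idA⟩ := exists_homotopy hA a₀ exA
  obtain ⟨HB, hHB, idB⟩ := exists_homotopy hB b₀ exB
  set P := join S A B
  have hP : Convex P := convex_join S hA hB
  have disj : ∀ a ∈ A, ∀ b ∈ B, Disjoint a b := fun a h b h' =>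
    disjoint_left.2 fun v hv hv' => hb b h' v hv' (ha a h v hv)
  have fS : ∀ a ∈ A, ∀ b ∈ B, (a ∪ b).filter (· ∈ S) = a := by
    intro a h b h'
    rw [filter_union, filter_true_of_mem (ha a h), filter_false_of_mem (hb b h'), union_empty]
  have fN : ∀ a ∈ A, ∀ b ∈ B, (a ∪ b).filter (· ∉ S) = b := by
    intro a h b h'
    rw [filter_union, filter_false_of_mem (fun v hv => not_not.2 (ha a h v hv)),
      filter_true_of_mem (hb b h'), empty_union]
  have memP : ∀ a ∈ A, ∀ b ∈ B, a ∪ b ∈ P := fun a h b h' =>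
    ⟨(fS a h b h').symm ▸ h, (fN a h b h').symm ▸ h'⟩
  -- the Leibniz rule
  have leib₀ : ∀ a ∈ A, ∀ b ∈ B, bdP P (basic (a ∪ b)) =
      mul (bdP A (basic a)) (basic b) + mul (basic a) (bdP B (basic b)) := by
    intro a h b h'
    rw [bdP_basic, sum_union (disj a h b h'), bdP_basic, bdP_basic, map_sum, map_sum,
      LinearMap.sum_apply]
    congr 1
    · refine sum_congr rfl fun v hv => ?_
      have e : (a ∪ b).erase v = a.erase v ∪ b := by
        rw [erase_union_distrib, erase_eq_of_notMem fun hv' => hb b h' v hv' (ha a h v hv)]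
      by_cases hh : a.erase v ∈ A
      · rw [if_pos hh, if_pos (e ▸ memP _ hh b h'), e, mul_basic]
      · rw [if_neg hh, map_zero, LinearMap.zero_apply, if_neg]
        intro hin
        apply hh
        have h1 := hin.1
        rwa [e, filter_union, filter_true_of_mem fun w hw => ha a h w (mem_of_mem_erase hw),
          filter_false_of_mem (hb b h'), union_empty] at h1
    · refine sum_congr rfl fun v hv => ?_
      have e : (a ∪ b).erase v = a ∪ b.erase v := by
        rw [erase_union_distrib, erase_eq_of_notMem fun hv' => hb b h' v hv (ha a h v hv')]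
      by_cases hh : b.erase v ∈ B
      · rw [if_pos hh, if_pos (e ▸ memP a h _ hh), e, mul_basic]
      · rw [if_neg hh, map_zero, if_neg]
        intro hin
        apply hh
        have h1 := hin.2
        rwa [e, filter_union, filter_false_of_mem fun w hw => not_not.2 (ha a h w hw),
          filter_true_of_mem fun w hw => hb b h' w (mem_of_mem_erase hw), empty_union] at h1
  have leib : ∀ {i j : ℕ} {x y : Chn V}, x ∈ piece A i → y ∈ piece B j →
      bdP P (mul x y) = mul (bdP A x) y + mul x (bdP B y) := by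
    intro i j x y hx hy
    refine eq_on_piece ((bdP P).comp (mul x)) (mul (bdP A x) + (mul x).comp (bdP B)) ?_ hy
    intro b hb' _
    exact eq_on_piece ((bdP P).comp (mul.flip (basic b)))
      ((mul.flip (basic b)).comp (bdP A) + mul.flip (bdP B (basic b)))
      (fun a ha' _ => by simpa [mul_basic] using leib₀ a ha' b hb') hx
  -- the homotopy
  let PA : Chn V →ₗ[ZMod 2] Chn V := LinearMap.id + (bdP A).comp HA + HA.comp (bdP A)
  let G : Chn V →ₗ[ZMod 2] Chn V := ext' fun σ =>
    mul (HA (basic (σ.filter (· ∈ S)))) (basic (σ.filter (· ∉ S))) +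
      mul (PA (basic (σ.filter (· ∈ S)))) (HB (basic (σ.filter (· ∉ S))))
  have G_mul : ∀ {i j : ℕ} {x y : Chn V}, x ∈ piece A i → y ∈ piece B j →
      G (mul x y) = mul (HA x) y + mul (PA x) (HB y) := by
    intro i j x y hx hy
    refine eq_on_piece (G.comp (mul x)) (mul (HA x) + (mul (PA x)).comp HB) ?_ hy
    intro b hb' _
    refine eq_on_piece (G.comp (mul.flip (basic b)))
      ((mul.flip (basic b)).comp HA + (mul.flip (HB (basic b))).comp PA) ?_ hx
    intro a ha' _
    simp only [LinearMap.comp_apply, LinearMap.flip_apply, LinearMap.add_apply, mul_basic, G,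
      ext'_basic, fS a ha' b hb', fN a ha' b hb']
  have Hbd : ∀ a, HA (bdP A (basic a)) ∈ piece A a.card := by
    intro a
    rcases Nat.eq_zero_or_pos a.card with h0 | h0
    · rw [card_eq_zero] at h0
      simp [h0, bdP_basic]
    obtain ⟨m, hm⟩ : ∃ m, a.card = m + 1 := ⟨a.card - 1, by omega⟩
    rw [hm]
    refine piece_induction (motive := fun x => HA x ∈ piece A (m + 1))
      (bdP_basic_mem (P := A) a hm) (by simp) (fun x y hx hy => by simpa using add_mem hx hy) ?_
    exact fun ρ _ hρ => hρ ▸ hHA ρ
  have PA_mem : ∀ a ∈ A, PA (basic a) ∈ piece A a.card := fun a h =>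
    add_mem (add_mem (basic_mem h) (bdP_mem (hHA a))) (Hbd a)
  have PA_comm : ∀ a ∈ A, bdP A (PA (basic a)) = PA (bdP A (basic a)) := by
    intro a h
    simp only [PA, LinearMap.add_apply, LinearMap.comp_apply, LinearMap.id_apply, map_add,
      bdP_bdP hA (hHA a), bdP_bdP_basic hA h, map_zero, add_zero]
  have key : ∀ a ∈ A, ∀ b ∈ B, a.card < a₀ ∨ b.card < b₀ →
      bdP P (G (basic (a ∪ b))) + G (bdP P (basic (a ∪ b))) = basic (a ∪ b) := by
    intro a h b h' hlt
    have hGab := G_mul (basic_mem h) (basic_mem h')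
    rw [mul_basic] at hGab
    have e1 : G (mul (bdP A (basic a)) (basic b)) =
        mul (HA (bdP A (basic a))) (basic b) + mul (PA (bdP A (basic a))) (HB (basic b)) := by
      rcases Nat.eq_zero_or_pos a.card with h0 | h0
      · rw [card_eq_zero] at h0
        simp [h0, bdP_basic]
      exact G_mul (bdP_basic_mem (k := a.card - 1) a (by omega)) (basic_mem h')
    have e2 : G (mul (basic a) (bdP B (basic b))) =
        mul (HA (basic a)) (bdP B (basic b)) + mul (PA (basic a)) (HB (bdP B (basic b))) := by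
      rcases Nat.eq_zero_or_pos b.card with h0 | h0
      · rw [card_eq_zero] at h0
        simp [h0, bdP_basic]
      exact G_mul (basic_mem h) (bdP_basic_mem (k := b.card - 1) b (by omega))
    rw [hGab, leib₀ a h b h', map_add, map_add, leib (hHA a) (basic_mem h'),
      leib (PA_mem a h) (hHB b), PA_comm a h, e1, e2]
    have hid : mul (bdP A (HA (basic a))) (basic b) + mul (HA (bdP A (basic a))) (basic b) +
        (mul (PA (basic a)) (bdP B (HB (basic b))) + mul (PA (basic a)) (HB (bdP B (basic b)))) =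
        basic (a ∪ b) := by
      by_cases hlA : a.card < a₀
      · have hz : PA (basic a) = 0 := by
          simp only [PA, LinearMap.add_apply, LinearMap.comp_apply, LinearMap.id_apply]
          rw [add_assoc, idA a h hlA, two_zero]
        rw [hz, map_zero, LinearMap.zero_apply, LinearMap.zero_apply, add_zero, add_zero,
          ← LinearMap.add_apply, ← map_add, idA a h hlA, mul_basic]
      · rw [← map_add (mul (PA (basic a))), idB b h' (hlt.resolve_left hlA)]
        simp only [PA, LinearMap.add_apply, LinearMap.comp_apply, LinearMap.id_apply, map_add,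
          mul_basic]
        abel_nf
        simp [two_smul, two_zero]
    have c1 := two_zero (mul (HA (basic a)) (bdP B (basic b)))
    have c2 := two_zero (mul (PA (bdP A (basic a))) (HB (basic b)))
    linear_combination (norm := module) hid + c1 + c2
  intro k hk z hz hc
  refine ⟨G z, ?_, ?_⟩
  · refine piece_induction (motive := fun x => G x ∈ piece P (k + 1)) hz (by simp)
      (fun x y hx hy => by simpa using add_mem hx hy) ?_
    intro σ hσ hσk
    simp only [G, ext'_basic]
    have mm : ∀ {i j : ℕ} {x y : Chn V}, x ∈ piece A i → y ∈ piece B j → i + j = k + 1 →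
        mul x y ∈ piece P (k + 1) := by
      intro i j x y hx hy hij
      refine piece_induction (motive := fun x => mul x y ∈ piece P (k + 1)) hx (by simp)
        (fun x x' hx hx' => by simpa using add_mem hx hx') ?_
      intro a haA hai
      refine piece_induction (motive := fun y => mul (basic a) y ∈ piece P (k + 1)) hy (by simp)
        (fun y y' hy hy' => by simpa using add_mem hy hy') ?_
      intro b hbB hbj
      rw [mul_basic]
      have hc' : (a ∪ b).card = k + 1 := by
        rw [card_union_of_disjoint (disj a haA b hbB)]; omega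
      exact hc' ▸ basic_mem (memP a haA b hbB)
    have hsplit := card_filter_add_card_filter_not (s := σ) (p := (· ∈ S))
    refine add_mem (mm (hHA _) (basic_mem hσ.2) ?_) (mm (PA_mem _ hσ.1) (hHB _) ?_) <;> omega
  · have e := eq_on_piece ((bdP P).comp G + G.comp (bdP P)) LinearMap.id ?_ hz
    · simpa [hc] using e
    intro σ hσ hσk
    have hsplit := card_filter_add_card_filter_not (s := σ) (p := (· ∈ S))
    have hu : σ.filter (· ∈ S) ∪ σ.filter (· ∉ S) = σ := filter_union_filter_not_eq _ σ
    have := key _ hσ.1 _ hσ.2 (by omega)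
    rw [hu] at this
    exact this

/-- A family `{R}` is exact below the size of `R`. -/
lemma exact_singleton (R : Finset V) : ∀ k < R.card, Exact ({R} : Set (Finset V)) k := by
  intro k hk
  exact exact_of_none fun σ hσ h => by rw [Set.mem_singleton_iff] at hσ; subst hσ; omega

lemma convex_singleton (R : Finset V) : Convex ({R} : Set (Finset V)) := by
  intro σ hσ τ hτ ρ h1 h2
  rw [Set.mem_singleton_iff] at *
  subst hσ hτ
  exact Subset.antisymm h2 h1

/-- A segment `{∅, {e}}` is exact everywhere. -/
lemma exact_point (e : V) (k : ℕ) : Exact ({∅, {e}} : Set (Finset V)) k := by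
  set A : Set (Finset V) := {∅, {e}}
  have bde : bdP A (basic {e}) = basic ∅ := by
    simp [bdP_basic, A]
  intro z hz hc
  rcases k with - | k
  · refine ⟨ext' (fun _ => basic {e}) z, ?_, ?_⟩
    · refine piece_induction (motive := fun x => ext' (fun _ => basic {e}) x ∈ piece A 1) hz
        (by simp) (fun x y hx hy => by simpa using add_mem hx hy) ?_
      intro σ _ _
      rw [ext'_basic]
      exact basic_mem (P := A) (σ := {e}) (by simp [A])
    · refine eq_on_piece ((bdP A).comp (ext' fun _ => basic {e})) LinearMap.id ?_ hz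
      intro σ _ hσk
      rw [card_eq_zero] at hσk
      simp only [LinearMap.comp_apply, ext'_basic, LinearMap.id_apply, bde, hσk]
  · refine ⟨0, zero_mem _, ?_⟩
    rw [map_zero]
    symm
    have e1 : ext' (fun _ => basic {e}) (bdP A z) = z := by
      refine eq_on_piece ((ext' fun _ => basic {e}).comp (bdP A)) LinearMap.id ?_ hz
      intro σ hσ hσk
      rcases hσ with rfl | rfl
      · simp at hσk
      · simp only [LinearMap.comp_apply, bde, ext'_basic, LinearMap.id_apply]
    rw [hc, map_zero] at e1
    exact e1.symm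

/-- A cone is exact in every degree. -/
theorem exact_cone {P : Set (Finset V)} (hP : Convex P) (e : V)
    (hins : ∀ σ ∈ P, insert e σ ∈ P) (hera : ∀ σ ∈ P, σ.erase e ∈ P) (k : ℕ) : Exact P k := by
  set B : Set (Finset V) := {σ | σ ∈ P ∧ e ∉ σ}
  set A : Set (Finset V) := {∅, {e}}
  have hA : Convex A := by
    intro σ _ τ hτ ρ _ h2
    rcases hτ with rfl | rfl
    · exact Or.inl (subset_empty.1 h2)
    · exact subset_singleton_iff.1 h2
  have hB : Convex B := fun σ hσ τ hτ ρ h1 h2 => ⟨hP σ hσ.1 τ hτ.1 ρ h1 h2, fun h => hτ.2 (h2 h)⟩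
  have e' : P = join {e} A B := by
    ext σ
    simp only [join, Set.mem_singleton_iff, Set.mem_ofPred_eq, B, A, mem_filter, not_true_eq_false,
      and_false, not_false_eq_true, and_true, Set.mem_insert_iff]
    rw [filter_ne' σ e, filter_eq' σ e]
    constructor
    · intro h
      refine ⟨?_, hera σ h⟩
      split_ifs <;> simp
    · rintro ⟨-, h⟩
      by_cases he : e ∈ σ
      · simpa [insert_erase he] using hins _ h
      · rwa [erase_eq_of_notMem he] at h
  rw [e']
  refine exact_join {e} hA hB ?_ ?_ (a₀ := k + 1) (b₀ := 0) (fun j _ => exact_point e j)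
    (fun j hj => absurd hj (Nat.not_lt_zero j)) k (by omega)
  · rintro a (rfl | rfl) <;> simp
  · exact fun b hb v hv hve => hb.2 (Set.mem_singleton_iff.1 hve ▸ hv)

/-- Transport along a map which is injective on the vertices involved. -/
theorem exact_image {f : V → W} {P : Set (Finset V)} {Q : Set (Finset W)} (U : Set V)
    (hf : Set.InjOn f U) (hU : ∀ σ ∈ P, ↑σ ⊆ U)
    (hPQ : ∀ σ : Finset V, ↑σ ⊆ U → (σ.image f ∈ Q ↔ σ ∈ P))
    (hsurj : ∀ τ ∈ Q, ∃ σ : Finset V, ↑σ ⊆ U ∧ σ.image f = τ)
    {k : ℕ} (hex : Exact Q k) : Exact P k := by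
  let f' : Chn V →ₗ[ZMod 2] Chn W := ext' fun σ => basic (σ.image f)
  let back : Finset W → Finset V := fun τ => if h : τ ∈ Q then (hsurj τ h).choose else ∅
  let g : Chn W →ₗ[ZMod 2] Chn V := ext' fun τ => basic (back τ)
  have card_im : ∀ σ ∈ P, (σ.image f).card = σ.card := fun σ hσ =>
    card_image_of_injOn (hf.mono (hU σ hσ))
  have back_spec : ∀ τ ∈ Q, ↑(back τ) ⊆ U ∧ (back τ).image f = τ := by
    intro τ hτ
    simp only [back, dif_pos hτ]
    exact (hsurj τ hτ).choose_spec
  have back_P : ∀ τ ∈ Q, back τ ∈ P := fun τ hτ =>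
    (hPQ _ (back_spec τ hτ).1).1 ((back_spec τ hτ).2.symm ▸ hτ)
  have back_im : ∀ σ ∈ P, back (σ.image f) = σ := by
    intro σ hσ
    have hq := (hPQ σ (hU σ hσ)).2 hσ
    obtain ⟨h1, h2⟩ := back_spec _ hq
    have := hU σ hσ
    ext v
    constructor
    · intro hv
      have : f v ∈ σ.image f := h2 ▸ mem_image_of_mem f hv
      obtain ⟨u, hu, hfu⟩ := mem_image.1 this
      rwa [← hf (hU σ hσ hu) (h1 hv) hfu]
    · intro hv
      have : f v ∈ (back (σ.image f)).image f := h2.symm ▸ mem_image_of_mem f hv
      obtain ⟨u, hu, hfu⟩ := mem_image.1 this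
      rwa [← hf (h1 hu) (hU σ hσ hv) hfu]
  have comm : ∀ σ ∈ P, bdP Q (f' (basic σ)) = f' (bdP P (basic σ)) := by
    intro σ hσ
    simp only [f', ext'_basic, bdP_basic, map_sum]
    rw [sum_image fun a ha b hb h => hf (hU σ hσ ha) (hU σ hσ hb) h]
    refine sum_congr rfl fun v hv => ?_
    have e : (σ.image f).erase (f v) = (σ.erase v).image f := by
      ext w
      simp only [mem_erase, mem_image]
      constructor
      · rintro ⟨hne, u, hu, rfl⟩
        exact ⟨u, ⟨fun h => hne (h ▸ rfl), hu⟩, rfl⟩
      · rintro ⟨u, ⟨hne, hu⟩, rfl⟩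
        exact ⟨fun h => hne (hf (hU σ hσ hu) (hU σ hσ hv) h), u, hu, rfl⟩
    have hsub : ↑(σ.erase v) ⊆ U := fun u hu => hU σ hσ (mem_of_mem_erase hu)
    rw [e]
    by_cases hh : σ.erase v ∈ P
    · rw [if_pos hh, if_pos ((hPQ _ hsub).2 hh), ext'_basic]
    · rw [if_neg hh, if_neg fun h => hh ((hPQ _ hsub).1 h), map_zero]
  intro z hz hc
  have hz' : f' z ∈ piece Q k := by
    refine piece_induction (motive := fun x => f' x ∈ piece Q k) hz (by simp)
      (fun x y hx hy => by simpa using add_mem hx hy) ?_
    intro σ hσ hσk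
    simp only [f', ext'_basic]
    exact (hσk ▸ card_im σ hσ) ▸ basic_mem ((hPQ σ (hU σ hσ)).2 hσ)
  obtain ⟨w, hw, hwz⟩ := hex _ hz' (by
    rw [show bdP Q (f' z) = f' (bdP P z) from eq_on_piece ((bdP Q).comp f') (f'.comp (bdP P))
      (fun σ hσ _ => comm σ hσ) hz, hc, map_zero])
  have gmem : ∀ τ ∈ Q, τ.card = k + 1 → g (basic τ) ∈ piece P (k + 1) := by
    intro τ hτ hk'
    simp only [g, ext'_basic]
    have : (back τ).card = k + 1 := by
      rw [← card_im _ (back_P τ hτ), (back_spec τ hτ).2, hk']
    exact this ▸ basic_mem (back_P τ hτ)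
  refine ⟨g w, piece_induction (motive := fun x => g x ∈ piece P (k + 1)) hw (by simp)
    (fun x y hx hy => by simpa using add_mem hx hy) gmem, ?_⟩
  have gf : ∀ {j : ℕ} {x : Chn V}, x ∈ piece P j → g (f' x) = x := fun hx =>
    eq_on_piece (g.comp f') LinearMap.id
      (fun σ hσ _ => by simp only [LinearMap.comp_apply, f', g, ext'_basic, back_im σ hσ,
        LinearMap.id_apply]) hx
  rw [← gf hz, ← hwz]
  refine eq_on_piece ((bdP P).comp g) (g.comp (bdP Q)) ?_ hw
  intro τ hτ _
  have hb := back_P τ hτ
  have e1 : f' (basic (back τ)) = basic τ := by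
    simp only [f', ext'_basic, (back_spec τ hτ).2]
  have e2 := comm _ hb
  rw [e1] at e2
  simp only [LinearMap.comp_apply, e2]
  rw [show g (basic τ) = basic (back τ) by simp only [g, ext'_basic]]
  rcases Nat.eq_zero_or_pos (back τ).card with h0 | h0
  · rw [card_eq_zero] at h0
    simp [h0, bdP_basic]
  exact (gf (bdP_basic_mem (k := (back τ).card - 1) _ (by omega))).symm

end Vale.Agent.P067.Top
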