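import Vale.Agent.P067.Top.Model
import Vale.Agent.P067.Top.Product

/-!
# P067 topology: the Morse lemma
-/

namespace Vale.Agent.P067.Top.Model

open Finset
open scoped Classical

variable {n : ℕ} [NeZero n] (M : Model n)

omit [NeZero n] in
lemma sh_sh (a b : ℤ) (x : M.Lam) : M.sh a (M.sh b x) = M.sh (a + b) x := (M.sh_add a b x).symm

lemma n_pos : (0 : ℤ) < n := by exact_mod_cast Nat.pos_of_ne_zero (NeZero.ne n)

/-- The vertex of which `x` is a translate. -/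
def norm (x : M.Lam) : M.Vert :=
  ⟨M.sh (-(M.ind x / n)) x, by
    have h := Int.emod_add_mul_ediv (M.ind x) n
    have h1 := Int.emod_nonneg (M.ind x) (ne_of_gt (n_pos (n := n)))
    have h2 := Int.emod_lt_of_pos (M.ind x) (n_pos (n := n))
    rw [M.ind_sh, show -(M.ind x / ↑n) * ↑n = -(↑n * (M.ind x / ↑n)) by ring]
    omega⟩

lemma sh_norm (x : M.Lam) : M.sh (M.ind x / n) (M.norm x).1 = x := by
  simp [norm, sh_sh, M.sh_zero]

lemma norm_sh (m : ℤ) (v : M.Vert) : M.norm (M.sh m v.1) = v := by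
  have : (M.ind v.1 + m * n) / (n : ℤ) = m := by
    rw [Int.add_mul_ediv_right _ _ (ne_of_gt (n_pos (n := n))),
      Int.ediv_eq_zero_of_lt v.2.1 v.2.2, zero_add]
  apply Subtype.ext
  simp [norm, M.ind_sh, this, sh_sh, M.sh_zero]

lemma norm_vert (v : M.Vert) : M.norm v.1 = v := by simpa [M.sh_zero] using M.norm_sh 0 v

lemma norm_sh' (m : ℤ) (x : M.Lam) : M.norm (M.sh m x) = M.norm x := by
  conv_lhs => rw [← M.sh_norm x, sh_sh, norm_sh]

lemma mem_cover {σ : Finset M.Vert} {x : M.Lam} : x ∈ M.cover σ ↔ M.norm x ∈ σ := by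
  constructor
  · rintro ⟨v, hv, m, rfl⟩
    rwa [norm_sh]
  · exact fun h => ⟨_, h, _, M.sh_norm x⟩

lemma sh_mem_cover {σ : Finset M.Vert} {x : M.Lam} (h : x ∈ M.cover σ) (m : ℤ) :
    M.sh m x ∈ M.cover σ := by
  rw [mem_cover] at *
  rwa [norm_sh']

lemma cover_mono {σ τ : Finset M.Vert} (h : σ ⊆ τ) : M.cover σ ⊆ M.cover τ := fun _ hx => by
  rw [mem_cover] at *
  exact h hx

lemma down_simp : Down M.simp := fun _ hσ _ hτ => hσ.mono (M.cover_mono hτ)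

omit [NeZero n] in
lemma sep_sh (m : ℤ) (c : M.Lam) (p : ℤ × ℤ) :
    M.Sep (M.sh m c) p ↔ M.Sep c (p.1 - m * n, p.2 - m * n) := by
  simp [Sep, M.pos_sh]

/-- `p` is separated by some member of `σ`. -/
def Covered (σ : Finset M.Vert) (p : ℤ × ℤ) : Prop := ∃ c ∈ M.cover σ, M.Sep c p

lemma covered_shift {σ : Finset M.Vert} {p : ℤ × ℤ} (h : M.Covered σ p) (m : ℤ) :
    M.Covered σ (p.1 + m * n, p.2 + m * n) := by
  obtain ⟨c, hc, hs⟩ := h
  exact ⟨M.sh m c, M.sh_mem_cover hc m, by simpa [sep_sh] using hs⟩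

lemma finite_sep (σ : Finset M.Vert) (p : ℤ × ℤ) :
    {c | c ∈ M.cover σ ∧ M.Sep c p}.Finite := by
  choose a b ha hb using fun v : M.Vert => M.pos_bdd v.1
  refine Set.Finite.subset (σ.finite_toSet.biUnion (t := fun v =>
    (fun m => M.sh m v.1) '' Set.Icc (-(|p.2| + |b v|)) (|p.1| + |a v|)) fun v _ =>
      (Set.finite_Icc _ _).image _) ?_
  rintro c ⟨hc, h2, h1⟩
  obtain ⟨v, hv, m, rfl⟩ := hc
  simp only [Set.mem_iUnion, Set.mem_image]
  refine ⟨v, hv, m, ?_, rfl⟩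
  rw [M.pos_sh] at h1 h2
  have e1 : a v ≤ p.1 - m * n := not_lt.1 fun h => h1 (ha v h)
  have e2 : p.2 - m * n < b v := hb v h2
  have hn := n_pos (n := n)
  have := le_abs_self p.1
  have := neg_abs_le (a v)
  have := neg_abs_le p.2
  have := le_abs_self (b v)
  refine Set.mem_Icc.2 ⟨?_, ?_⟩
  · by_contra h
    have h3 := mul_le_mul_of_nonneg_right (show m ≤ -(|p.2| + |b v|) - 1 by omega) hn.le
    nlinarith [mul_nonneg (show (0 : ℤ) ≤ |p.2| + |b v| + 1 by positivity) (show (0 : ℤ) ≤ n - 1 by omega)]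
  · by_contra h
    have h3 := mul_le_mul_of_nonneg_right (show |p.1| + |a v| + 1 ≤ m by omega) hn.le
    nlinarith [mul_nonneg (show (0 : ℤ) ≤ |p.1| + |a v| + 1 by positivity) (show (0 : ℤ) ≤ n - 1 by omega)]

/-- The separated pairs, normalised. -/
def inv (σ : Finset M.Vert) : Set (ℤ × ℤ) :=
  {p | 0 ≤ p.1 ∧ p.1 < n ∧ p.1 < p.2 ∧ M.Covered σ p}

lemma finite_inv (σ : Finset M.Vert) : (M.inv σ).Finite := by
  choose a b ha hb using fun v : M.Vert => M.pos_bdd v.1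
  let B : ℤ := ∑ v ∈ σ, |b v - a v|
  refine Set.Finite.subset ((Set.finite_Ico (0 : ℤ) n).prod (Set.finite_Icc (0 : ℤ) (n + B))) ?_
  rintro ⟨x, y⟩ ⟨h0, hn, hxy, c, hc, h2, h1⟩
  obtain ⟨v, hv, m, rfl⟩ := hc
  rw [M.pos_sh] at h1 h2
  have e1 : a v ≤ x - m * n := not_lt.1 fun h => h1 (ha v h)
  have e2 : y - m * n < b v := hb v h2
  have e3 : |b v - a v| ≤ B :=
    single_le_sum (f := fun v => |b v - a v|) (fun u _ => abs_nonneg _) hv
  have := le_abs_self (b v - a v)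
  simp only at h0 hn hxy
  exact ⟨⟨h0, hn⟩, by omega, by omega⟩

/-- The level of a simplex. -/
noncomputable def D (σ : Finset M.Vert) : ℕ := (M.inv σ).ncard

lemma exists_normal {σ : Finset M.Vert} {x y : ℤ} (hxy : x < y) (h : M.Covered σ (x, y)) :
    (x % n, y - x / n * n) ∈ M.inv σ := by
  have h1 := Int.emod_add_mul_ediv x n
  have := M.covered_shift h (-(x / n))
  refine ⟨Int.emod_nonneg x (ne_of_gt (n_pos (n := n))), Int.emod_lt_of_pos x (n_pos (n := n)),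
    ?_, ?_⟩
  · simp only
    rw [mul_comm] at h1
    omega
  · convert this using 2
    · rw [mul_comm] at h1
      rw [neg_mul]; omega
    · ring

lemma covered_of_inv {σ τ : Finset M.Vert} (h : M.inv σ ⊆ M.inv τ) {x y : ℤ} (hxy : x < y)
    (hc : M.Covered σ (x, y)) : M.Covered τ (x, y) := by
  have h1 := M.covered_shift (h (M.exists_normal hxy hc)).2.2.2 (x / n)
  have h2 := Int.emod_add_mul_ediv x n
  rw [mul_comm] at h2
  convert h1 using 2
  · simp only; omega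
  · ring

lemma inv_mono {σ τ : Finset M.Vert} (h : σ ⊆ τ) : M.inv σ ⊆ M.inv τ :=
  fun _ ⟨h0, h1, h2, c, hc, hs⟩ => ⟨h0, h1, h2, c, M.cover_mono h hc, hs⟩

/-- `v` is forced in `σ`. -/
def Forced (σ : Finset M.Vert) (v : M.Vert) : Prop :=
  ∃ c, M.norm c = v ∧ ∃ x y, x < y ∧ M.Sep c (x, y) ∧
    ∀ d ∈ M.cover σ, M.Sep d (x, y) → d = c

/-- The forced members. -/
noncomputable def core (σ : Finset M.Vert) : Finset M.Vert := σ.filter (M.Forced σ)

lemma core_subset (σ : Finset M.Vert) : M.core σ ⊆ σ := filter_subset _ _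

lemma exists_forced {σ : Finset M.Vert} (hσ : σ ∈ M.simp) {x y : ℤ} (hxy : x < y)
    (h : M.Covered σ (x, y)) : ∃ c ∈ M.cover (M.core σ), M.Sep c (x, y) := by
  suffices main : ∀ N, ∀ x y : ℤ, x < y → {c | c ∈ M.cover σ ∧ M.Sep c (x, y)}.ncard = N →
      M.Covered σ (x, y) → ∃ c ∈ M.cover (M.core σ), M.Sep c (x, y) from main _ x y hxy rfl h
  intro N
  induction N using Nat.strong_induction_on with
  | _ N ih =>
    intro x y hxy hN ⟨c₀, hc₀, hs₀⟩
    by_cases hone : ∀ d ∈ M.cover σ, M.Sep d (x, y) → d = c₀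
    · refine ⟨c₀, ?_, hs₀⟩
      rw [mem_cover] at hc₀ ⊢
      exact mem_filter.2 ⟨hc₀, c₀, rfl, x, y, hxy, hs₀, hone⟩
    push Not at hone
    obtain ⟨d, hd, hsd, hne⟩ := hone
    obtain ⟨c, c', hc, hc', hsc, hsc', hlt⟩ : ∃ c c', c ∈ M.cover σ ∧ c' ∈ M.cover σ ∧
        M.Sep c (x, y) ∧ M.Sep c' (x, y) ∧ c < c' := by
      rcases hσ hd hc₀ hne with h | h
      · exact ⟨d, c₀, hd, hc₀, hsd, hs₀, lt_of_le_of_ne h hne⟩
      · exact ⟨c₀, d, hc₀, hd, hs₀, hsd, lt_of_le_of_ne h (Ne.symm hne)⟩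
    obtain ⟨z, hz', hz⟩ : ∃ z, z ∈ M.pos c' ∧ z ∉ M.pos c := by
      by_contra hh
      push Not at hh
      exact M.pos_ne c c' hlt (Set.Subset.antisymm (M.pos_mono _ _ hlt.le) hh)
    rcases lt_trichotomy x z with hxz | hxz | hxz
    · have hsub : {e | e ∈ M.cover σ ∧ M.Sep e (x, z)} ⊆
          {e | e ∈ M.cover σ ∧ M.Sep e (x, y)} \ {c} := by
        rintro e ⟨he, hez, hex⟩
        have hce : c ≠ e := fun hh => hz (hh ▸ hez)
        refine ⟨⟨he, ?_, hex⟩, fun hh => hce hh.symm⟩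
        rcases hσ hc he hce with h1 | h1
        · exact M.pos_mono _ _ h1 hsc.1
        · exact absurd (M.pos_mono _ _ h1 hez) hz
      have hlt' : {e | e ∈ M.cover σ ∧ M.Sep e (x, z)}.ncard < N := by
        rw [← hN]
        exact (Set.ncard_le_ncard hsub ((M.finite_sep σ _).sdiff)).trans_lt
          (Set.ncard_sdiff_singleton_lt_of_mem ⟨hc, hsc⟩ (M.finite_sep σ _))
      obtain ⟨e, he, hes⟩ := ih _ hlt' x z hxz rfl ⟨c', hc', hz', hsc'.2⟩
      exact ⟨e, he, (hsub ⟨M.cover_mono (M.core_subset σ) he, hes⟩).1.2⟩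
    · exact absurd (hxz ▸ hz') hsc'.2
    · have hzy : z < y := hxz.trans hxy
      have hsub : {e | e ∈ M.cover σ ∧ M.Sep e (z, y)} ⊆
          {e | e ∈ M.cover σ ∧ M.Sep e (x, y)} \ {c'} := by
        rintro e ⟨he, hey, hez⟩
        have hce : c' ≠ e := fun hh => hez (hh ▸ hz')
        refine ⟨⟨he, hey, ?_⟩, fun hh => hce hh.symm⟩
        rcases hσ he hc' hce.symm with h1 | h1
        · exact fun hx => hsc'.2 (M.pos_mono _ _ h1 hx)
        · exact absurd (M.pos_mono _ _ h1 hz') hez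
      have hlt' : {e | e ∈ M.cover σ ∧ M.Sep e (z, y)}.ncard < N := by
        rw [← hN]
        exact (Set.ncard_le_ncard hsub ((M.finite_sep σ _).sdiff)).trans_lt
          (Set.ncard_sdiff_singleton_lt_of_mem ⟨hc', hsc'⟩ (M.finite_sep σ _))
      obtain ⟨e, he, hes⟩ := ih _ hlt' z y hzy rfl ⟨c, hc, hsc.1, hz⟩
      exact ⟨e, he, (hsub ⟨M.cover_mono (M.core_subset σ) he, hes⟩).1.2⟩

lemma inv_core {σ : Finset M.Vert} (hσ : σ ∈ M.simp) : M.inv (M.core σ) = M.inv σ := by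
  refine Set.Subset.antisymm (M.inv_mono (M.core_subset σ)) ?_
  rintro ⟨x, y⟩ ⟨h0, h1, h2, hc⟩
  exact ⟨h0, h1, h2, M.exists_forced hσ h2 hc⟩

lemma D_mono {σ τ : Finset M.Vert} (h : σ ⊆ τ) : M.D σ ≤ M.D τ :=
  Set.ncard_le_ncard (M.inv_mono h) (M.finite_inv τ)

lemma core_eq_of_inv {σ R : Finset M.Vert} (hσ : σ ∈ M.simp) (hR : R ⊆ σ)
    (hinv : M.inv σ ⊆ M.inv R) : M.core σ = M.core R := by
  have hsub : M.core σ ⊆ R := by
    intro v hv
    obtain ⟨hvσ, c, hcv, x, y, hxy, hs, hu⟩ := mem_filter.1 hv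
    obtain ⟨d, hd, hds⟩ := M.covered_of_inv hinv hxy
      ⟨c, M.mem_cover.2 (hcv ▸ hvσ), hs⟩
    have := hu d (M.cover_mono hR hd) hds
    subst this
    exact hcv ▸ M.mem_cover.1 hd
  ext v
  constructor
  · intro hv
    obtain ⟨-, c, hcv, x, y, hxy, hs, hu⟩ := mem_filter.1 hv
    exact mem_filter.2 ⟨hsub hv, c, hcv, x, y, hxy, hs,
      fun d hd hds => hu d (M.cover_mono hR hd) hds⟩
  · intro hv
    obtain ⟨hvR, c, hcv, x, y, hxy, hs, hu⟩ := mem_filter.1 hv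
    have hc : c ∈ M.cover σ := M.mem_cover.2 (hcv ▸ hR hvR)
    obtain ⟨d, hd, hds⟩ := M.exists_forced hσ hxy ⟨c, hc, hs⟩
    have hdR : d ∈ M.cover R := M.cover_mono hsub hd
    have := hu d hdR hds
    subst this
    exact hcv ▸ M.mem_cover.1 hd

lemma core_core {σ : Finset M.Vert} (hσ : σ ∈ M.simp) : M.core (M.core σ) = M.core σ :=
  (M.core_eq_of_inv hσ (M.core_subset σ) (M.inv_core hσ).symm.subset).symm

lemma core_erase {σ : Finset M.Vert} (hσ : σ ∈ M.simp) (v : M.Vert)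
    (h : M.D (σ.erase v) = M.D σ) : M.core (σ.erase v) = M.core σ := by
  refine (M.core_eq_of_inv hσ (erase_subset _ _) ?_).symm
  exact (Set.eq_of_subset_of_ncard_le (M.inv_mono (erase_subset _ _)) (le_of_eq h.symm)
    (M.finite_inv σ)).symm.subset

lemma mem_good_iff {σ : Finset M.Vert} : σ ∈ M.good ↔ σ ∈ M.simp ∧ M.D σ = 0 := by
  refine and_congr_right fun hσ => ?_
  constructor
  · intro h
    rw [D, Set.ncard_eq_zero (M.finite_inv σ)]
    ext ⟨x, y⟩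
    simp only [Set.mem_empty_iff_false, iff_false]
    rintro ⟨-, -, h2, c, hc, hs⟩
    obtain ⟨v, hv, m, rfl⟩ := hc
    rw [sep_sh] at hs
    exact h v hv _ _ (by simp only at h2 ⊢; omega) hs
  · intro h v hv x y hxy hs
    rw [D, Set.ncard_eq_zero (M.finite_inv σ)] at h
    have := M.exists_normal hxy ⟨v.1, M.mem_cover.2 (by rwa [norm_vert]), hs⟩
    rw [h] at this
    exact this

lemma down_good : Down M.good := fun σ hσ τ hτ =>
  ⟨M.down_simp σ hσ.1 τ hτ, fun v hv => hσ.2 v (hτ hv)⟩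

/-- The simplices outside `good`. -/
def bad : Set (Finset M.Vert) := {σ | σ ∈ M.simp ∧ M.D σ ≠ 0}

lemma convex_bad : Convex M.bad := by
  intro σ hσ τ hτ ρ h1 h2
  refine ⟨M.down_simp τ hτ.1 ρ h2, fun h => hσ.2 ?_⟩
  have := M.D_mono h1
  omega

/-- The simplices with given core `R`: those adding only vertices whose pairs `R` separates. -/
def piece' (R : Finset M.Vert) : Set (Finset M.Vert) :=
  {σ | σ ∈ M.simp ∧ R ⊆ σ ∧ M.inv σ ⊆ M.inv R}

lemma convex_piece' (R : Finset M.Vert) : Convex (M.piece' R) := fun _ hσ τ hτ ρ h1 h2 =>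
  ⟨M.down_simp τ hτ.1 ρ h2, hσ.2.1.trans h1, (M.inv_mono h2).trans hτ.2.2⟩

lemma level_eq {σ₀ : Finset M.Vert} (h₀ : σ₀ ∈ M.simp) :
    {σ | σ ∈ M.simp ∧ M.D σ = M.D σ₀ ∧ M.core σ = M.core σ₀} = M.piece' (M.core σ₀) := by
  ext σ
  constructor
  · rintro ⟨hσ, -, hc⟩
    refine ⟨hσ, hc ▸ M.core_subset σ, ?_⟩
    rw [← hc, M.inv_core hσ]
  · rintro ⟨hσ, hR, hinv⟩
    refine ⟨hσ, ?_, (M.core_eq_of_inv hσ hR hinv).trans (M.core_core h₀)⟩
    have e := Set.Subset.antisymm hinv (M.inv_mono hR)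
    rw [D, D, e, M.inv_core h₀]

/-- Reduction of a degree of exactness to the pieces. -/
theorem exact_bad {k : ℕ}
    (h : ∀ R ∈ M.simp, M.core R = R → M.D R ≠ 0 → Exact (M.piece' R) k) : Exact M.bad k := by
  refine exact_of_levels M.convex_bad M.D M.core
    (fun σ _ v _ _ => M.D_mono (erase_subset _ _)) (fun σ hσ v _ _ e => M.core_erase hσ.1 v e) ?_
  intro l a
  by_cases he : ∃ σ₀, σ₀ ∈ M.bad ∧ M.D σ₀ = l ∧ M.core σ₀ = a
  · obtain ⟨σ₀, h₀, rfl, rfl⟩ := he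
    have e : {σ | σ ∈ M.bad ∧ M.D σ = M.D σ₀ ∧ M.core σ = M.core σ₀} =
        M.piece' (M.core σ₀) := by
      rw [← M.level_eq h₀.1]
      ext σ
      exact ⟨fun hh => ⟨hh.1.1, hh.2⟩, fun hh => ⟨⟨hh.1, hh.2.1 ▸ h₀.2⟩, hh.2⟩⟩
    rw [e]
    refine h _ (M.down_simp _ h₀.1 _ (M.core_subset _)) (M.core_core h₀.1) ?_
    have hi := M.inv_core h₀.1
    rw [D, hi]
    exact h₀.2
  · exact exact_of_none fun σ hσ => absurd ⟨σ, hσ.1, hσ.2⟩ he

end Vale.Agent.P067.Top.Model
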