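import Vale.Agent.P067.Top.Product
import Vale.Agent.P067.Top.Elementary

/-!
# P067 topology: complexes of partial bases

`R` is a commutative ring with a norm allowing division with smaller remainder. The finite
sets completing a partial basis `U` of `R ^ n` form a complex exact on sets with fewer than
`n - U.card` members (reduced homology vanishes up to degree `n - U.card - 2`).
-/

namespace Vale.Agent.P067.Top

open Finset
open scoped Classical


variable {R : Type} [CommRing R] {n : ℕ}

noncomputable local instance (priority := 10000) : DecidableEq (Fin n → R) :=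
  fun a b => Classical.propDecidable (a = b)

/-- A partial basis: every member has a functional which is one on it and zero on the others. -/
def IsPB (s : Finset (Fin n → R)) : Prop :=
  ∀ v ∈ s, ∃ f : (Fin n → R) →ₗ[R] R, f v = 1 ∧ ∀ w ∈ s, w ≠ v → f w = 0

/-- The sets completing a partial basis. -/
def PB (U : Finset (Fin n → R)) : Set (Finset (Fin n → R)) :=
  {σ | Disjoint σ U ∧ IsPB (σ ∪ U)}

lemma IsPB.mono {s t : Finset (Fin n → R)} (h : IsPB t) (hst : s ⊆ t) : IsPB s := fun v hv => by
  obtain ⟨f, h1, h2⟩ := h v (hst hv)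
  exact ⟨f, h1, fun w hw => h2 w (hst hw)⟩

lemma PB_down (U : Finset (Fin n → R)) : Down (PB U) := fun _ hσ _ hτ =>
  ⟨hσ.1.mono_left hτ, hσ.2.mono (union_subset_union hτ subset_rfl)⟩

lemma IsPB.card_le [Nontrivial R] {s : Finset (Fin n → R)} (h : IsPB s) : s.card ≤ n := by
  choose f h1 h2 using h
  have li : LinearIndependent R (fun v : s => (v : Fin n → R)) := by
    rw [Fintype.linearIndependent_iff]
    intro c hc i
    have := congrArg (f i.1 i.2) hc
    simp only [map_sum, map_smul, map_zero, smul_eq_mul] at this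
    rw [sum_eq_single i (fun j _ hj => by
      rw [h2 i.1 i.2 j.1 j.2 (fun e => hj (Subtype.ext e)), mul_zero])
      (fun hi => absurd (mem_univ i) hi), h1, mul_one] at this
    exact this
  simpa using li.fintype_card_le_finrank

/-- Adding a vector that a functional vanishing on the set sends to one. -/
lemma IsPB.insert' {s : Finset (Fin n → R)} (h : IsPB s) {e : Fin n → R}
    {a : (Fin n → R) →ₗ[R] R} (he : a e = 1) (ha : ∀ u ∈ s, u ≠ e → a u = 0) :
    IsPB (insert e s) := by
  intro v hv
  by_cases hve : v = e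
  · subst hve
    refine ⟨a, he, fun w hw hne => ?_⟩
    exact ha w ((mem_insert.1 hw).resolve_left hne) hne
  · have hvs := (mem_insert.1 hv).resolve_left hve
    obtain ⟨f, h1, h2⟩ := h v hvs
    refine ⟨f - f e • a, by simp [h1, ha v hvs hve], fun w hw hne => ?_⟩
    by_cases hwe : w = e
    · subst hwe
      simp [he]
    · have hws := (mem_insert.1 hw).resolve_left hwe
      simp [h2 w hws hne, ha w hws hwe]

section Push

variable {U : Finset (Fin n → R)} {v₀ : Fin n → R} {c : (Fin n → R) → R}
  {r : (Fin n → R) → (Fin n → R)}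

/-- Adding multiples of a member of the base preserves the completing sets. -/
lemma PB_push (hv₀ : v₀ ∈ U) (hr : ∀ v, r v = v + c v • v₀) {σ : Finset (Fin n → R)}
    (hσ : σ ∈ PB U) : Set.InjOn r ↑σ ∧ σ.image r ∈ PB U := by
  obtain ⟨hd, hP⟩ := hσ
  choose f h1 h2 using hP
  have hsub : ∀ v ∈ σ, v ∈ σ ∪ U := fun v hv => mem_union_left _ hv
  have hne : ∀ v ∈ σ, v₀ ≠ v := fun v hv e => disjoint_left.1 hd hv (e ▸ hv₀)
  have key : ∀ v (hv : v ∈ σ), ∀ w, f v (hsub v hv) (r w) = f v (hsub v hv) w := by
    intro v hv w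
    rw [hr, map_add, map_smul, h2 v (hsub v hv) v₀ (mem_union_right _ hv₀) (hne v hv), smul_zero,
      add_zero]
  have inj : Set.InjOn r ↑σ := by
    intro v hv w hw e
    by_contra hvw
    have e' := congrArg (f v (hsub v hv)) e
    rw [key v hv, key v hv, h1, h2 v (hsub v hv) w (hsub w hw) (Ne.symm hvw)] at e'
    have h0 := h1 v (hsub v hv)
    apply hvw
    calc v = (1 : R) • v := (one_smul R v).symm
      _ = (0 : R) • v := by rw [e']
      _ = (0 : R) • w := by simp
      _ = (1 : R) • w := by rw [e']
      _ = w := one_smul R w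
  have subsingle : (1 : R) = 0 → ∀ x y : Fin n → R, x = y := fun e x y => by
    rw [← one_smul R x, ← one_smul R y, e, zero_smul, zero_smul]
  refine ⟨inj, ?_, ?_⟩
  · rw [disjoint_left]
    intro x hx hxU
    obtain ⟨v, hv, rfl⟩ := mem_image.1 hx
    by_cases h10 : (1 : R) = 0
    · exact disjoint_left.1 hd hv (subsingle h10 (r v) v ▸ hxU)
    have hnev : r v ≠ v := fun e => disjoint_left.1 hd hv (e ▸ hxU)
    have e := key v hv v
    rw [h1, h2 v (hsub v hv) _ (mem_union_right _ hxU) hnev] at e
    exact h10 e.symm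
  · intro x hx
    rcases mem_union.1 hx with hx | hxU
    · obtain ⟨v, hv, rfl⟩ := mem_image.1 hx
      refine ⟨f v (hsub v hv), by rw [key v hv, h1], fun y hy hne' => ?_⟩
      rcases mem_union.1 hy with hy | hy
      · obtain ⟨w, hw, rfl⟩ := mem_image.1 hy
        rw [key v hv, h2 v (hsub v hv) w (hsub w hw) fun e => hne' (by rw [e])]
      · exact h2 v (hsub v hv) y (mem_union_right _ hy) fun e => disjoint_left.1 hd hv (e ▸ hy)
    · let fx := f x (mem_union_right _ hxU)
      have hxσ : ∀ w ∈ σ, fx w = 0 := fun w hw =>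
        h2 x _ w (hsub w hw) fun e => disjoint_left.1 hd hw (e ▸ hxU)
      by_cases hx0 : x = v₀
      · subst hx0
        refine ⟨fx - ∑ v ∈ σ.attach, c v.1 • f v.1 (hsub v.1 v.2), ?_, fun y hy hne' => ?_⟩
        · simp only [LinearMap.sub_apply, LinearMap.coe_sum, Finset.sum_apply, LinearMap.smul_apply]
          rw [sum_eq_zero fun v _ => by
            rw [h2 v.1 _ x (mem_union_right _ hxU) (hne v.1 v.2), smul_zero], sub_zero]
          exact h1 x _
        · simp only [LinearMap.sub_apply, LinearMap.coe_sum, Finset.sum_apply, LinearMap.smul_apply]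
          rcases mem_union.1 hy with hy | hy
          · obtain ⟨w, hw, rfl⟩ := mem_image.1 hy
            have e1 : fx (r w) = c w := by
              rw [hr, map_add, map_smul, hxσ w hw]
              simp [fx, h1]
            rw [e1, sum_eq_single ⟨w, hw⟩ (fun v _ hv => by
              rw [key v.1 v.2, h2 v.1 _ w (hsub w hw) fun e => hv (Subtype.ext e.symm), smul_zero])
              (fun h => absurd (mem_attach σ _) h), key w hw, h1]
            simp
          · rw [h2 x _ y (mem_union_right _ hy) hne', sum_eq_zero fun v _ => by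
              rw [h2 v.1 _ y (mem_union_right _ hy) fun e => disjoint_left.1 hd v.2 (e ▸ hy),
                smul_zero], sub_zero]
      · refine ⟨fx, h1 x _, fun y hy hne' => ?_⟩
        rcases mem_union.1 hy with hy | hy
        · obtain ⟨w, hw, rfl⟩ := mem_image.1 hy
          rw [hr, map_add, map_smul, hxσ w hw,
            h2 x _ v₀ (mem_union_right _ hv₀) (Ne.symm hx0), smul_zero, add_zero]
        · exact h2 x _ y (mem_union_right _ hy) hne'

end Push

/-- Exactness passes to a subcomplex fixed by a simplicial retraction. -/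
lemma exact_retract {V : Type} {P B : Set (Finset V)} (hP : Down P) (hB : Down B) (hBP : B ⊆ P)
    (r : V → V) (hinj : ∀ σ ∈ P, Set.InjOn r ↑σ) (himg : ∀ σ ∈ P, σ.image r ∈ B)
    (hfix : ∀ σ ∈ B, σ.image r = σ) {k : ℕ} (h : Exact P k) : Exact B k := by
  intro z hz hc
  let f : Chn V →ₗ[ZMod 2] Chn V := ext' fun σ => basic (σ.image r)
  have hzP : z ∈ piece P k := piece_mono hBP k hz
  obtain ⟨w, hw, hwz⟩ := h z hzP (by
    rw [show bdP P z = bdP B z from eq_on_piece (bdP P) (bdP B) (fun σ hσ _ => by
      rw [bdP_basic, bdP_basic]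
      exact sum_congr rfl fun v _ => by
        rw [if_pos (hP σ (hBP hσ) _ (erase_subset _ _)), if_pos (hB σ hσ _ (erase_subset _ _))])
      hz, hc])
  refine ⟨f w, piece_induction (motive := fun x => f x ∈ piece B (k + 1)) hw (by simp)
    (fun x y hx hy => by simpa using add_mem hx hy) ?_, ?_⟩
  · intro σ hσ hk
    simp only [f, ext'_basic]
    have : (σ.image r).card = k + 1 := by rw [card_image_of_injOn (hinj σ hσ), hk]
    exact this ▸ basic_mem (himg σ hσ)
  · have hz' : f z = z := eq_on_piece f LinearMap.id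
      (fun σ hσ _ => by simp only [f, ext'_basic, hfix σ hσ, LinearMap.id_apply]) hz
    rw [← hz', ← hwz]
    refine eq_on_piece ((bdP B).comp f) (f.comp (bdP P)) ?_ hw
    intro σ hσ _
    simp only [LinearMap.comp_apply, f, ext'_basic, bdP_basic, map_sum]
    rw [sum_image fun a ha b hb e => hinj σ hσ ha hb e]
    refine sum_congr rfl fun v hv => ?_
    have e : (σ.image r).erase (r v) = (σ.erase v).image r := by
      ext y
      simp only [mem_erase, mem_image]
      constructor
      · rintro ⟨hne, u, hu, rfl⟩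
        exact ⟨u, ⟨fun h => hne (h ▸ rfl), hu⟩, rfl⟩
      · rintro ⟨u, ⟨hne, hu⟩, rfl⟩
        exact ⟨fun h => hne (hinj σ hσ hu hv h), u, hu, rfl⟩
    rw [e, if_pos (hB _ (himg σ hσ) _ (e ▸ erase_subset _ _)), if_pos (hP σ hσ _ (erase_subset _ _)),
      ext'_basic]

/-- The partial basis complex is exact below `n - U.card`. -/
theorem exact_PB [Nontrivial R] (hR : HasDivNorm R)
    (hext : ∀ U : Finset (Fin n → R), IsPB U → U.card < n →
      ∃ (e : Fin n → R) (a : (Fin n → R) →ₗ[R] R), a e = 1 ∧ ∀ u ∈ U, a u = 0)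
    (U : Finset (Fin n → R)) (hU : IsPB U) (k : ℕ) (hk : k + U.card < n) : Exact (PB U) k := by
  obtain ⟨ν, hν⟩ := hR
  let N : R → ℕ := fun x => if x = 0 then 0 else ν x + 1
  have hN0 : ∀ x, N x = 0 ↔ x = 0 := fun x => by simp [N]
  have hdiv : ∀ a : R, a ≠ 0 → ∀ x, ∃ q, N (x - q * a) < N a := fun a ha x => by
    obtain ⟨q, hq⟩ := hν a x ha
    refine ⟨q, ?_⟩
    simp only [N, if_neg ha]
    rcases hq with hq | hq
    · simp [hq]
    · split_ifs <;> omega
  clear_value N
  suffices main : ∀ r, ∀ U : Finset (Fin n → R), n - U.card = r → IsPB U →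
      ∀ k, k + U.card < n → Exact (PB U) k from main _ U rfl hU k hk
  clear! U k
  intro r
  induction r using Nat.strong_induction_on with
  | _ r ih =>
  intro U hr hU k hk
  obtain ⟨e, a, hae, haU⟩ := hext U hU (by omega)
  have heU : e ∉ U := fun h => one_ne_zero (α := R) (hae.symm.trans (haU e h))
  let w : (Fin n → R) → ℕ := fun v => if a v = 0 ∨ v = e then 0 else N (a v)
  have hw0 : ∀ v, w v = 0 ↔ a v = 0 ∨ v = e := fun v => by
    simp only [w]
    split_ifs with h
    · simp [h]
    · exact ⟨fun h' => absurd (Or.inl ((hN0 _).1 h')) h, fun h' => absurd h' h⟩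
  have hwa : ∀ v, w v ≠ 0 → w v = N (a v) := fun v hv => by
    simp only [w]
    rw [if_neg fun h => hv ((hw0 v).2 h)]
  let top : Finset (Fin n → R) → ℕ := fun σ => σ.sup w
  let key : Finset (Fin n → R) → Finset (Fin n → R) := fun σ =>
    if top σ = 0 then ∅ else σ.filter fun v => w v = top σ
  let lev : Finset (Fin n → R) → ℕ := fun σ => top σ * (n + 1) + (key σ).card
  have hkey : ∀ σ ∈ PB U, (key σ).card < n + 1 := fun σ hσ => by
    have h1 : (key σ).card ≤ σ.card := by
      simp only [key]
      split_ifs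
      · simp
      · exact card_filter_le _ _
    have h2 := (hσ.2.mono (subset_union_left (s₂ := U))).card_le
    omega
  have htop : ∀ (σ : Finset (Fin n → R)) (v : Fin n → R), top (σ.erase v) ≤ top σ :=
    fun σ v => sup_mono (erase_subset _ _)
  have hkeysub : ∀ (σ : Finset (Fin n → R)) (v : Fin n → R), top (σ.erase v) = top σ →
      key (σ.erase v) ⊆ key σ := fun σ v h => by
    simp only [key, h]
    split_ifs
    · exact subset_rfl
    · exact filter_subset_filter _ (erase_subset _ _)
  refine exact_of_levels (PB_down U).convex lev key ?_ ?_ ?_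
  · intro σ _ v _ hv
    simp only [lev]
    rcases (htop σ v).lt_or_eq with h | h
    · have h1 := Nat.mul_le_mul_right (n + 1) (Nat.succ_le_of_lt h)
      have h2 := hkey _ hv
      rw [Nat.succ_mul] at h1
      omega
    · have h1 := card_le_card (hkeysub σ v h)
      rw [h]
      omega
  · intro σ hσ v _ hv heq
    simp only [lev] at heq
    have ht : top (σ.erase v) = top σ := by
      rcases (htop σ v).lt_or_eq with h | h
      · have h1 := Nat.mul_le_mul_right (n + 1) (Nat.succ_le_of_lt h)
        have h2 := hkey _ hv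
        rw [Nat.succ_mul] at h1
        omega
      · exact h
    rw [ht] at heq
    exact eq_of_subset_of_card_le (hkeysub σ v ht) (by omega)
  intro l τ
  set Q := {σ | σ ∈ PB U ∧ lev σ = l ∧ key σ = τ}
  by_cases hempty : ∀ σ ∈ Q, σ.card ≠ k ∧ σ.card ≠ k + 1
  · exact exact_of_none fun σ hσ => (hempty σ hσ).1
  push Not at hempty
  obtain ⟨σ₀, ⟨hσ₀, hl₀, hτ₀⟩, -⟩ := hempty
  set M := top σ₀ with hMdef
  have hiff : ∀ σ, σ ∈ Q ↔ σ ∈ PB U ∧ top σ = M ∧ key σ = τ := by
    intro σ
    refine ⟨fun h => ⟨h.1, ?_, h.2.2⟩, fun h => ⟨h.1, ?_, h.2.2⟩⟩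
    · have e1 := h.2.1.trans hl₀.symm
      simp only [lev, h.2.2, hτ₀] at e1
      exact Nat.eq_of_mul_eq_mul_right (Nat.succ_pos n) (Nat.add_right_cancel e1)
    · rw [← hl₀]
      simp only [lev, h.2.1, h.2.2, hτ₀, hMdef]
  by_cases hM : M = 0
  · have hτ : τ = ∅ := by rw [← hτ₀]; simp [key, ← hMdef, hM]
    have hQ : Q = {σ | σ ∈ PB U ∧ ∀ v ∈ σ, a v = 0 ∨ v = e} := by
      ext σ
      rw [hiff]
      refine ⟨fun h => ⟨h.1, fun v hv => (hw0 v).1 ?_⟩, fun h => ⟨h.1, ?_⟩⟩
      · have : w v ≤ top σ := le_sup hv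
        omega
      · have h0 : top σ = 0 := Nat.eq_zero_of_le_zero
          (Finset.sup_le fun v hv => le_of_eq ((hw0 v).2 (h.2 v hv)))
        simp [key, h0, hM, hτ]
    rw [hQ]
    refine exact_cone ?_ e ?_ ?_ k
    · intro σ hσ ρ hρ π h1 h2
      exact ⟨PB_down U ρ hρ.1 π h2, fun v hv => hρ.2 v (h2 hv)⟩
    · rintro σ ⟨hσ, ha⟩
      refine ⟨⟨?_, ?_⟩, fun v hv => ?_⟩
      · exact disjoint_insert_left.2 ⟨heU, hσ.1⟩
      · rw [insert_union]
        refine hσ.2.insert' hae fun u hu hne => ?_
        rcases mem_union.1 hu with hu | hu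
        · exact (ha u hu).resolve_right hne
        · exact haU u hu
      · rcases mem_insert.1 hv with rfl | hv
        · exact Or.inr rfl
        · exact ha v hv
    · rintro σ ⟨hσ, ha⟩
      exact ⟨PB_down U σ hσ _ (erase_subset _ _), fun v hv => ha v (mem_of_mem_erase hv)⟩
  · have hτdef : τ = σ₀.filter fun v => w v = M := by
      rw [← hτ₀]; simp only [key, ← hMdef, if_neg hM]
    have hne : σ₀.Nonempty := by
      by_contra hne
      rw [not_nonempty_iff_eq_empty] at hne
      exact hM (by rw [hMdef]; simp [top, hne])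
    obtain ⟨v₀, hv₀, hv₀M⟩ := exists_mem_eq_sup σ₀ hne w
    have hv₀w : w v₀ = M := hv₀M.symm
    have hv₀τ : v₀ ∈ τ := by rw [hτdef]; exact mem_filter.2 ⟨hv₀, hv₀w⟩
    have hτw : ∀ v ∈ τ, w v = M := fun v hv => by rw [hτdef] at hv; exact (mem_filter.1 hv).2
    have hτσ : τ ⊆ σ₀ := by rw [hτdef]; exact filter_subset _ _
    have hτU : Disjoint τ U := hσ₀.1.mono_left hτσ
    set U' := τ ∪ U with hU'def
    have hU' : IsPB U' := hσ₀.2.mono (union_subset_union hτσ subset_rfl)
    have hcard : U'.card = τ.card + U.card := card_union_of_disjoint hτU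
    set B := {ρ | ρ ∈ PB U' ∧ ∀ v ∈ ρ, w v < M} with hBdef
    have hBdown : Down B := fun ρ hρ π hπ => ⟨PB_down U' ρ hρ.1 π hπ, fun v hv => hρ.2 v (hπ hv)⟩
    have hQ : Q = join {v | w v = M} ({τ} : Set (Finset (Fin n → R))) B := by
      ext σ
      rw [hiff]
      simp only [join, Set.mem_ofPred_eq, Set.mem_singleton_iff, hBdef]
      constructor
      · rintro ⟨hσ, ht, hk'⟩
        have hk'' : σ.filter (fun v => w v = M) = τ := by
          rw [← hk']; simp only [key, ht, if_neg hM]
        refine ⟨hk'', ⟨?_, ?_⟩, ?_⟩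
        · rw [hU'def, disjoint_union_right]
          refine ⟨disjoint_left.2 fun v hv hv' => ?_, hσ.1.mono_left (filter_subset _ _)⟩
          exact (mem_filter.1 hv).2 (hτw v hv')
        · refine hσ.2.mono fun v hv => ?_
          rcases mem_union.1 hv with hv | hv
          · exact mem_union_left _ (mem_filter.1 hv).1
          rcases mem_union.1 hv with hv | hv
          · exact mem_union_left _ (mem_filter.1 (hk''.symm ▸ hv)).1
          · exact mem_union_right _ hv
        · intro v hv
          have h1 : w v ≤ top σ := le_sup (mem_filter.1 hv).1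
          have h2 := (mem_filter.1 hv).2
          omega
      · rintro ⟨hA, ⟨hd, hP⟩, hlt⟩
        rw [hU'def, disjoint_union_right] at hd
        have hsplit : σ = τ ∪ σ.filter (fun v => ¬ w v = M) := by
          rw [← hA]; exact (filter_union_filter_not_eq _ σ).symm
        have hv₀σ : v₀ ∈ σ := by rw [hsplit]; exact mem_union_left _ hv₀τ
        have ht : top σ = M := by
          refine le_antisymm (Finset.sup_le fun v hv => ?_) (hv₀w ▸ le_sup hv₀σ)
          by_cases h : w v = M
          · exact le_of_eq h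
          · exact (hlt v (mem_filter.2 ⟨hv, h⟩)).le
        refine ⟨⟨?_, ?_⟩, ht, ?_⟩
        · rw [hsplit, disjoint_union_left]
          exact ⟨hτU, hd.2⟩
        · refine hP.mono ?_
          rw [hU'def]
          intro v hv
          rw [hsplit] at hv
          simp only [mem_union] at hv ⊢
          tauto
        · simp only [key, ht, if_neg hM]
          exact hA
    have hBex : ∀ j < n - U'.card, Exact B j := by
      intro j hj
      have hP' : Exact (PB U') j := by
        have h1 : 0 < τ.card := card_pos.2 ⟨v₀, hv₀τ⟩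
        exact ih (n - U'.card) (by omega) U' rfl hU' j (by omega)
      have ha0 : a v₀ ≠ 0 := fun h => hM (hv₀w ▸ (hw0 v₀).2 (Or.inl h))
      have hNM : N (a v₀) = M := by rw [← hwa v₀ (by omega), hv₀w]
      choose q hq using fun x => hdiv (a v₀) ha0 x
      let c : (Fin n → R) → R := fun v => if w v < M then 0 else -q (a v)
      let ρ : (Fin n → R) → (Fin n → R) := fun v => v + c v • v₀
      have hρw : ∀ v, w (ρ v) < M := by
        intro v
        by_cases h : w v < M
        · simp only [ρ, c, if_pos h, zero_smul, add_zero]; exact h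
        · have e1 : a (ρ v) = a v - q (a v) * a v₀ := by
            simp only [ρ, c, if_neg h, map_add, map_smul, smul_eq_mul, neg_mul]; ring
          by_cases h0 : w (ρ v) = 0
          · omega
          rw [hwa _ h0, e1, ← hNM]
          exact hq (a v)
      refine exact_retract (PB_down U') hBdown (fun x hx => hx.1) ρ
        (fun σ hσ => (PB_push (c := c) (mem_union_left _ hv₀τ) (fun _ => rfl) hσ).1) ?_ ?_ hP'
      · intro σ hσ
        refine ⟨(PB_push (c := c) (mem_union_left _ hv₀τ) (fun _ => rfl) hσ).2, ?_⟩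
        intro v hv
        obtain ⟨u, -, rfl⟩ := mem_image.1 hv
        exact hρw u
      · intro σ hσ
        conv_rhs => rw [← image_id (s := σ)]
        refine image_congr fun v hv => ?_
        simp [ρ, c, hσ.2 v hv]
    rw [hQ]
    refine exact_join _ (convex_singleton τ) hBdown.convex ?_ ?_ (exact_singleton τ) hBex k
      (by omega)
    · rintro x rfl v hv
      exact hτw v hv
    · exact fun ρ hρ v hv => (hρ.2 v hv).ne

/-- A partial basis with fewer than `n` members can be completed. -/
lemma IsPB.exists_next (hR : HasDivNorm R) {U : Finset (Fin n → R)} (hU : IsPB U)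
    (hcard : U.card < n) :
    ∃ (e : Fin n → R) (a : (Fin n → R) →ₗ[R] R), a e = 1 ∧ ∀ u ∈ U, a u = 0 := by
  choose f h1 h2 using hU
  let v : Fin U.card → Fin n → R := fun x => (U.equivFin.symm x).1
  have hvinj : Function.Injective v := fun x y h => U.equivFin.symm.injective (Subtype.ext h)
  have hv : IsPartialBasis v := by
    refine ⟨fun x => f (v x) (U.equivFin.symm x).2, fun x y => ?_⟩
    by_cases h : x = y
    · subst h; simp [h1]
    · rw [if_neg h]
      exact h2 _ _ _ (U.equivFin.symm y).2 fun e => h (hvinj e).symm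
  let p : Fin U.card → Fin n := Fin.castLE hcard.le
  obtain ⟨g, -, hg⟩ := exists_el_mulVec hR v hv p (Fin.castLE_injective _)
    ⟨⟨U.card, hcard⟩, by
      rintro ⟨x, hx⟩
      exact absurd (congrArg Fin.val hx) (by simp only [p, Fin.val_castLE]; omega)⟩
  refine ⟨((g⁻¹ : _) : Matrix (Fin n) (Fin n) R).mulVec (Pi.single ⟨U.card, hcard⟩ 1),
    (LinearMap.proj ⟨U.card, hcard⟩).comp (Matrix.mulVecLin (g : Matrix (Fin n) (Fin n) R)), ?_,
    fun u hu => ?_⟩
  · simp only [LinearMap.comp_apply, Matrix.mulVecLin_apply, LinearMap.proj_apply]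
    rw [← mul_mulVec', mul_inv_cancel, Matrix.SpecialLinearGroup.coe_one, Matrix.one_mulVec,
      Pi.single_eq_same]
  · simp only [LinearMap.comp_apply, Matrix.mulVecLin_apply, LinearMap.proj_apply]
    have e : u = v (U.equivFin ⟨u, hu⟩) := by simp [v]
    rw [e, hg]
    refine Pi.single_eq_of_ne (fun h => ?_) _
    have := congrArg Fin.val h
    simp only [p, Fin.val_castLE] at this
    omega

/-- `exact_PB` for rings with a division norm. -/
theorem exact_PB' [Nontrivial R] (hR : HasDivNorm R) (U : Finset (Fin n → R)) (hU : IsPB U)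
    (k : ℕ) (hk : k + U.card < n) : Exact (PB U) k :=
  exact_PB hR (fun _ h h' => h.exists_next hR h') U hU k hk

end Vale.Agent.P067.Top
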