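import Vale.Agent.P067.Alg.Stabiliser

/-!
# P067 topology: the stability argument, abstractly
-/

namespace Vale.Agent.P067

open Finset

variable {A B C : Type} [Group A] [Group B] [Group C]

lemma hmap_comp (g : B →* C) (f : A →* B) (q : ℕ) (x : (GH A).Ch q) :
    (hmap g).chain q ((hmap f).chain q x) = (hmap (g.comp f)).chain q x := by
  refine (SSet.Hom.chain_comp _ _ _ _).trans (SSet.Hom.chain_congr (fun s => ?_) x)
  induction s using Quotient.inductionOn' with
  | h t => rfl

lemma hmap_id (q : ℕ) (x : (GH A).Ch q) : (hmap (MonoidHom.id A)).chain q x = x :=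
  SSet.Hom.chain_id (fun s => by
    induction s using Quotient.inductionOn' with
    | h t => rfl) x

lemma hmap_congr {f g : A →* B} (h : ∀ a, f a = g a) (q : ℕ) (x : (GH A).Ch q) :
    (hmap f).chain q x = (hmap g).chain q x := by
  rw [show f = g from MonoidHom.ext h]

/-- An isomorphism transports exactness. -/
theorem exact_of_mulEquiv (e : A ≃* B) {q : ℕ} (h : (GH B).Exact q) : (GH A).Exact q := by
  rw [SSet.exact_iff] at h ⊢
  intro z hz
  have h1 := (hmap e.symm.toMonoidHom).mem_bdry (h _ ((hmap e.toMonoidHom).isCycle hz))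
  rwa [hmap_comp, hmap_congr (g := MonoidHom.id A) (fun a => by simp), hmap_id] at h1

/-- A group isomorphic to a split extension by a locally odd kernel of an exact group. -/
theorem exact_of_equiv_split (e : A ≃* B) (π : B →* C) (hker : LocOdd π.ker) (σ : C →* B)
    (hσ : π.comp σ = MonoidHom.id C) {q : ℕ} (h : (GH C).Exact q) : (GH A).Exact q :=
  exact_of_mulEquiv e (exact_of_section π hker σ hσ h)

/-- A group acting on an acyclic complex with locally odd stabilisers and acyclic orbit complex. -/
theorem exact_of_odd_stabilisers {U : Type} [Group U] (W : GSSet U) [Nonempty (W.obj 0)] {i : ℕ}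
    (hi : 1 ≤ i) (hW : ∀ p < i, W.Exact p) (hA : W.quot.Exact i)
    (hodd : ∀ p w, LocOdd (W.stab p w)) : (GH U).Exact i :=
  exact_of_stabilisers W hi hW hA fun q p _ _ _ w => GH_exact_of_locOdd (hodd p w) q

/-- A commutative group of odd exponent is locally odd. -/
theorem locOdd_of_comm {V : Type} [Group V] (hcomm : ∀ a b : V, a * b = b * a) {p : ℕ}
    (hp : p.Prime) (hodd : Odd p) (hpow : ∀ a : V, a ^ p = 1) : LocOdd V := by
  intro s
  let _ : CommGroup V := { ‹Group V› with mul_comm := hcomm }
  have : Fact p.Prime := ⟨hp⟩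
  refine ⟨Subgroup.closure (s : Set V), fun g hg => Subgroup.subset_closure hg, ?_⟩
  have hfg : Group.FG (Subgroup.closure (s : Set V)) := inferInstance
  have htor : Monoid.IsTorsion (Subgroup.closure (s : Set V)) := fun g =>
    isOfFinOrder_iff_pow_eq_one.2 ⟨p, hp.pos, Subtype.ext (hpow g)⟩
  have hfin : Finite (Subgroup.closure (s : Set V)) := CommGroup.finite_of_fg_torsion _ htor
  refine ⟨hfin, ?_⟩
  obtain ⟨k, hk⟩ := (IsPGroup.iff_card (p := p) (G := Subgroup.closure (s : Set V))).1
    fun g => ⟨1, Subtype.ext (by simpa using hpow g)⟩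
  rw [hk]
  exact hodd.pow

/-- Two homomorphisms that factor through a map with locally odd kernel and agree there. -/
def SameHom {L N : Type} [Group L] [Group N] (f g : L →* N) : Prop :=
  ∃ (S : Type) (_ : Group S) (j : S →* N) (L' : Type) (_ : Group L') (π : S →* L')
    (φ ψ : L →* S), LocOdd π.ker ∧ π.comp φ = π.comp ψ ∧ j.comp φ = f ∧ j.comp ψ = g

lemma SameHom.homologous {L N : Type} [Group L] [Group N] {f g : L →* N} (h : SameHom f g)
    (q : ℕ) (c : (GH L).Ch q) (hc : (GH L).IsCycle q c) :
    (hmap f).chain q c + (hmap g).chain q c ∈ (GH N).bdry q := by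
  obtain ⟨S, _, j, L', _, π, φ, ψ, hker, hcomp, rfl, rfl⟩ := h
  have := (hmap j).mem_bdry (hmap_eq_of_comp_eq π hker φ ψ hcomp q c hc)
  rwa [map_add, hmap_comp, hmap_comp] at this

/-- A stabiliser that sits, up to an automorphism, in a split extension of `L`. -/
def ViaExtension {L N S : Type} [Group L] [Group N] [Group S] (incl : S →* N) (ι : L →* N)
    (θ : N →* N) : Prop :=
  ∃ (E : Type) (_ : Group E) (j : E →* N) (φ : S →* E) (π : E →* L) (σ : L →* E),
    LocOdd π.ker ∧ π.comp σ = MonoidHom.id L ∧ j.comp σ = ι ∧ θ.comp (j.comp φ) = incl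

lemma ViaExtension.homologous {L N S : Type} [Group L] [Group N] [Group S] {incl : S →* N}
    {ι : L →* N} {θ : N →* N} (h : ViaExtension incl ι θ) (q : ℕ) (c : (GH S).Ch q)
    (hc : (GH S).IsCycle q c) : ∃ c' : (GH L).Ch q, (GH L).IsCycle q c' ∧
      (hmap incl).chain q c + (hmap (θ.comp ι)).chain q c' ∈ (GH N).bdry q := by
  obtain ⟨E, _, j, φ, π, σ, hker, hσ, rfl, rfl⟩ := h
  refine ⟨(hmap (π.comp φ)).chain q c, (hmap _).isCycle hc, ?_⟩
  have h1 := hmap_eq_of_comp_eq π hker φ (σ.comp (π.comp φ))
    (by ext s; exact (DFunLike.congr_fun hσ (π (φ s))).symm) q c hc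
  have h2 := (hmap (θ.comp j)).mem_bdry h1
  rw [map_add, hmap_comp, hmap_comp] at h2
  rw [hmap_comp]
  exact h2

/-- An odd index normal subgroup: classes fixed by the conjugations vanish. -/
theorem mem_bdry_of_fixed {N U : Type} [Group N] [Group U] (j : N →* U)
    (hj : Function.Injective j) [j.range.Normal] [Finite (U ⧸ j.range)]
    (hodd : Odd (Nat.card (U ⧸ j.range))) {i : ℕ} (hU : (GH U).Exact i)
    (γ : U → N →* N) (hγ : ∀ u n, j (γ u n) = u * j n * u⁻¹) (y : (GH N).Ch i)
    (hy : (GH N).IsCycle i y) (hfix : ∀ u, (hmap (γ u)).chain i y + y ∈ (GH N).bdry i) :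
    y ∈ (GH N).bdry i := by
  let e : N ≃* j.range := MonoidHom.ofInjective hj
  have key : (hmap e.toMonoidHom).chain i y ∈ (GH j.range).bdry i := by
    refine mem_bdry_of_index_odd j.range hodd i _ ((hmap _).isCycle hy) (fun u φ hφ => ?_) ?_
    · have h1 := (hmap e.toMonoidHom).mem_bdry (hfix u)
      rw [map_add, hmap_comp] at h1
      rw [hmap_comp, hmap_congr (g := e.toMonoidHom.comp (γ u)) (fun n => Subtype.ext ?_)]
      · exact h1
      · show (φ (e n) : U) = j (γ u n)
        rw [hφ, hγ]
        rfl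
    · exact ((SSet.exact_iff _ _).1 hU) _ ((hmap _).isCycle ((hmap _).isCycle hy))
  have h2 := (hmap e.symm.toMonoidHom).mem_bdry key
  rwa [hmap_comp, hmap_congr (g := MonoidHom.id N) (fun n => by simp), hmap_id] at h2

/-- The stability step.

`W` is an acyclic complex of `N` whose orbit complex is acyclic and whose higher stabilisers have
no homology in low degrees; the vertex stabilisers come, up to an automorphism in `α`, from split
extensions of `L`; generators of the automorphisms fix the classes from `L`; `N` has odd finite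
index in `U`, which has no homology in degree `i`. -/
theorem stable_step {N U Aut' L : Type} [Group N] [Group U] [Group Aut'] [Group L]
    (α : Aut' →* MulAut N) (j : N →* U) (hj : Function.Injective j) [j.range.Normal]
    [Finite (U ⧸ j.range)] (hodd : Odd (Nat.card (U ⧸ j.range))) (a : U →* Aut')
    (hcompat : ∀ u n, j (α (a u) n) = u * j n * u⁻¹)
    {i : ℕ} (hi : 1 ≤ i) (hU : (GH U).Exact i)
    (W : GSSet N) [Nonempty (W.obj 0)] (hW : ∀ p < i, W.Exact p) (hA : W.quot.Exact i)
    (hstab : ∀ q p, 1 ≤ q → q < i → p + q = i → ∀ w, (GH (W.stab p w)).Exact q)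
    (ι : L →* N) (hvert : ∀ w, ∃ g, ViaExtension (W.stab 0 w).subtype ι (α g).toMonoidHom)
    (X : Set Aut') (hgen : Subgroup.closure X = ⊤)
    (hfix : ∀ x ∈ X, SameHom ι ((α x).toMonoidHom.comp ι)) :
    (GH N).Exact i := by
  have hinv : ∀ (g : Aut') (c : (GH L).Ch i), (GH L).IsCycle i c →
      (hmap (α g).toMonoidHom).chain i ((hmap ι).chain i c) + (hmap ι).chain i c ∈
        (GH N).bdry i := by
    intro g c hc
    have hg : g ∈ Subgroup.closure X := hgen ▸ Subgroup.mem_top g
    induction hg using Subgroup.closure_induction with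
    | mem x hx =>
      rw [hmap_comp, add_comm]
      exact (hfix x hx).homologous i c hc
    | one =>
      rw [hmap_congr (g := MonoidHom.id N) (fun n => by simp), hmap_id, add_self_zero]
      exact zero_mem _
    | mul x y _ _ hx hy =>
      have h1 := (hmap (α x).toMonoidHom).mem_bdry hy
      rw [map_add, hmap_comp] at h1
      rw [hmap_congr (g := (α x).toMonoidHom.comp (α y).toMonoidHom) (fun n => by simp)]
      exact SSet.bdry_trans h1 hx
    | inv x _ hx =>
      have h1 := (hmap (α x⁻¹).toMonoidHom).mem_bdry hx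
      rw [map_add, hmap_comp, hmap_congr (g := MonoidHom.id N) (fun n => by simp [map_inv]),
        hmap_id, add_comm] at h1
      exact h1
  have hzero : ∀ c : (GH L).Ch i, (GH L).IsCycle i c → (hmap ι).chain i c ∈ (GH N).bdry i :=
    fun c hc => mem_bdry_of_fixed j hj hodd hU (fun u => (α (a u)).toMonoidHom) hcompat _
      ((hmap ι).isCycle hc) fun u => hinv (a u) c hc
  rw [SSet.exact_iff]
  intro z hz
  refine SetLike.le_def.1 (sup_le (Submodule.span_le.2 ?_) le_rfl)
    (mem_vertexPart W hi hW hA hstab z hz)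
  rintro _ ⟨w, c, hc, rfl⟩
  obtain ⟨g, hg⟩ := hvert w
  obtain ⟨c', hc', h⟩ := hg.homologous i c hc
  refine SSet.mem_bdry_of_add h ?_
  rw [← hmap_comp]
  exact (hmap _).mem_bdry (hzero c' hc')

/-- The induction on the degree. -/
theorem stable_induction (Γ : ℕ → Type) [∀ n, Group (Γ n)]
    (step : ∀ n i, 1 ≤ i → 2 * i + 2 ≤ n →
      (∀ q m, 1 ≤ q → q < i → 2 * q + 2 ≤ m → (GH (Γ m)).Exact q) → (GH (Γ n)).Exact i) :
    ∀ n i, 1 ≤ i → 2 * i + 2 ≤ n → (GH (Γ n)).Exact i := by
  intro n i
  induction i using Nat.strong_induction_on generalizing n with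
  | _ i ih => exact fun hi hn => step n i hi hn fun q m h1 h2 h3 => ih q h2 m h1 h3

end Vale.Agent.P067
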