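import Vale.Agent.P067.Top.Congruence
import Vale.Agent.P067.Top.PartialBasis
import Vale.Agent.P067.Top.Ranked

/-!
# P067 topology: vanishing of the homology of congruence subgroups

The partial bases of `F[t]^n` under the congruence subgroup instantiate the stability step.
-/

namespace Vale.Agent.P067.Top

open Finset Matrix Polynomial
open scoped Classical

noncomputable section

local instance (priority := 10000) {R : Type} {n : ℕ} : DecidableEq (Fin n → R) :=
  fun a b => Classical.propDecidable (a = b)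

variable {F : Type} [Field F] {s : ℕ} {n : ℕ}

lemma nontrivial_trunc (hs : 1 ≤ s) : Nontrivial (Trunc F s) := by
  refine Ideal.Quotient.nontrivial_iff.2 fun h => ?_
  rw [Ideal.span_singleton_eq_top] at h
  have := (Polynomial.natDegree_eq_zero_of_isUnit h)
  rw [natDegree_X_pow] at this
  omega

/-- Reduction of vectors. -/
def redv (F : Type) [Field F] (s : ℕ) (v : Fin n → F[X]) : Fin n → Trunc F s := fun i => red F s (v i)

lemma redv_single (i : Fin n) : redv F s (Pi.single i 1) = Pi.single i 1 := by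
  funext l
  simp [redv, Pi.single_apply, apply_ite (red F s)]

lemma redv_mulVec (g : SpecialLinearGroup (Fin n) F[X]) (v : Fin n → F[X]) :
    redv F s ((g : Matrix (Fin n) (Fin n) F[X]) *ᵥ v) =
      ((SpecialLinearGroup.map (red F s) g : SpecialLinearGroup (Fin n) (Trunc F s)) :
        Matrix (Fin n) (Fin n) (Trunc F s)) *ᵥ redv F s v := by
  funext i
  show red F s ((g : Matrix (Fin n) (Fin n) F[X]) i ⬝ᵥ v) = _
  rw [RingHom.map_dotProduct]
  rfl

lemma redv_smul_gam {g : SpecialLinearGroup (Fin n) F[X]} (hg : g ∈ Gam F s (Fin n))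
    (v : Fin n → F[X]) : redv F s ((g : Matrix (Fin n) (Fin n) F[X]) *ᵥ v) = redv F s v := by
  rw [redv_mulVec, show SpecialLinearGroup.map (red F s) g = 1 from hg]
  exact one_mulVec _

lemma IsPB.image_redv {σ : Finset (Fin n → F[X])} (h : IsPB σ) (hs : 1 ≤ s) :
    Set.InjOn (redv F s) (σ : Set (Fin n → F[X])) ∧ IsPB (σ.image (redv F s)) := by
  have := nontrivial_trunc (F := F) hs
  choose f h1 h2 using h
  have key : ∀ (φ : (Fin n → F[X]) →ₗ[F[X]] F[X]) (u : Fin n → F[X]),
      ∑ i, red F s (u i) * red F s (φ (Pi.single i 1)) = red F s (φ u) := by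
    intro φ u
    conv_rhs => rw [show u = ∑ i, u i • (Pi.single i 1 : Fin n → F[X]) by
      funext l; simp [Finset.sum_apply, Pi.single_apply]]
    simp only [map_sum, map_smul, smul_eq_mul, map_mul]
  have inj : Set.InjOn (redv F s) (σ : Set (Fin n → F[X])) := by
    intro v hv w hw e
    by_contra hne
    have e1 := key (f v hv) v
    have e2 := key (f v hv) w
    rw [h1, map_one] at e1
    rw [h2 v hv w hw (Ne.symm hne), map_zero] at e2
    have e3 : ∀ i, red F s (v i) = red F s (w i) := fun i => congrFun e i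
    simp only [e3] at e1
    exact one_ne_zero (α := Trunc F s) (e1.symm.trans e2)
  refine ⟨inj, fun x hx => ?_⟩
  obtain ⟨v, hv, rfl⟩ := mem_image.1 hx
  refine ⟨∑ i, red F s (f v hv (Pi.single i 1)) • LinearMap.proj i, ?_, fun y hy hne => ?_⟩
  · simp only [LinearMap.coe_sum, Finset.sum_apply, LinearMap.smul_apply, LinearMap.proj_apply,
      smul_eq_mul, redv]
    simp_rw [mul_comm (red F s (f v hv _))]
    rw [key, h1, map_one]
  · obtain ⟨w, hw, rfl⟩ := mem_image.1 hy
    simp only [LinearMap.coe_sum, Finset.sum_apply, LinearMap.smul_apply, LinearMap.proj_apply,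
      smul_eq_mul, redv]
    simp_rw [mul_comm (red F s (f v hv _))]
    rw [key, h2 v hv w hw (fun e => hne (by rw [e])), map_zero]

instance vecAction : MulAction (Gam F s (Fin n)) (Fin n → F[X]) where
  smul g v := (g.1 : Matrix (Fin n) (Fin n) F[X]) *ᵥ v
  one_smul v := one_mulVec v
  mul_smul g h v := mul_mulVec' g.1 h.1 v

lemma smul_def' (g : Gam F s (Fin n)) (v : Fin n → F[X]) :
    g • v = (g.1 : Matrix (Fin n) (Fin n) F[X]) *ᵥ v := rfl

variable [Finite F]

instance countable_trunc : Countable (Trunc F s) := by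
  have : Countable F[X] := Countable.of_equiv _ (Polynomial.basisMonomials F).repr.toEquiv.symm
  exact Quotient.countable

/-- An enumeration of the reduced vectors. -/
def enumVec (F : Type) [Field F] [Finite F] (s n : ℕ) : (Fin n → Trunc F s) → ℕ :=
  (Countable.exists_injective_nat (Fin n → Trunc F s)).choose

lemma enumVec_injective : Function.Injective (enumVec F s n) :=
  (Countable.exists_injective_nat (Fin n → Trunc F s)).choose_spec

/-- Partial bases of `F[t]^n`. -/
def pbX (F : Type) [Field F] [Finite F] (s n : ℕ) (hs : 1 ≤ s) : Ranked (Fin n → F[X]) where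
  K := {σ | IsPB σ}
  rank v := enumVec F s n (redv F s v)
  down := fun _ hσ _ hτ => IsPB.mono hσ hτ
  inj := fun _ hσ v hv w hw e => (IsPB.image_redv hσ hs).1 hv hw (enumVec_injective e)

/-- Partial bases modulo `t^s`. -/
def pbT (F : Type) [Field F] [Finite F] (s n : ℕ) : Ranked (Fin n → Trunc F s) where
  K := {σ | IsPB σ}
  rank := enumVec F s n
  down := fun _ hσ _ hτ => IsPB.mono hσ hτ
  inj := fun _ _ => enumVec_injective.injOn

lemma exact_isPB {R : Type} [CommRing R] [Nontrivial R] (hR : HasDivNorm R) {k : ℕ} (hk : k < n) :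
    Exact {σ : Finset (Fin n → R) | IsPB σ} k := by
  have e : {σ : Finset (Fin n → R) | IsPB σ} = PB ∅ := by
    ext σ
    simp [PB]
  rw [e]
  exact exact_PB' hR ∅ (fun v hv => absurd hv (notMem_empty v)) k (by simpa using hk)

omit [Finite F] in
lemma smul_isPB (g : Gam F s (Fin n)) {σ : Finset (Fin n → F[X])} (h : IsPB σ) :
    IsPB (σ.image (g • ·)) := by
  intro x hx
  obtain ⟨v, hv, rfl⟩ := mem_image.1 hx
  obtain ⟨f, h1, h2⟩ := h v hv
  refine ⟨f.comp (Matrix.mulVecLin ((g⁻¹).1 : Matrix (Fin n) (Fin n) F[X])), ?_, fun y hy hne => ?_⟩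
  · show f (g⁻¹ • g • v) = 1
    rw [inv_smul_smul, h1]
  · obtain ⟨w, hw, rfl⟩ := mem_image.1 hy
    show f (g⁻¹ • g • w) = 0
    rw [inv_smul_smul]
    exact h2 w hw fun e => hne (by rw [e])

/-- The complex of partial bases with the action of the congruence subgroup. -/
def pbW (F : Type) [Field F] [Finite F] (s n : ℕ) (hs : 1 ≤ s) : GSSet (Gam F s (Fin n)) :=
  (pbX F s n hs).gsset (fun g _ hσ => smul_isPB g hσ) fun g v => by
    show enumVec F s n (redv F s (g • v)) = _
    rw [smul_def', redv_smul_gam g.2]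
    rfl

/-- Moving a partial basis with fewer than `n` members to standard vectors. -/
lemma exists_move {R : Type} [CommRing R] (hR : HasDivNorm R) {σ : Finset (Fin n → R)}
    (hσ : IsPB σ) {k : ℕ} (v : Fin k → Fin n → R) (hv : Function.Injective v)
    (hmem : ∀ a, v a ∈ σ) (p : Fin k → Fin n) (hp : Function.Injective p)
    (hout : ∃ i, i ∉ Set.range p) :
    ∃ g : SpecialLinearGroup (Fin n) R,
      ∀ a, (g : Matrix (Fin n) (Fin n) R) *ᵥ v a = Pi.single (p a) 1 := by
  choose f h1 h2 using hσ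
  obtain ⟨g, -, hg⟩ := exists_el_mulVec hR v ⟨fun a => f (v a) (hmem a), fun a b => by
    by_cases h : a = b
    · subst h; simp [h1]
    · rw [if_neg h, h2 _ _ _ (hmem b) fun e => h (hv e).symm]⟩ p hp hout
  exact ⟨g, hg⟩

lemma smul_inv_single {R : Type} [CommRing R] (g : SpecialLinearGroup (Fin n) R)
    {v : Fin n → R} {i : Fin n} (h : (g : Matrix (Fin n) (Fin n) R) *ᵥ v = Pi.single i 1) :
    ((g⁻¹ : _) : Matrix (Fin n) (Fin n) R) *ᵥ Pi.single i 1 = v := by
  rw [← h, ← mul_mulVec', inv_mul_cancel]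
  exact one_mulVec v

omit [Finite F] in
lemma exists_lift_isPB (hs : 1 ≤ s) {τ : Finset (Fin n → Trunc F s)} (hτ : IsPB τ)
    (hk : τ.card < n) : ∃ σ : Finset (Fin n → F[X]),
      IsPB σ ∧ σ.card = τ.card ∧ σ.image (redv F s) = τ := by
  have := nontrivial_trunc (F := F) hs
  let v : Fin τ.card → Fin n → Trunc F s := fun a => (τ.equivFin.symm a).1
  let p : Fin τ.card → Fin n := Fin.castLE hk.le
  have hp : Function.Injective p := Fin.castLE_injective _
  obtain ⟨g, hg⟩ := exists_move (hasDivNorm_trunc F s) hτ v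
    (fun a b h => τ.equivFin.symm.injective (Subtype.ext h)) (fun a => (τ.equivFin.symm a).2) p hp
    ⟨⟨τ.card, hk⟩, by
      rintro ⟨x, hx⟩
      exact absurd (congrArg Fin.val hx) (by simp only [p, Fin.val_castLE]; omega)⟩
  obtain ⟨G, hG⟩ := map_surjective (ι := Fin n) (red F s) (red_surjective F s)
    (hasDivNorm_trunc F s) g
  let w : Fin τ.card → Fin n → F[X] := fun a =>
    ((G⁻¹ : _) : Matrix (Fin n) (Fin n) F[X]) *ᵥ Pi.single (p a) 1
  have hGw : ∀ a, (G : Matrix (Fin n) (Fin n) F[X]) *ᵥ w a = Pi.single (p a) 1 := fun a => by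
    simp only [w]
    rw [← mul_mulVec', mul_inv_cancel]
    exact one_mulVec _
  have hwinj : Function.Injective w := fun a b e => by
    have h := hGw a
    rw [e, hGw b] at h
    by_contra hne
    have h2 := congrFun h (p a)
    rw [Pi.single_eq_same, Pi.single_eq_of_ne (fun e => hne (hp e))] at h2
    exact zero_ne_one h2
  have hred : ∀ a, redv F s (w a) = v a := fun a => by
    simp only [w]
    rw [redv_mulVec, map_inv, hG, redv_single]
    exact smul_inv_single g (hg a)
  refine ⟨univ.image w, fun x hx => ?_, ?_, ?_⟩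
  · obtain ⟨a, -, rfl⟩ := mem_image.1 hx
    refine ⟨(LinearMap.proj (p a)).comp (Matrix.mulVecLin (G : Matrix (Fin n) (Fin n) F[X])), ?_,
      fun y hy hne => ?_⟩
    · simp only [LinearMap.comp_apply, Matrix.mulVecLin_apply, LinearMap.proj_apply, hGw,
        Pi.single_eq_same]
    · obtain ⟨b, -, rfl⟩ := mem_image.1 hy
      simp only [LinearMap.comp_apply, Matrix.mulVecLin_apply, LinearMap.proj_apply, hGw]
      exact Pi.single_eq_of_ne (fun e => hne (by rw [hp e])) _
  · rw [card_image_of_injective _ hwinj, card_univ, Fintype.card_fin]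
  · rw [image_image]
    ext x
    simp only [mem_image, mem_univ, true_and, Function.comp_apply, hred]
    exact ⟨fun ⟨a, e⟩ => e ▸ (τ.equivFin.symm a).2,
      fun hx => ⟨τ.equivFin ⟨x, hx⟩, by simp [v]⟩⟩

omit [Finite F] in
lemma exists_gam_image (hs : 1 ≤ s) {σ σ' : Finset (Fin n → F[X])} (hσ : IsPB σ) (hσ' : IsPB σ')
    (hk : σ.card < n) (h : σ.image (redv F s) = σ'.image (redv F s)) :
    ∃ g : Gam F s (Fin n), σ.image (g • ·) = σ' := by
  let v : Fin σ.card → Fin n → F[X] := fun a => (σ.equivFin.symm a).1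
  have hv : Function.Injective v := fun a b e => σ.equivFin.symm.injective (Subtype.ext e)
  have hvm : ∀ a, v a ∈ σ := fun a => (σ.equivFin.symm a).2
  have hex : ∀ a, ∃ y ∈ σ', redv F s y = redv F s (v a) := fun a =>
    mem_image.1 (h ▸ mem_image_of_mem _ (hvm a))
  choose v' hv'm hv'r using hex
  have hv' : Function.Injective v' := fun a b e =>
    hv ((IsPB.image_redv hσ hs).1 (hvm a) (hvm b) (by rw [← hv'r a, e, hv'r b]))
  let p : Fin σ.card → Fin n := Fin.castLE hk.le
  have hp : Function.Injective p := Fin.castLE_injective _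
  have hout : ∃ i, i ∉ Set.range p := ⟨⟨σ.card, hk⟩, by
    rintro ⟨x, hx⟩
    exact absurd (congrArg Fin.val hx) (by simp only [p, Fin.val_castLE]; omega)⟩
  obtain ⟨h₁, hh₁⟩ := exists_move (hasDivNorm_polynomial F) hσ v hv hvm p hp hout
  obtain ⟨h₂, hh₂⟩ := exists_move (hasDivNorm_polynomial F) hσ' v' hv' hv'm p hp hout
  let P : Finset (Fin n) := univ.image p
  set δ := SpecialLinearGroup.map (red F s) h₂ * (SpecialLinearGroup.map (red F s) h₁)⁻¹ with hδdef
  have hδ : δ ∈ colStab P := by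
    intro a ha
    obtain ⟨x, -, rfl⟩ := mem_image.1 ha
    have e1 := redv_mulVec (s := s) h₁ (v x)
    rw [hh₁, redv_single] at e1
    have e2 := redv_mulVec (s := s) h₂ (v' x)
    rw [hh₂, redv_single, hv'r] at e2
    rw [hδdef, mul_mulVec', smul_inv_single _ e1.symm]
    exact e2.symm
  obtain ⟨ε, hε, hεr⟩ := exists_lift_colStab P hδ
  have hg : h₂⁻¹ * ε * h₁ ∈ Gam F s (Fin n) := by
    show SpecialLinearGroup.map (red F s) _ = 1
    rw [map_mul, map_mul, map_inv, hεr, hδdef]
    group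
  refine ⟨⟨_, hg⟩, ?_⟩
  have hmap : ∀ a, ((h₂⁻¹ * ε * h₁ : _) : Matrix (Fin n) (Fin n) F[X]) *ᵥ v a = v' a := fun a => by
    rw [mul_mulVec', mul_mulVec', hh₁, hε (p a) (mem_image_of_mem p (mem_univ a))]
    exact smul_inv_single h₂ (hh₂ a)
  have e1 : σ = univ.image v := by
    ext x
    simp only [mem_image, mem_univ, true_and]
    exact ⟨fun hx => ⟨σ.equivFin ⟨x, hx⟩, by simp [v]⟩, fun ⟨a, e⟩ => e ▸ hvm a⟩
  have e2 : σ' = univ.image v' := by
    refine (eq_of_subset_of_card_le (fun y hy => ?_) ?_).symm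
    · obtain ⟨a, -, rfl⟩ := mem_image.1 hy
      exact hv'm a
    · rw [card_image_of_injective _ hv', card_univ, Fintype.card_fin,
        ← card_image_of_injOn (IsPB.image_redv hσ hs).1, h,
        card_image_of_injOn (IsPB.image_redv hσ' hs).1]
  conv_lhs => rw [e1]
  rw [e2, image_image]
  exact image_congr fun a _ => hmap a

omit [Field F] [Finite F] in
lemma orderEmb_congr {k : ℕ} {A B : Finset ℕ} (h : A = B) (hA : A.card = k) (hB : B.card = k)
    (i : Fin k) : A.orderEmbOfFin hA i = B.orderEmbOfFin hB i := by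
  subst h
  rfl

/-- The orbit complex maps to partial bases modulo `t^s`. -/
def quotMap (hs : 1 ≤ s) : SSet.Hom (pbW F s n hs).quot (pbT F s n).sset where
  app q := Quotient.lift
    (fun σ : (pbX F s n hs).Simp q => (⟨σ.1.image (redv F s), (IsPB.image_redv σ.2.1 hs).2,
      by rw [card_image_of_injOn (IsPB.image_redv σ.2.1 hs).1, σ.2.2]⟩ : (pbT F s n).Simp q))
    (by
      rintro σ _ ⟨g, rfl⟩
      apply Subtype.ext
      show σ.1.image (redv F s) = (σ.1.image (g • ·)).image (redv F s)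
      rw [image_image]
      exact image_congr fun v _ => (redv_smul_gam g.2 v).symm)
  comm q i := by
    rintro ⟨σ⟩
    apply Subtype.ext
    show (σ.1.erase ((pbX F s n hs).member (q + 1) σ i)).image (redv F s) =
      (σ.1.image (redv F s)).erase _
    have hinj := (IsPB.image_redv σ.2.1 hs).1
    set m := (pbX F s n hs).member (q + 1) σ i
    have hm := (pbX F s n hs).member_spec (q + 1) σ i
    rw [← (pbT F s n).eq_member (q + 1) _ (mem_image_of_mem _ hm.1) ?_]
    · ext x
      simp only [mem_image, mem_erase]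
      constructor
      · rintro ⟨y, ⟨hne, hy⟩, rfl⟩
        exact ⟨fun e => hne (hinj hy hm.1 e), y, hy, rfl⟩
      · rintro ⟨hne, y, hy, rfl⟩
        exact ⟨y, ⟨fun e => hne (by rw [e]), hy⟩, rfl⟩
    · show enumVec F s n (redv F s m) = _
      rw [show enumVec F s n (redv F s m) = (pbX F s n hs).rank m from rfl, hm.2]
      unfold Ranked.rk
      exact orderEmb_congr
        (image_image (f := redv F s) (g := enumVec F s n) (s := σ.1)).symm _ _ i

omit [Field F] [Finite F] in
/-- Exactness pulls back along a map injective in degree `i` and surjective one degree higher. -/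
lemma exact_of_hom {S T : SSet} (f : SSet.Hom S T) {i : ℕ} (hi : 1 ≤ i)
    (hinj : Function.Injective (f.app i)) (hsurj : Function.Surjective (f.app (i + 1)))
    (h : T.Exact i) : S.Exact i := by
  obtain ⟨j, rfl⟩ : ∃ j, i = j + 1 := ⟨i - 1, by omega⟩
  intro z hz
  obtain ⟨w, hw⟩ := h (f.chain (j + 1) z) (by rw [← f.chain_bd, hz, map_zero])
  obtain ⟨u, rfl⟩ := Finsupp.mapDomain_surjective hsurj w
  refine ⟨u, Finsupp.mapDomain_injective hinj ?_⟩
  show f.chain (j + 1) (S.bd (j + 1) u) = f.chain (j + 1) z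
  rw [f.chain_bd]
  exact hw

lemma pbW_quot_exact (hs : 1 ≤ s) {i : ℕ} (hi : 1 ≤ i) (hn : i + 2 < n) :
    (pbW F s n hs).quot.Exact i := by
  have := nontrivial_trunc (F := F) hs
  refine exact_of_hom (quotMap hs) hi ?_ ?_
    ((pbT F s n).exact_sset (exact_isPB (hasDivNorm_trunc F s) (by omega)))
  · rintro ⟨σ⟩ ⟨σ'⟩ e
    obtain ⟨g, hg⟩ := exists_gam_image hs σ.2.1 σ'.2.1 (by rw [σ.2.2]; omega) (Subtype.ext_iff.1 e)
    exact Quotient.sound ⟨g, Subtype.ext hg⟩
  · rintro ⟨τ, hτ, hc⟩
    obtain ⟨σ, hσ, hσc, hσi⟩ := exists_lift_isPB hs hτ (by rw [hc]; omega)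
    exact ⟨Quotient.mk _ ⟨σ, hσ, hσc.trans hc⟩, Subtype.ext hσi⟩

lemma fixed_of_stab (hs : 1 ≤ s) {q : ℕ} {w : (pbX F s n hs).Simp q} {g : Gam F s (Fin n)}
    (hg : g ∈ (pbW F s n hs).stab q w) {x : Fin n → F[X]} (hx : x ∈ w.1) : g • x = x := by
  have e : w.1.image (g • ·) = w.1 := congrArg Subtype.val hg
  exact (IsPB.image_redv w.2.1 hs).1 (e ▸ mem_image_of_mem _ hx) hx (redv_smul_gam g.2 x)

/-- Conjugation identifies the stabiliser of a simplex with a column stabiliser. -/
def stabEquiv (hs : 1 ≤ s) {q : ℕ} (w : (pbX F s n hs).Simp q) (P : Finset (Fin n))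
    (h : SpecialLinearGroup (Fin n) F[X])
    (hto : ∀ x ∈ w.1, ∃ a ∈ P, (h : Matrix (Fin n) (Fin n) F[X]) *ᵥ x = Pi.single a 1)
    (hfrom : ∀ a ∈ P, ∃ x ∈ w.1, (h : Matrix (Fin n) (Fin n) F[X]) *ᵥ x = Pi.single a 1) :
    (pbW F s n hs).stab q w ≃* gamCol (F := F) (s := s) P where
  toFun g := ⟨MulAut.conjNormal h g.1, by
    intro a ha
    obtain ⟨x, hx, e⟩ := hfrom a ha
    show (((h * g.1.1 * h⁻¹) : _) : Matrix (Fin n) (Fin n) F[X]) *ᵥ Pi.single a 1 = Pi.single a 1
    rw [mul_mulVec', mul_mulVec', smul_inv_single h e]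
    show (h : Matrix (Fin n) (Fin n) F[X]) *ᵥ (g.1 • x) = _
    rw [fixed_of_stab hs g.2 hx]
    exact e⟩
  invFun g := ⟨MulAut.conjNormal h⁻¹ g.1, by
    apply Subtype.ext
    show w.1.image (MulAut.conjNormal h⁻¹ g.1 • ·) = w.1
    conv_rhs => rw [← image_id (s := w.1)]
    refine image_congr fun x hx => ?_
    obtain ⟨a, ha, e⟩ := hto x hx
    show ((h⁻¹ * g.1.1 * (h⁻¹)⁻¹ : _) : Matrix (Fin n) (Fin n) F[X]) *ᵥ x = x
    rw [inv_inv, mul_mulVec', mul_mulVec', e]
    exact (congrArg _ (g.2 a ha)).trans (smul_inv_single h e)⟩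
  left_inv g := Subtype.ext (Subtype.ext
    (show h⁻¹ * (h * g.1.1 * h⁻¹) * (h⁻¹)⁻¹ = g.1.1 by group))
  right_inv g := Subtype.ext (Subtype.ext
    (show h * (h⁻¹ * g.1.1 * (h⁻¹)⁻¹) * h⁻¹ = g.1.1 by group))
  map_mul' a b := Subtype.ext (map_mul (MulAut.conjNormal h) a.1 b.1)

/-- The vertex stabilisers come from the smaller congruence subgroup. -/
lemma pbW_hvert (hs : 1 ≤ s) (j₀ : Fin n) (hn : 2 ≤ n) {p : ℕ} [CharP F p] (hp : p.Prime)
    (hodd : Odd p) (w : (pbX F s n hs).Simp 0) :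
    ∃ g, ViaExtension ((pbW F s n hs).stab 0 w).subtype (gamEmb (F := F) (s := s) {j₀})
      (MulAut.conjNormal (g : SpecialLinearGroup (Fin n) F[X])).toMonoidHom := by
  obtain ⟨x, hx⟩ := card_eq_one.1 w.2.2
  have hout : ∃ i, i ∉ Set.range (fun _ : Fin 1 => j₀) := by
    have : Nontrivial (Fin n) := Fin.nontrivial_iff_two_le.2 hn
    obtain ⟨i, hi⟩ := exists_ne j₀
    exact ⟨i, fun ⟨a, ha⟩ => hi ha.symm⟩
  obtain ⟨h, hh⟩ := exists_move (hasDivNorm_polynomial F) w.2.1 (fun _ : Fin 1 => x)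
    (fun a b _ => Subsingleton.elim a b) (fun _ => by simp [hx]) (fun _ => j₀)
    (fun a b _ => Subsingleton.elim a b) hout
  let e := stabEquiv hs w {j₀} h (fun y hy => ⟨j₀, mem_singleton_self _, by
      rw [hx, mem_singleton] at hy
      exact hy ▸ hh 0⟩)
    (fun a ha => ⟨x, by simp [hx], by rw [mem_singleton.1 ha]; exact hh 0⟩)
  refine ⟨h⁻¹, gamCol (F := F) (s := s) {j₀}, inferInstance, (gamCol {j₀}).subtype,
    e.toMonoidHom, gamColOut {j₀}, gamColEmb {j₀}, locOdd_colOut {j₀} hp hodd, gamColOut_emb {j₀},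
    rfl, ?_⟩
  refine MonoidHom.ext fun g => Subtype.ext ?_
  show h⁻¹ * (h * g.1.1 * h⁻¹) * (h⁻¹)⁻¹ = g.1.1
  group

/-- The homology of congruence subgroups vanishes in the stable range. -/
theorem gam_exact (hs : 1 ≤ s) {p : ℕ} [CharP F p] (hp : p.Prime) (hodd : Odd p)
    (U : ∀ n [NeZero n], Subgroup (SpecialLinearGroup (Fin n) F[X]))
    (hle : ∀ n [NeZero n], Gam F s (Fin n) ≤ U n)
    (hfin : ∀ n [NeZero n], Finite (U n ⧸ (Gam F s (Fin n)).subgroupOf (U n)))
    (hoddU : ∀ n [NeZero n], Odd (Nat.card (U n ⧸ (Gam F s (Fin n)).subgroupOf (U n))))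
    (N : ℕ) (hU : ∀ n [NeZero n], n ≤ N → ∀ i, 1 ≤ i → 2 * i + 2 ≤ n → (GH (U n)).Exact i) :
    ∀ n ≤ N, ∀ i, 1 ≤ i → 2 * i + 2 ≤ n → (GH (Gam F s (Fin n))).Exact i := by
  intro n hnN i
  induction i using Nat.strong_induction_on generalizing n with
  | _ i ih => ?_
  intro hi hn
  replace ih : ∀ q m, 1 ≤ q → q < i → m ≤ N → 2 * q + 2 ≤ m → (GH (Gam F s (Fin m))).Exact q :=
    fun q m h1 h2 h3 h4 => ih q h2 m h3 h1 h4
  have hn0 : 0 < n := by omega
  have : NeZero n := ⟨hn0.ne'⟩
  let j₀ : Fin n := ⟨0, hn0⟩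
  have e : (Subgroup.inclusion (hle n)).range = (Gam F s (Fin n)).subgroupOf (U n) := by
    ext x
    exact ⟨fun ⟨y, hy⟩ => hy ▸ y.2, fun hx => ⟨⟨x.1, hx⟩, rfl⟩⟩
  have hnormal : (Subgroup.inclusion (hle n)).range.Normal := by rw [e]; infer_instance
  have hfin' : Finite (U n ⧸ (Subgroup.inclusion (hle n)).range) := by rw [e]; exact hfin n
  have hodd' : Odd (Nat.card (U n ⧸ (Subgroup.inclusion (hle n)).range)) := by
    rw [e]; exact hoddU n
  have : Nonempty ((pbW F s n hs).obj 0) := ⟨⟨{Pi.single j₀ 1}, fun v hv => by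
    rw [mem_singleton] at hv
    subst hv
    exact ⟨LinearMap.proj j₀, by simp,
      fun w hw hne => absurd (mem_singleton.1 hw) hne⟩, card_singleton _⟩⟩
  refine stable_step (MulAut.conjNormal (G := SpecialLinearGroup (Fin n) F[X])
      (H := Gam F s (Fin n))) (Subgroup.inclusion (hle n)) (Subgroup.inclusion_injective _) hodd'
    (U n).subtype (fun u g => Subtype.ext rfl) hi (hU n hnN i hi hn) (pbW F s n hs)
    (fun q hq => (pbX F s n hs).exact_sset (exact_isPB (hasDivNorm_polynomial F) (by omega)))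
    (pbW_quot_exact hs hi (by omega)) ?_ (gamEmb {j₀}) (fun w => pbW_hvert hs j₀ (by omega) hp hodd w)
    _ (closure_tv_through (hasDivNorm_polynomial F) j₀) ?_
  · intro q m hq hqi hm w
    have hc : w.1.card = m + 1 := w.2.2
    let v : Fin w.1.card → Fin n → F[X] := fun a => (w.1.equivFin.symm a).1
    let pp : Fin w.1.card → Fin n := Fin.castLE (by omega)
    have hpp : Function.Injective pp := Fin.castLE_injective _
    obtain ⟨h, hh⟩ := exists_move (hasDivNorm_polynomial F) w.2.1 v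
      (fun a b e => w.1.equivFin.symm.injective (Subtype.ext e))
      (fun a => (w.1.equivFin.symm a).2) pp hpp ⟨⟨w.1.card, by omega⟩, by
        rintro ⟨x, hx⟩
        exact absurd (congrArg Fin.val hx) (by simp only [pp, Fin.val_castLE]; omega)⟩
    let P : Finset (Fin n) := univ.image pp
    refine exact_of_equiv_split (stabEquiv hs w P h
      (fun x hx => ⟨pp (w.1.equivFin ⟨x, hx⟩), mem_image_of_mem pp (mem_univ _), by
        simpa [v] using hh (w.1.equivFin ⟨x, hx⟩)⟩)
      (fun a ha => by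
        obtain ⟨b, -, rfl⟩ := mem_image.1 ha
        exact ⟨v b, (w.1.equivFin.symm b).2, hh b⟩))
      (gamColOut P) (locOdd_colOut P hp hodd) (gamColEmb P) (gamColOut_emb P) ?_
    have hcard : Fintype.card {i : Fin n // i ∉ P} = n - (m + 1) := by
      rw [Fintype.card_subtype_compl, Fintype.card_fin, Fintype.card_coe,
        card_image_of_injective _ hpp, card_univ, Fintype.card_fin, hc]
    exact exact_of_mulEquiv (gamCongr (Fintype.equivFinOfCardEq hcard))
      (ih q (n - (m + 1)) hq hqi (by omega) (by omega))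
  · rintro g ⟨l, hl, c, hg⟩
    exact sameHom_conj j₀ l hl c hp hodd g hg

end

end Vale.Agent.P067.Top
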