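import Vale.Agent.P067.Top.Chamber
import Vale.Agent.P067.Top.StepA

/-!
# P067 topology: the family of unipotent groups

The facts about `U+` and its congruence subgroups used by the vanishing theorem and by the covers.
-/

namespace Vale.Agent.P067.Top.Lat

open Finset Polynomial Matrix
open scoped Classical

variable {F : Type} [Field F]

/-- `U+`, also in dimension zero (where it is everything). -/
noncomputable def UpA (F : Type) [Field F] (m : ℕ) : Subgroup (SpecialLinearGroup (Fin m) F[X]) :=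
  ⨅ h : NeZero m, @Up F _ m h

lemma mem_upA {m : ℕ} [NeZero m] {g : SpecialLinearGroup (Fin m) F[X]} :
    g ∈ UpA F m ↔ g ∈ Up F m := by
  rw [UpA, Subgroup.mem_iInf]
  exact ⟨fun h => h inferInstance, fun h _ => h⟩

/-- The inclusion into `U+`. -/
def toUp {m : ℕ} [NeZero m] : UpA F m →* Up F m where
  toFun g := ⟨g.1, mem_upA.1 g.2⟩
  map_one' := rfl
  map_mul' _ _ := rfl

lemma toUp_injective {m : ℕ} [NeZero m] : Function.Injective (toUp (F := F) (m := m)) :=
  fun _ _ h => Subtype.ext (congrArg (fun x : Up F m => x.1) h)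

noncomputable instance upAAction (m : ℕ) [NeZero m] : MulAction (UpA F m) (posModel F m).Vert :=
  MulAction.compHom _ toUp

lemma upA_smul {m : ℕ} [NeZero m] (g : UpA F m) (v : (posModel F m).Vert) : g • v = toUp g • v :=
  rfl

theorem gam_le_upA {s : ℕ} (hs : 1 ≤ s) (m : ℕ) : Gam F s (Fin m) ≤ UpA F m :=
  le_iInf fun h => @gam_le_Up F _ m h s hs

theorem preserves_upA (m : ℕ) [NeZero m] : (posModel F m).Preserves (UpA F m) where
  good g _ hσ := good_smul (g := toUp g) hσ
  ind g v := ind_smul (toUp g) v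

/-- `U+` is transitive on good simplices of each type. -/
theorem transitive_upA (m : ℕ) [NeZero m] :
    ∀ σ ∈ (posModel F m).good, ∀ σ' ∈ (posModel F m).good,
      σ.image (posModel F m).rankV = σ'.image (posModel F m).rankV →
      ∃ g : UpA F m, σ.image (g • ·) = σ' := by
  intro σ hσ σ' hσ' e
  obtain ⟨C, hC, hsub, hcard⟩ := good_extend hσ
  obtain ⟨C', hC', hsub', hcard'⟩ := good_extend hσ'
  obtain ⟨g, hg⟩ := good_transitive hC hcard hC' hcard'
  refine ⟨⟨g.1, mem_upA.2 g.2⟩, eq_of_subset_of_card_le (fun w hw => ?_) ?_⟩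
  · obtain ⟨v, hv, rfl⟩ : ∃ v ∈ σ, g • v = w := mem_image.1 hw
    obtain ⟨u, hu, hru⟩ := mem_image.1 (e ▸ mem_image_of_mem (posModel F m).rankV hv)
    have h2 : g • v ∈ C' := by rw [← hg]; exact mem_image_of_mem (g • ·) (hsub hv)
    have hgu : g • v = u := (posModel F m).rankV_inj hC'.1 h2 (hsub' hu) (by
      rw [hru]
      exact congrArg Int.toNat (ind_smul g v))
    exact hgu ▸ hu
  · have e1 : (σ.image (fun x => (⟨g.1, mem_upA.2 g.2⟩ : UpA F m) • x)).card = σ.card :=
      card_image_of_injective _ (MulAction.injective _)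
    rw [e1, ← card_image_of_injOn ((posModel F m).rankV_inj hσ'.1), ← e,
      card_image_of_injOn ((posModel F m).rankV_inj hσ.1)]

lemma finite_trunc [Finite F] (s : ℕ) : Finite (Trunc F s) := by
  have := Fintype.ofFinite F
  have : Module.Finite F (AdjoinRoot ((X : F[X]) ^ s)) :=
    (Polynomial.monic_X_pow s).finite_adjoinRoot
  exact (Module.finite_of_finite F : Finite (AdjoinRoot ((X : F[X]) ^ s)))

/-- The reduction modulo `t^s` of `U+`. -/
noncomputable def redU (F : Type) [Field F] (s m : ℕ) :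
    UpA F m →* SpecialLinearGroup (Fin m) (Trunc F s) :=
  (SpecialLinearGroup.map (red F s)).comp (UpA F m).subtype

lemma ker_redU (s m : ℕ) : (redU F s m).ker = (Gam F s (Fin m)).subgroupOf (UpA F m) := rfl

/-- The congruence subgroups have finite index. -/
theorem finite_quot [Finite F] (s m : ℕ) :
    Finite (UpA F m ⧸ (Gam F s (Fin m)).subgroupOf (UpA F m)) := by
  have := finite_trunc (F := F) s
  have : Finite (Matrix (Fin m) (Fin m) (Trunc F s)) :=
    inferInstanceAs (Finite (Fin m → Fin m → Trunc F s))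
  have : Finite (SpecialLinearGroup (Fin m) (Trunc F s)) :=
    Finite.of_injective (fun g => (g : Matrix (Fin m) (Fin m) (Trunc F s))) fun a b h => Subtype.ext h
  have h : Finite (UpA F m ⧸ (redU F s m).ker) :=
    Finite.of_injective (QuotientGroup.kerLift (redU F s m)) (QuotientGroup.kerLift_injective _)
  exact h

/-- Powers of `g - 1` move supports up. -/
lemma shift_pow {n : ℕ} [NeZero n] {g : Matrix (Fin n) (Fin n) F[X]} (hg : Low g) (e : ℕ) :
    ∀ x (v : K F), v ∈ M F x → act ((g - 1) ^ e) v ∈ M F (x + e) := by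
  induction e with
  | zero => intro x v hv; simpa [act_one] using hv
  | succ e ih =>
    intro x v hv
    rw [pow_succ, act_mul, Module.End.mul_apply]
    have h1 : act (g - 1) v ∈ M F (x + 1) := by
      rw [act_sub, act_one, LinearMap.sub_apply, Module.End.one_apply]
      obtain ⟨a, b⟩ := hg x v hv
      refine mem_M.2 fun z hz => ?_
      rcases lt_or_eq_of_le (show z ≤ x by omega) with h | h
      · simp [mem_M.1 a z h, mem_M.1 hv z h]
      · simp [h, b]
    have := ih (x + 1) _ h1
    rwa [show x + ((e + 1 : ℕ) : ℤ) = x + 1 + e by push_cast; ring]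

/-- Every element of `U+` has a power of `p` power in the congruence subgroup. -/
lemma pow_mem_gam {n s : ℕ} [NeZero n] {p : ℕ} [Fact p.Prime] [CharP F p]
    {g : SpecialLinearGroup (Fin n) F[X]} (hg : g ∈ Up F n) :
    g ^ p ^ ((s + 1) * n) ∈ Gam F s (Fin n) := by
  set k := (s + 1) * n
  have hp : 1 < p := (Fact.out : p.Prime).one_lt
  have hk : (s + 1) * n ≤ p ^ k := (Nat.lt_pow_self hp).le
  rw [mem_gam]
  intro a b
  have e : ((g ^ p ^ k : SpecialLinearGroup (Fin n) F[X]) : Matrix (Fin n) (Fin n) F[X]) - 1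
      = ((g : Matrix (Fin n) (Fin n) F[X]) - 1) ^ p ^ k := by
    rw [sub_pow_char_pow_of_commute _ _ (Commute.one_right _), one_pow]
    exact congrArg (fun A : Matrix (Fin n) (Fin n) F[X] => A - 1) (Matrix.SpecialLinearGroup.coe_pow g _)
  have hdvd : (X : F[X]) ^ s ∣
      (((g ^ p ^ k : SpecialLinearGroup (Fin n) F[X]) : Matrix (Fin n) (Fin n) F[X]) - 1) a b := by
    rw [e, Polynomial.X_pow_dvd_iff]
    intro d hd
    have h := shift_pow (F := F) (g := (g : Matrix (Fin n) (Fin n) F[X])) hg (p ^ k)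
      ((n : ℤ) * 0 + (b : ℕ)) _ (single_mem_M le_rfl 1)
    rw [← act_coord _ 0 a b d]
    refine mem_M.1 h _ ?_
    have h1 : ((a : ℕ) : ℤ) < n := by exact_mod_cast a.2
    have h2 : (0 : ℤ) ≤ (b : ℕ) := Int.natCast_nonneg _
    have h3 : (((s + 1) * n : ℕ) : ℤ) ≤ ((p ^ k : ℕ) : ℤ) := by exact_mod_cast hk
    have h4 : (n : ℤ) * d ≤ n * s := mul_le_mul_of_nonneg_left (by omega) (by positivity)
    push_cast at h3 ⊢
    nlinarith
  rw [← Ideal.mem_span_singleton, Matrix.sub_apply, ← Ideal.Quotient.mk_eq_mk_iff_sub_mem] at hdvd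
  show red F s _ = _
  rw [red, hdvd, Matrix.one_apply, Matrix.one_apply, apply_ite (Ideal.Quotient.mk _), map_one,
    map_zero]

/-- The congruence quotients are odd. -/
theorem odd_quot [Finite F] {p : ℕ} [CharP F p] (hp : p.Prime) (hodd : Odd p) (s m : ℕ) :
    Odd (Nat.card (UpA F m ⧸ (Gam F s (Fin m)).subgroupOf (UpA F m))) := by
  have := Fact.mk hp
  have := finite_quot (F := F) s m
  rcases Nat.eq_zero_or_pos m with rfl | hm
  · have : Subsingleton (SpecialLinearGroup (Fin 0) F[X]) :=
      ⟨fun a b => Subtype.ext (Subsingleton.elim _ _)⟩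
    have : Subsingleton (UpA F 0 ⧸ (Gam F s (Fin 0)).subgroupOf (UpA F 0)) :=
      Quot.Subsingleton
    rw [Nat.card_unique]
    exact odd_one
  have : NeZero m := ⟨by omega⟩
  have : ((Gam F s (Fin m)).subgroupOf (UpA F m)).Normal := ker_redU (F := F) s m ▸ MonoidHom.normal_ker _
  have hP : IsPGroup p (UpA F m ⧸ (Gam F s (Fin m)).subgroupOf (UpA F m)) := by
    intro x
    obtain ⟨g, rfl⟩ := QuotientGroup.mk_surjective x
    refine ⟨(s + 1) * m, ?_⟩
    rw [← QuotientGroup.mk_pow, QuotientGroup.eq_one_iff, Subgroup.mem_subgroupOf,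
      SubmonoidClass.coe_pow]
    exact pow_mem_gam (mem_upA.1 g.2)
  obtain ⟨k, hk⟩ := IsPGroup.iff_card.1 hP
  rw [hk]
  exact hodd.pow

/-- The congruence subgroup acts freely on good vertices. -/
theorem free_upA {m s : ℕ} [NeZero m] (hs : 2 ≤ s) :
    ∀ g ∈ (Gam F s (Fin m)).subgroupOf (UpA F m), ∀ v : (posModel F m).Vert,
      {v} ∈ (posModel F m).good → g • v = v → g = 1 := by
  intro g hg v hv hfix
  refine toUp_injective ?_
  rw [map_one]
  exact good_free hs (g := toUp g) hg hv hfix

/-- The congruence subgroup moves no vertex inside a closed star. -/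
theorem star_upA {m s : ℕ} [NeZero m] (hs : 3 ≤ s) :
    ∀ g ∈ (Gam F s (Fin m)).subgroupOf (UpA F m), ∀ v w : (posModel F m).Vert,
      ({v, w} : Finset (posModel F m).Vert) ∈ (posModel F m).good →
      ({v, g • w} : Finset (posModel F m).Vert) ∈ (posModel F m).good → g • w = w := by
  intro g hg v w h1 h2
  rw [upA_smul, good_star hs (g := toUp g) hg h1 h2, one_smul]

/-- Stabilisers of good vertices are finite of odd order. -/
theorem locOdd_stab_upA [Finite F] {p : ℕ} [CharP F p] (hp : p.Prime) (hodd : Odd p)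
    (m : ℕ) [NeZero m] :
    ∀ v : (posModel F m).Vert, {v} ∈ (posModel F m).good →
      LocOdd (MulAction.stabilizer (UpA F m) v) := by
  intro v hv
  have := finite_quot (F := F) 2 m
  have : ((Gam F 2 (Fin m)).subgroupOf (UpA F m)).Normal := ker_redU (F := F) 2 m ▸ MonoidHom.normal_ker _
  set φ := (QuotientGroup.mk' ((Gam F 2 (Fin m)).subgroupOf (UpA F m))).comp
    (MulAction.stabilizer (UpA F m) v).subtype
  have hinj : Function.Injective φ := by
    rw [injective_iff_map_eq_one]
    intro g hg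
    refine Subtype.ext (free_upA le_rfl g.1 ?_ v hv g.2)
    exact (QuotientGroup.eq_one_iff _).1 hg
  have : Finite (MulAction.stabilizer (UpA F m) v) := Finite.of_injective φ hinj
  exact LocOdd.of_finite ((odd_quot hp hodd 2 m).of_dvd_nat (Subgroup.card_dvd_of_injective φ hinj))

/-- The index of the congruence subgroups grows. -/
theorem card_quot_ge [Finite F] {m : ℕ} (hm : 2 ≤ m) (s : ℕ) :
    Nat.card F ^ (s - 1) ≤ Nat.card (UpA F m ⧸ (Gam F s (Fin m)).subgroupOf (UpA F m)) := by
  have := finite_quot (F := F) s m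
  have : NeZero m := ⟨by omega⟩
  have hne : (⟨1, by omega⟩ : Fin m) ≠ ⟨0, by omega⟩ := by simp
  set c : (Fin (s - 1) → F) → F[X] := fun a => ∑ e : Fin (s - 1), monomial ((e : ℕ) + 1) (a e)
  have hc0 : ∀ a, (c a).coeff 0 = 0 := fun a => by
    simp [c, coeff_monomial]
  have hmem : ∀ a, tv (⟨1, by omega⟩ : Fin m) ⟨0, by omega⟩ hne (c a) ∈ UpA F m := fun a => by
    refine mem_upA.2 (low_of_coeff fun k i _ => ?_)
    show (transvection (⟨1, by omega⟩ : Fin m) ⟨0, by omega⟩ (c a) k i).coeff 0 = _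
    rw [transvection, Matrix.add_apply, coeff_add, Matrix.one_apply, Matrix.single_apply]
    split_ifs <;> simp [hc0]
  have h := Nat.card_le_card_of_injective (fun a : Fin (s - 1) → F =>
    (⟨_, hmem a⟩ : UpA F m) |> QuotientGroup.mk (s := (Gam F s (Fin m)).subgroupOf (UpA F m))) ?_
  · simpa [Nat.card_fun] using h
  intro a b hab
  have he : redU F s m ⟨_, hmem a⟩ = redU F s m ⟨_, hmem b⟩ := by
    have h1 : (⟨_, hmem a⟩ : UpA F m)⁻¹ * ⟨_, hmem b⟩ ∈ (redU F s m).ker := QuotientGroup.eq.1 hab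
    rw [MonoidHom.mem_ker, map_mul, map_inv, inv_mul_eq_one] at h1
    exact h1
  have h2 : red F s (c a) = red F s (c b) := by
    have h3 := congrArg (fun A : SpecialLinearGroup (Fin m) (Trunc F s) =>
      (A : Matrix (Fin m) (Fin m) (Trunc F s)) ⟨1, by omega⟩ ⟨0, by omega⟩) he
    have hentry : ∀ x : F[X], transvection (⟨1, by omega⟩ : Fin m) ⟨0, by omega⟩ x ⟨1, by omega⟩
        ⟨0, by omega⟩ = x := fun x => by simp [transvection, Matrix.one_apply]
    change red F s (transvection _ _ (c a) _ _) = red F s (transvection _ _ (c b) _ _) at h3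
    rwa [hentry, hentry] at h3
  rw [red, Ideal.Quotient.mk_eq_mk_iff_sub_mem, Ideal.mem_span_singleton] at h2
  funext e
  have h4 := Polynomial.X_pow_dvd_iff.1 h2 ((e : ℕ) + 1) (by have := e.2; omega)
  have h5 : ∀ a : Fin (s - 1) → F, (c a).coeff ((e : ℕ) + 1) = a e := fun a => by
    simp only [c, finsetSum_coeff, coeff_monomial]
    rw [sum_eq_single e]
    · simp
    · intro d _ hd
      rw [if_neg]
      exact fun h => hd (Fin.ext (by omega))
    · simp
  rw [coeff_sub, h5, h5, sub_eq_zero] at h4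
  exact h4

end Vale.Agent.P067.Top.Lat
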